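import Vale.Agent.P106.U.S3.Props
import Vale.Agent.P106.U.H300.GenX
import Vale.Agent.P106.U.CellN
import Vale.Agent.P127.Stk.BaseC

/-!
# P106 / U / H101 : a run with a smaller margin and other offsets (helper101)

* `lc C μ o` : the path `C` with the margin `μ` and the offsets `o`; `low R μ o` : the run with this path.
* `low_path`, `low_ok`, `low_light`, `low_cap` : everything except the cells is unchanged (`μ ≤ R.C.μ`).
* `cellZ`, `good_low` : `Good` depends neither on the cap nor on the margin nor on the offsets (given the ray side the cell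
  is the letter `T`).
* `exists_off` : one choice of the offsets for a finite list of events (300's `gen3`).
-/

set_option autoImplicit false

namespace Vale.Agent.P106.U.H101

open Finset Vale.Agent.P127 Vale.Agent.P127.Stk Vale.Agent.P127.U Vale.Agent.P106.W
open Vale.Agent.P106.K (Ry RyOk bl Bin)
open Vale.Agent.P127.U.Mic (colp)
open Vale.Agent.P127.U.CellD (q2 rd q2_pos q2_le)
open Vale.Agent.P106.U.Cell (Pth Ray)
open Vale.Agent.P106.U.S3 (Run NoStrip)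

/-! ### paths -/

section path

variable {Ω τ : Type}

/-- the path `C` with the margin `μ` and the offsets `o` -/
def lc (C : Pth Ω τ) (μ : ℕ) (o : Fin 7 → ℝ) : Pth Ω τ := { C with μ := μ, o := o }

theorem lc_l (C : Pth Ω τ) (μ : ℕ) (o : Fin 7 → ℝ) : (lc C μ o).l = C.l := rfl
theorem lc_t (C : Pth Ω τ) (μ : ℕ) (o : Fin 7 → ℝ) : (lc C μ o).t = C.t := rfl
theorem lc_p (C : Pth Ω τ) (μ : ℕ) (o : Fin 7 → ℝ) : (lc C μ o).p = C.p := rfl
theorem lc_T (C : Pth Ω τ) (μ : ℕ) (o : Fin 7 → ℝ) : (lc C μ o).T = C.T := rfl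
theorem lc_a (C : Pth Ω τ) (μ : ℕ) (o : Fin 7 → ℝ) : (lc C μ o).a = C.a := rfl
theorem lc_rf (C : Pth Ω τ) (μ : ℕ) (o : Fin 7 → ℝ) : (lc C μ o).rf = C.rf := rfl
theorem lc_rk (C : Pth Ω τ) (μ : ℕ) (o : Fin 7 → ℝ) : (lc C μ o).rk = C.rk := rfl
theorem lc_μ (C : Pth Ω τ) (μ : ℕ) (o : Fin 7 → ℝ) : (lc C μ o).μ = μ := rfl
theorem lc_o (C : Pth Ω τ) (μ : ℕ) (o : Fin 7 → ℝ) : (lc C μ o).o = o := rfl

theorem lc_s (C : Pth Ω τ) (μ : ℕ) (o : Fin 7 → ℝ) : (lc C μ o).s = C.s := by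
  funext i ω; unfold Pth.s; rfl

theorem lc_F (C : Pth Ω τ) (μ : ℕ) (o : Fin 7 → ℝ) : (lc C μ o).F = C.F := by
  funext i ω; unfold Pth.F Pth.Fv Pth.tv; rfl

theorem lc_bs (C : Pth Ω τ) (μ : ℕ) (o : Fin 7 → ℝ) : (lc C μ o).bs = C.bs := by
  funext i b; unfold Pth.bs; rfl

theorem lc_R (C : Pth Ω τ) (μ : ℕ) (o : Fin 7 → ℝ) : (lc C μ o).R = C.R := by
  funext i b; unfold Pth.R; rw [lc_bs]; rfl

theorem lc_sl (C : Pth Ω τ) (μ : ℕ) (o : Fin 7 → ℝ) : (lc C μ o).sl = C.sl := by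
  funext i b ω; unfold Pth.sl; rw [lc_F, lc_bs, lc_l]

theorem lc_slR (C : Pth Ω τ) (μ : ℕ) (o : Fin 7 → ℝ) : H420.slR (lc C μ o) = H420.slR C := by
  funext i b ω
  unfold H420.slR
  rw [lc_F, lc_bs, lc_l, lc_s]
  rfl

theorem lc_U (C : Pth Ω τ) (μ : ℕ) (o : Fin 7 → ℝ) : (lc C μ o).U = C.U := by
  funext i ω; unfold Pth.U; rfl

/-- normalisation and compatibility for a smaller margin -/
theorem lc_Ok {C : Pth Ω τ} {μ : ℕ} (o : Fin 7 → ℝ) {K : ℝ} {ω : Ω} (hμ : μ ≤ C.μ) (h : C.Ok K ω) :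
    (lc C μ o).Ok K ω where
  v1 := h.v1
  w1 := h.w1
  p1 := h.p1.trans (by rw [lc_μ]; exact q2_le (by omega))
  n1 := by rw [lc_F, lc_l, lc_s]; exact h.n1
  n2 := by rw [lc_F, lc_l, lc_s]; exact h.n2
  k1 := by rw [lc_F]; exact h.k1
  a1 := by rw [lc_F]; exact h.a1
  ag := by rw [lc_F, lc_l, lc_s]; exact h.ag

theorem lc_wo (C : Pth Ω τ) (μ : ℕ) (o o' : Fin 7 → ℝ) : H300.wo (lc C μ o) o' = lc C μ o' := rfl

/-- the cell is a function of the ray, the letter and the digits of the own slope -/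
theorem cell_congr {C : Pth Ω τ} {i b : ℕ} {ω ω' : Ω} (hl : C.l ω = C.l ω') (hT : C.T i ω = C.T i ω')
    (hp : fl1 (C.rf i) (C.p ω) = fl1 (C.rf i) (C.p ω')) : C.cell i b ω = C.cell i b ω' := by
  have hs : C.s i ω = C.s i ω' := (Pth.s_eq hT).symm
  have hF : C.F i ω = C.F i ω' := by
    unfold Pth.F rd
    rw [hl, hT, hp]
  have hsl : C.sl i b ω = C.sl i b ω' := by
    unfold Pth.sl
    rw [hF, hl]
  have hFr : ∀ m, C.Fr i b m ω = C.Fr i b m ω' := by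
    intro m
    unfold Pth.Fr
    rw [hF, hsl, hl]
  have hZ : ∀ s, C.Zs b s ω = C.Zs b s ω' := by
    intro s
    unfold Pth.Zs
    rw [hl]
  have hva : C.va i b ω = C.va i b ω' := by
    unfold Pth.va
    rw [hFr, hsl, hZ, hs, hl]
  unfold Pth.cell Pth.dg
  rw [hT, hva, hl]

end path

/-! ### runs -/

variable {Ω : Type} [Fintype Ω] {τ υ : Type}

/-- the run with the margin `μ` and the offsets `o` -/
def low (R : Run Ω τ υ) (μ : ℕ) (o : Fin 7 → ℝ) : Run Ω τ υ := { R with C := lc R.C μ o }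

theorem low_C (R : Run Ω τ υ) (μ : ℕ) (o : Fin 7 → ℝ) : (low R μ o).C = lc R.C μ o := rfl
theorem low_Q (R : Run Ω τ υ) (μ : ℕ) (o : Fin 7 → ℝ) : (low R μ o).Q = R.Q := rfl
theorem low_n (R : Run Ω τ υ) (μ : ℕ) (o : Fin 7 → ℝ) : (low R μ o).n = R.n := rfl
theorem low_m (R : Run Ω τ υ) (μ : ℕ) (o : Fin 7 → ℝ) : (low R μ o).m = R.m := rfl
theorem low_rI (R : Run Ω τ υ) (μ : ℕ) (o : Fin 7 → ℝ) : (low R μ o).rI = R.rI := rfl
theorem low_b1 (R : Run Ω τ υ) (μ : ℕ) (o : Fin 7 → ℝ) : (low R μ o).b1 = R.b1 := rfl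

theorem low_Z (R : Run Ω τ υ) (μ : ℕ) (o : Fin 7 → ℝ) : (low R μ o).Z = R.Z := by
  funext i ω; unfold Run.Z; rfl

theorem low_F (R : Run Ω τ υ) (μ : ℕ) (o : Fin 7 → ℝ) : (low R μ o).F = R.F := by
  funext b ω; unfold Run.F; rfl

theorem low_Y (R : Run Ω τ υ) (μ : ℕ) (o : Fin 7 → ℝ) : (low R μ o).Y = R.Y := by
  funext b ω; unfold Run.Y; rfl

theorem low_W' (R : Run Ω τ υ) (μ : ℕ) (o : Fin 7 → ℝ) : (low R μ o).W' = R.W' := rfl

theorem low_tW (R : Run Ω τ υ) (μ : ℕ) (o : Fin 7 → ℝ) : (low R μ o).tW = R.tW := by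
  funext ω; unfold Run.tW; rfl

theorem low_κ (R : Run Ω τ υ) (μ : ℕ) (o : Fin 7 → ℝ) : (low R μ o).κ = R.κ := by
  funext ω; unfold Run.κ; rfl

theorem low_tb (R : Run Ω τ υ) (μ : ℕ) (o : Fin 7 → ℝ) : (low R μ o).tb = R.tb := by
  funext i ω; unfold Run.tb; rfl

theorem low_fb (R : Run Ω τ υ) (μ : ℕ) (o : Fin 7 → ℝ) : (low R μ o).fb = R.fb := by
  funext i ω; unfold Run.fb; rfl

theorem low_IsA (R : Run Ω τ υ) (μ : ℕ) (o : Fin 7 → ℝ) (i : ℕ) : (low R μ o).IsA i ↔ R.IsA i := by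
  unfold Run.IsA; exact Iff.rfl

theorem low_aS (R : Run Ω τ υ) (μ : ℕ) (o : Fin 7 → ℝ) : (low R μ o).aS = R.aS := by
  unfold Run.aS; rfl

theorem low_aF (R : Run Ω τ υ) (μ : ℕ) (o : Fin 7 → ℝ) (p : Run.Num) : (low R μ o).aF p = R.aF p := by
  unfold Run.aF; rfl

theorem low_aK (R : Run Ω τ υ) (μ : ℕ) (o : Fin 7 → ℝ) : (low R μ o).aK = R.aK := by
  unfold Run.aK; rfl

variable {R : Run Ω τ υ} {p : Run.Num} {K c' g' gU e κ₀ ε : ℝ} {μ : ℕ}

theorem low_path (o : Fin 7 → ℝ) (h : R.Path p) : (low R μ o).Path p where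
  m1 := h.m1
  J1 := h.J1
  a0 := h.a0
  f0 := h.f0
  k0 := h.k0
  stp := h.stp
  mI := h.mI
  leI := h.leI
  stop := h.stop
  fin := h.fin
  leF := h.leF
  rA := h.rA
  rA' := h.rA'
  rF := h.rF
  rK := h.rK
  advF := h.advF
  advK := h.advK
  diag := h.diag
  jump := h.jump

theorem low_ok (o : Fin 7 → ℝ) (hμ : μ ≤ R.C.μ) (h : R.Ok p K c' g' gU) : (low R μ o).Ok p K c' g' gU where
  pth := low_path o h.pth
  sys := h.sys
  pos := h.pos
  dom := h.dom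
  Cl := h.Cl
  Ct := h.Ct
  FWf := by rw [low_F]; exact h.FWf
  FWW := by rw [low_tW]; exact h.FWW
  FWn := by rw [low_tW]; exact h.FWn
  Cp := by rw [low_tW]; exact h.Cp
  ok := fun ω hω => lc_Ok o hμ (h.ok ω hω)
  agW := by
    rw [low_tW, low_C, lc_F, lc_s]
    exact h.agW
  alW := h.alW
  W0 := by rw [low_F]; exact h.W0
  prW := by rw [low_F]; exact h.prW
  fnT := h.fnT
  Um := by rw [low_Z]; exact h.Um
  Ut := by rw [low_Z]; exact h.Ut
  Uf := by rw [low_Z]; exact h.Uf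
  Ua := by rw [low_Z]; exact h.Ua
  Jf := by rw [low_Z, low_fb]; exact h.Jf
  JV := by rw [low_Z]; exact h.JV
  alB := h.alB
  alD := h.alD
  lin := by rw [low_Z, low_κ, low_tW]; exact h.lin
  kno := by
    rw [low_C, lc_F]
    exact h.kno
  unk := h.unk
  prT := by rw [low_Z]; exact h.prT
  prU := by rw [low_Z]; exact h.prU

theorem low_light (o : Fin 7 → ℝ) (h : R.Light p e κ₀) : (low R μ o).Light p e κ₀ where
  time := by rw [low_Z, low_tb, low_aS]; exact h.time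
  phi := by rw [low_Z, low_fb, low_aF]; exact h.phi
  line := by rw [low_Z, low_κ, low_tW, low_aK]; exact h.line

theorem low_cap {B : ℕ} (o : Fin 7 → ℝ) (hμ : μ ≤ R.C.μ) (h : R.Cap p B ε) : (low R μ o).Cap p B ε where
  low := h.low
  top := h.top
  room := by
    have h1 := h.room
    show p.A' + 2 * (R.m * (R.b1 + B)) + 8 * μ ≤ R.h
    omega
  act := by rw [low_Y]; exact h.act

/-! ### good steps -/

/-- `Good` with the letter `T i` in place of the cell -/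
structure GoodT (R : Run Ω τ υ) (p : Run.Num) (ε : ℝ) (i : ℕ) : Prop where
  isA : R.IsA i
  time : colp R.Q (R.tb i) (fun ω => (R.Z i ω, R.C.T i ω)) ≤ ε
  phi : R.C.rf i < p.QF → R.C.rf i < R.rI i + p.B₁ → colp R.Q (R.fb i) (fun ω => (R.Z i ω, R.C.T i ω)) ≤ ε
  line : R.rI i < R.C.rf i → NoStrip R.Q R.tW R.κ (fun ω => (R.Z i ω, R.C.T i ω)) (q2 (R.rI i + R.m)) ε

/-- given more there are fewer heavy lines -/
theorem noStrip_mono {T T' : Type} {Q : Law Ω} {t κ : Ω → ℝ} {Z : Ω → T} {Z' : Ω → T'} {w ε : ℝ}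
    (h : Fn Q Z' Z) (hn : NoStrip Q t κ Z w ε) : NoStrip Q t κ Z' w ε := by
  classical
  intro x
  set y : T → ℝ × ℝ := fun z => if hz : ∃ ω, 0 < Q.w ω ∧ Z ω = z then x (Z' hz.choose) else (0, 0) with hy
  have e : ∀ ω, 0 < Q.w ω → y (Z ω) = x (Z' ω) := by
    intro ω hω
    have hz : ∃ ω', 0 < Q.w ω' ∧ Z ω' = Z ω := ⟨ω, hω, rfl⟩
    rw [hy]
    simp only [dif_pos hz]
    rw [h _ ω hz.choose_spec.1 hω hz.choose_spec.2]
  refine le_trans ?_ (hn y)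
  refine Bs.prE_mono' fun ω hω hE => ?_
  rw [e ω hω]
  exact hE

/-- the cell given the ray side -/
theorem fn_cell (h : R.Ok p K c' g' gU) (b : ℕ) {i : ℕ} (hi : i ≤ R.n + p.J) :
    Fn R.Q (fun ω => (R.Z i ω, R.C.cell i b ω)) (fun ω => (R.Z i ω, R.C.T i ω)) := by
  intro ω ω' hω hω' e
  simp only [Prod.mk.injEq] at e ⊢
  refine ⟨e.1, cell_congr ?_ e.2 (h.Uf i hi ω ω' hω hω' e.1)⟩
  rw [h.Cl, h.Cl]
  have := congrArg Prod.fst e.1
  simp only [Run.Z] at this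
  rw [this]

theorem fn_cell' (R : Run Ω τ υ) (b i : ℕ) :
    Fn R.Q (fun ω => (R.Z i ω, R.C.T i ω)) (fun ω => (R.Z i ω, R.C.cell i b ω)) := by
  intro ω ω' _ _ e
  simp only [Prod.mk.injEq] at e ⊢
  exact ⟨e.1, (Cell.Pth.cell_iff.1 e.2).1⟩

/-- **`Good` does not depend on the cap** -/
theorem good_iff (h : R.Ok p K c' g' gU) (b : ℕ) {i : ℕ} (hi : i ≤ R.n + p.J) :
    R.Good p ε b i ↔ GoodT R p ε i := by
  have f1 := fn_cell h b hi
  have f2 := fn_cell' R b i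
  have e : ∀ {S : Type} (X : Ω → S), colp R.Q X (fun ω => (R.Z i ω, R.C.cell i b ω)) =
      colp R.Q X (fun ω => (R.Z i ω, R.C.T i ω)) := fun X =>
    Vale.Agent.P127.U.Mic.colp_congr R.Q (fun _ _ _ _ e => (Prod.mk.inj e).1) (fun _ _ _ _ e => (Prod.mk.inj e).1)
      f1 f2
  constructor
  · rintro ⟨g1, g2, g3, g4⟩
    exact ⟨g1, by rwa [e] at g2, fun h1 h2 => by have := g3 h1 h2; rwa [e] at this,
      fun h1 => noStrip_mono f2 (g4 h1)⟩
  · rintro ⟨g1, g2, g3, g4⟩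
    exact ⟨g1, by rwa [e], fun h1 h2 => by rw [e]; exact g3 h1 h2, fun h1 => noStrip_mono f1 (g4 h1)⟩

theorem goodT_low (R : Run Ω τ υ) (μ : ℕ) (o : Fin 7 → ℝ) (i : ℕ) : GoodT (low R μ o) p ε i ↔ GoodT R p ε i := by
  constructor
  · rintro ⟨g1, g2, g3, g4⟩
    rw [low_Z, low_tb] at g2
    rw [low_Z, low_fb] at g3
    rw [low_Z, low_tW, low_κ] at g4
    exact ⟨g1, g2, g3, g4⟩
  · rintro ⟨g1, g2, g3, g4⟩
    refine ⟨g1, ?_, ?_, ?_⟩
    · rw [low_Z, low_tb]; exact g2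
    · rw [low_Z, low_fb]; exact g3
    · rw [low_Z, low_tW, low_κ]; exact g4

/-- **`Good` depends neither on the cap nor on the margin nor on the offsets** -/
theorem good_low (h : R.Ok p K c' g' gU) (hμ : μ ≤ R.C.μ) (o : Fin 7 → ℝ) (b b' : ℕ) {i : ℕ}
    (hi : i ≤ R.n + p.J) : (low R μ o).Good p ε b i ↔ R.Good p ε b' i := by
  rw [good_iff (low_ok o hμ h) b (i := i) hi, goodT_low, good_iff h b' hi]

/-! ### choice of the offsets -/

/-- **one choice of the offsets** for all caps of `Cs` (in blocks of `m`) and all steps `< N` -/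
theorem exists_off_pth {τ : Type} (Q : Law Ω) (C : Pth Ω τ) (μ m N : ℕ) (Cs : Finset ℕ) {K1 K2 K3 : ℝ} (h1 : 0 ≤ K1)
    (h2 : 0 ≤ K2) (h3 : 0 ≤ K3) :
    ∃ o : Fin 7 → ℝ, (∀ k, 0 < o k ∧ o k ≤ 1) ∧
      ∑ x ∈ Cs, ∑ k ∈ range N, (prE Q ((lc C μ o).Bad K1 k (m * x)) +
        prE Q (H420.BadS (lc C μ o) K2 k (m * x)) + prE Q (H300.BadR (lc C μ o) K3 k (m * x))) ≤
      (14 * K1 + 2 * K2 + 2 * K3) * (Cs.card * N) * q2 μ := by
  obtain ⟨o, ho, hs⟩ := H300.gen3 Q (lc C μ (fun _ => 0)) (Cs ×ˢ range N) (fun x => x.2) (fun x => m * x.1)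
    (Cs ×ˢ range N) (fun x => x.2) (fun x => m * x.1) (Cs ×ˢ range N) (fun x => x.2) (fun x => m * x.1) h1 h2 h3
    (fun x _ => by
      have := (lc C μ (fun _ => 0)).R_le_rf x.2 (m * x.1)
      omega)
  refine ⟨o, ho, ?_⟩
  rw [lc_wo, Finset.sum_product, Finset.sum_product, Finset.sum_product, Finset.card_product, Finset.card_range] at hs
  have e : ∑ x ∈ Cs, ∑ k ∈ range N, (prE Q ((lc C μ o).Bad K1 k (m * x)) +
        prE Q (H420.BadS (lc C μ o) K2 k (m * x)) + prE Q (H300.BadR (lc C μ o) K3 k (m * x))) =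
      ∑ x ∈ Cs, ∑ k ∈ range N, prE Q ((lc C μ o).Bad K1 k (m * x)) +
        (∑ x ∈ Cs, ∑ k ∈ range N, prE Q (H420.BadS (lc C μ o) K2 k (m * x)) +
          ∑ x ∈ Cs, ∑ k ∈ range N, prE Q (H300.BadR (lc C μ o) K3 k (m * x))) := by
    simp only [Finset.sum_add_distrib]
    ring
  rw [e]
  refine hs.trans (le_of_eq ?_)
  rw [lc_μ]
  push_cast
  ring

/-- the same for a run -/
theorem exists_off (R : Run Ω τ υ) (μ N : ℕ) (Cs : Finset ℕ) {K1 K2 K3 : ℝ} (h1 : 0 ≤ K1) (h2 : 0 ≤ K2) (h3 : 0 ≤ K3) :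
    ∃ o : Fin 7 → ℝ, (∀ k, 0 < o k ∧ o k ≤ 1) ∧
      ∑ x ∈ Cs, ∑ k ∈ range N, (prE R.Q ((low R μ o).C.Bad K1 k (R.m * x)) +
        prE R.Q (H420.BadS (low R μ o).C K2 k (R.m * x)) + prE R.Q (H300.BadR (low R μ o).C K3 k (R.m * x))) ≤
      (14 * K1 + 2 * K2 + 2 * K3) * (Cs.card * N) * q2 μ :=
  exists_off_pth R.Q R.C μ R.m N Cs h1 h2 h3

end Vale.Agent.P106.U.H101
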