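import Vale.Agent.P106.U.CellE

/-!
# P106 / U / H101 : cells of two paths (helper101)

`C`, `C2` : two paths with the same rays and own slopes; `C2` is finer: at the ray the functional of the step `i2` of `C2` agrees
with the functional of the step `i` of `C` to `C.rk i` digits (level `C2.a i2`).

* `Two C C2 K i i2 ω` : compatibility at the point `ω`.
* `core2`, `core2_ph` : closeness in the step `i` of `C`, from the cell `(i2, b2)` of `C2`.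
* `clo2`, `cell2` : the cell `(i2, b2)` of `C2` and the letter `C.T i` determine the cell `(i, b)` of `C`, `b ≤ b2`, outside `Bad`.
-/

set_option autoImplicit false

namespace Vale.Agent.P106.U.H101

open Finset Vale.Agent.P127 Vale.Agent.P127.Stk
open Vale.Agent.P127.U.CellD
open Vale.Agent.P106.U.Cell Vale.Agent.P106.U.Cell.Pth

variable {Ω τ τ2 : Type} {C : Pth Ω τ} {C2 : Pth Ω τ2} {i i2 b b2 : ℕ} {ω ω' : Ω} {K : ℝ}

/-- the step `i2` of `C2` is finer than the step `i` of `C`, at the point `ω` -/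
structure Two (C : Pth Ω τ) (C2 : Pth Ω τ2) (K : ℝ) (i i2 : ℕ) (ω : Ω) : Prop where
  ag : Agr K (C.rk i) (C2.a i2) ((C.F i ω).sh (C2.s i2 ω - C.s i ω)) (C2.F i2 ω) (C.l ω) (C2.s i2 ω)
  tm : |C.s i ω - C2.s i2 ω| ≤ q2 (C.a i)

/-- derivative -/
lemma gd2 {K : ℝ} {R2 rk Rb a2 b b2 μ : ℕ} (h1 : 1 ≤ K) (hb : b ≤ b2) (hμ : 8 * μ ≤ b) (hr : Rb ≤ rk + b)
    (hR : 8 * μ ≤ Rb) :
    K ^ 2 * (2 * q2 (R2 + b2 - 5 * μ)) + K * q2 Rb * q2 b2 +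
      2 * K ^ 3 * q2 rk * ((q2 b2 ^ 2 + (10 * K ^ 2 * q2 (b2 + 2 * μ)) ^ 2) / 2) +
      2 * K ^ 3 * q2 rk / q2 a2 * (q2 (a2 + b2 - μ) * q2 b2 +
        q2 (a2 + b2 - μ) * (10 * K ^ 2 * q2 (b2 + 2 * μ)) + 3 * q2 (a2 + 2 * b2 - 3 * μ)) ≤
      2 * K ^ 2 * q2 (R2 + b2 - 5 * μ) + 131 * K ^ 7 * q2 (Rb + b - 3 * μ) := by
  have K0 : 0 < K := by linarith
  have sq1 : (q2 b2 ^ 2 + (10 * K ^ 2 * q2 (b2 + 2 * μ)) ^ 2) / 2 ≤ 51 * K ^ 4 * q2 (2 * b2) := by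
    have t1 : q2 b2 ^ 2 = q2 (2 * b2) := by rw [pow_two, ← q2_add, two_mul]
    have t2 : q2 (b2 + 2 * μ) ^ 2 ≤ q2 (2 * b2) := by
      rw [pow_two, ← q2_add]; exact q2_le (by omega)
    have t3 : 1 ≤ K ^ 4 := one_le_pow₀ h1
    have t4 := q2_pos (2 * b2)
    calc _ = q2 (2 * b2) / 2 + 50 * K ^ 4 * q2 (b2 + 2 * μ) ^ 2 := by rw [mul_pow, t1]; ring
      _ ≤ K ^ 4 * q2 (2 * b2) + 50 * K ^ 4 * q2 (2 * b2) := by
        apply add_le_add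
        · nlinarith
        · exact mul_le_mul_of_nonneg_left t2 (by positivity)
      _ = _ := by ring
  set Q := q2 (Rb + b - 3 * μ) with hQ
  have Q0 : 0 < Q := q2_pos _
  have u1 : q2 Rb * q2 b2 ≤ Q := by rw [← q2_add]; exact q2_le (by omega)
  have u2 : q2 rk * q2 (2 * b2) ≤ Q := by rw [← q2_add]; exact q2_le (by omega)
  have f1 : q2 (a2 + b2 - μ) * q2 b2 = q2 (a2 + (2 * b2 - μ)) := by
    rw [← q2_add]; congr 1; omega
  have f2 : q2 (a2 + b2 - μ) * q2 (b2 + 2 * μ) = q2 (a2 + (2 * b2 + μ)) := by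
    rw [← q2_add]; congr 1; omega
  have f3 : a2 + 2 * b2 - 3 * μ = a2 + (2 * b2 - 3 * μ) := by omega
  have u3 : 2 * K ^ 3 * q2 rk / q2 a2 * (q2 (a2 + b2 - μ) * q2 b2 +
      q2 (a2 + b2 - μ) * (10 * K ^ 2 * q2 (b2 + 2 * μ)) +
      3 * q2 (a2 + 2 * b2 - 3 * μ)) = 2 * K ^ 3 * (q2 rk * q2 (2 * b2 - μ) +
      10 * K ^ 2 * (q2 rk * q2 (2 * b2 + μ)) + 3 * (q2 rk * q2 (2 * b2 - 3 * μ))) := by
    have c1 := q2_cancel (2 * K ^ 3 * q2 rk) a2 (2 * b2 - μ)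
    have c2 := q2_cancel (2 * K ^ 3 * q2 rk) a2 (2 * b2 + μ)
    have c3 := q2_cancel (2 * K ^ 3 * q2 rk) a2 (2 * b2 - 3 * μ)
    rw [← f1] at c1
    rw [← f2] at c2
    rw [← f3] at c3
    linear_combination c1 + 10 * K ^ 2 * c2 + 3 * c3
  rw [u3]
  have v1 : q2 rk * q2 (2 * b2 - μ) ≤ Q := by rw [← q2_add]; exact q2_le (by omega)
  have v2 : q2 rk * q2 (2 * b2 + μ) ≤ Q := by rw [← q2_add]; exact q2_le (by omega)
  have v3 : q2 rk * q2 (2 * b2 - 3 * μ) ≤ Q := by rw [← q2_add]; exact q2_le (by omega)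
  have w2 : 2 * K ^ 3 * q2 rk * ((q2 b2 ^ 2 + (10 * K ^ 2 * q2 (b2 + 2 * μ)) ^ 2) / 2) ≤
      102 * K ^ 7 * Q := by
    calc _ ≤ 2 * K ^ 3 * q2 rk * (51 * K ^ 4 * q2 (2 * b2)) :=
          mul_le_mul_of_nonneg_left sq1 (by have := q2_pos rk; positivity)
      _ = 102 * K ^ 7 * (q2 rk * q2 (2 * b2)) := by ring
      _ ≤ _ := mul_le_mul_of_nonneg_left u2 (by positivity)
  have w3 : 2 * K ^ 3 * (q2 rk * q2 (2 * b2 - μ) +
      10 * K ^ 2 * (q2 rk * q2 (2 * b2 + μ)) +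
      3 * (q2 rk * q2 (2 * b2 - 3 * μ))) ≤ 28 * K ^ 7 * Q := by
    have K2 : 1 ≤ K ^ 2 := one_le_pow₀ h1
    calc _ ≤ 2 * K ^ 3 * (Q + 10 * K ^ 2 * Q + 3 * Q) := by
          apply mul_le_mul_of_nonneg_left _ (by positivity)
          have := mul_le_mul_of_nonneg_left v2 (show (0 : ℝ) ≤ 10 * K ^ 2 by positivity)
          linarith
      _ ≤ 2 * K ^ 3 * (14 * K ^ 2 * Q) := by
          apply mul_le_mul_of_nonneg_left _ (by positivity)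
          nlinarith
      _ = 28 * K ^ 5 * Q := by ring
      _ ≤ 28 * K ^ 7 * Q := by
          apply mul_le_mul_of_nonneg_right _ Q0.le
          have := pow_le_pow_right₀ h1 (show 5 ≤ 7 by norm_num)
          linarith
  have w1 : K * q2 Rb * q2 b2 ≤ K ^ 7 * Q := by
    calc _ = K * (q2 Rb * q2 b2) := by ring
      _ ≤ K ^ 7 * Q := by
        apply mul_le_mul _ u1 (by have := q2_pos Rb; have := q2_pos b2; positivity)
          (by positivity)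
        calc K = K ^ 1 := (pow_one K).symm
          _ ≤ K ^ 7 := pow_le_pow_right₀ h1 (by norm_num)
  linarith

/-- value -/
lemma g2 {K : ℝ} {R2 rk Rb a a2 b b2 μ : ℕ} (h1 : 1 ≤ K) (hb : b ≤ b2) (hμ : 8 * μ ≤ b) (hr : Rb ≤ rk + b)
    (hR : 8 * μ ≤ Rb) (ha : a + b ≤ a2 + b2) :
    K ^ 2 * (2 * q2 (a2 + b2 + R2 - 7 * μ)) + K * q2 Rb * q2 (a2 + b2 - μ) +
      2 * K ^ 3 * q2 rk * (3 * q2 (a2 + 2 * b2 - 3 * μ)) +
      2 * K ^ 3 * q2 rk / q2 a2 * ((q2 (a2 + b2 - μ) ^ 2 + q2 (a2 + b2 - μ) ^ 2) / 2) ≤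
      2 * K ^ 2 * q2 (a2 + b2 + R2 - 7 * μ) + 9 * K ^ 7 * q2 (a + b + Rb - 3 * μ) := by
  have K0 : 0 < K := by linarith
  set Q := q2 (a + b + Rb - 3 * μ) with hQ
  have Q0 : 0 < Q := q2_pos _
  have u1 : q2 Rb * q2 (a2 + b2 - μ) ≤ Q := by rw [← q2_add]; exact q2_le (by omega)
  have u2 : q2 rk * q2 (a2 + 2 * b2 - 3 * μ) ≤ Q := by
    rw [← q2_add]; exact q2_le (by omega)
  have u3 : 2 * K ^ 3 * q2 rk / q2 a2 *
      ((q2 (a2 + b2 - μ) ^ 2 + q2 (a2 + b2 - μ) ^ 2) / 2) =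
      2 * K ^ 3 * (q2 rk * q2 (a2 + (2 * b2 - 2 * μ))) := by
    have e : q2 (a2 + b2 - μ) ^ 2 = q2 (a2 + (a2 + (2 * b2 - 2 * μ))) := by
      rw [pow_two, ← q2_add]; congr 1; omega
    have c1 := q2_cancel (2 * K ^ 3 * q2 rk) a2 (a2 + (2 * b2 - 2 * μ))
    rw [← e] at c1
    linear_combination c1
  rw [u3]
  have u4 : q2 rk * q2 (a2 + (2 * b2 - 2 * μ)) ≤ Q := by
    rw [← q2_add]; exact q2_le (by omega)
  have k1 : K ≤ K ^ 7 := by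
    calc K = K ^ 1 := (pow_one K).symm
      _ ≤ K ^ 7 := pow_le_pow_right₀ h1 (by norm_num)
  have k3 : K ^ 3 ≤ K ^ 7 := pow_le_pow_right₀ h1 (by norm_num)
  have w1 : K * q2 Rb * q2 (a2 + b2 - μ) ≤ K ^ 7 * Q := by
    rw [mul_assoc]
    exact mul_le_mul k1 u1 (mul_nonneg (q2_pos _).le (q2_pos _).le) (by positivity)
  have w2 : 2 * K ^ 3 * q2 rk * (3 * q2 (a2 + 2 * b2 - 3 * μ)) ≤ 6 * K ^ 7 * Q := by
    calc _ = 6 * (K ^ 3 * (q2 rk * q2 (a2 + 2 * b2 - 3 * μ))) := by ring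
      _ ≤ 6 * (K ^ 7 * Q) := by
        apply mul_le_mul_of_nonneg_left _ (by norm_num)
        exact mul_le_mul k3 u2 (mul_nonneg (q2_pos _).le (q2_pos _).le) (by positivity)
      _ = _ := by ring
  have w3 : 2 * K ^ 3 * (q2 rk * q2 (a2 + (2 * b2 - 2 * μ))) ≤ 2 * K ^ 7 * Q := by
    calc _ = 2 * (K ^ 3 * (q2 rk * q2 (a2 + (2 * b2 - 2 * μ)))) := by ring
      _ ≤ 2 * (K ^ 7 * Q) := by
        apply mul_le_mul_of_nonneg_left _ (by norm_num)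
        exact mul_le_mul k3 u4 (mul_nonneg (q2_pos _).le (q2_pos _).le) (by positivity)
      _ = _ := by ring
  linarith

/-- **closeness in the step `i` of `C`, from the cell `(i2, b2)` of `C2`**, functional part -/
theorem core2 (h1 : 1 ≤ K) (hl : C2.l = C.l) (hp : C2.p = C.p) (hK : C.Ok K ω) (hK2 : C2.Ok K ω)
    (hμ : C2.μ = C.μ) (hf : C.rf i ≤ C2.rf i2) (hT2 : Two C C2 K i i2 ω) (hli : C.Lev i b) (hlj : C2.Lev i2 b2)
    (hb : b ≤ b2) (ha : C.a i + b ≤ C2.a i2 + b2) (h : C2.cell i2 b2 ω = C2.cell i2 b2 ω') :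
    Nr (C.F i ω) (C.l ω) (C.l ω') (C.s i ω) (q2 b2) (10 * K ^ 2 * q2 (b2 + 2 * C.μ))
      (q2 (C2.a i2 + b2 - C.μ) + q2 (C.a i) * q2 b2)
      (q2 (C2.a i2 + b2 - C.μ) + q2 (C.a i) * (10 * K ^ 2 * q2 (b2 + 2 * C.μ)))
      (3 * q2 (C2.a i2 + 2 * b2 - 3 * C.μ) +
        q2 (C.a i) * ((q2 b2 ^ 2 + (10 * K ^ 2 * q2 (b2 + 2 * C.μ)) ^ 2) / 2))
      (2 * K ^ 2 * q2 (C2.R i2 b2 + b2 - 5 * C.μ) + 131 * K ^ 7 * q2 (C.R i b + b - 3 * C.μ))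
      (2 * K ^ 2 * q2 (C2.a i2 + b2 + C2.R i2 b2 - 7 * C.μ) + 9 * K ^ 7 * q2 (C.a i + b + C.R i b - 3 * C.μ) +
        q2 (C.a i) * (2 * K ^ 2 * q2 (C2.R i2 b2 + b2 - 5 * C.μ) + 131 * K ^ 7 * q2 (C.R i b + b - 3 * C.μ))) := by
  have hN := Nr_of_cell' h1 hK2 hlj h
  rw [hl, hμ] at hN
  have K0 : 0 < K := by linarith
  set d := C2.s i2 ω - C.s i ω with hd
  set G := (C.F i ω).sh d with hG
  have hGN : G.cN (C.l ω) (C2.s i2 ω) = (C.F i ω).cN (C.l ω) (C.s i ω) := by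
    have e := Fu.cN_sh (C.F i ω) (C.l ω) (C.s i ω) d
    rwa [hd, add_sub_cancel] at e
  have hGV : G.cV (C.l ω) (C2.s i2 ω) = (C.F i ω).cV (C.l ω) (C.s i ω) := by
    have e := Fu.cV_sh (C.F i ω) (C.l ω) (C.s i ω) d
    rwa [hd, add_sub_cancel] at e
  have hGK : |G.cN (C.l ω) (C2.s i2 ω)| ≤ K := by
    rw [hGN]; exact cN_abs hK h1 i
  have n1 := hK2.n1 i2
  have ne := cN_ne hK2 i2
  have cV2 := F_cV (C := C2) i2 ω
  rw [hl] at n1 ne cV2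
  rw [hp] at cV2
  obtain ⟨r1, r2, r3⟩ := ratios h1 hT2.ag n1 hGK (hK2.k1 i2) (hK2.a1 i2)
  have hRf := C.R_le_rf i b
  have rV : |G.cN (C.l ω) (C2.s i2 ω) / (C2.F i2 ω).cN (C.l ω) (C2.s i2 ω) *
      (C2.F i2 ω).cV (C.l ω) (C2.s i2 ω) - G.cV (C.l ω) (C2.s i2 ω)| ≤ K * q2 (C.R i b) := by
    have e : G.cN (C.l ω) (C2.s i2 ω) / (C2.F i2 ω).cN (C.l ω) (C2.s i2 ω) *
        (C2.F i2 ω).cV (C.l ω) (C2.s i2 ω) - G.cV (C.l ω) (C2.s i2 ω) =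
        (rd (C2.rf i2) (C.p ω) - rd (C.rf i) (C.p ω)) * (C.F i ω).cN (C.l ω) (C.s i ω) := by
      rw [hGV, hGN, F_cV, cV2]
      field_simp
    rw [e, abs_mul, mul_comm K]
    exact mul_le_mul ((rd_sub hf _).trans (q2_le hRf)) (cN_abs hK h1 i)
      (abs_nonneg _) (q2_pos _).le
  have hC := hN.cmp (G := G) ne r1 rV r2 r3
  have hrk := C.R_le_rk i b
  have hC' := hC.mono le_rfl le_rfl le_rfl le_rfl le_rfl
    (gd2 (R2 := C2.R i2 b2) (a2 := C2.a i2) h1 hb hli.1 hrk hli.2)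
    (g2 (R2 := C2.R i2 b2) (a := C.a i) (a2 := C2.a i2) h1 hb hli.1 hrk hli.2 ha)
  have hE := hC'.evolve hT2.tm
  have e1 : G.sh (C.s i ω - C2.s i2 ω) = C.F i ω := by
    rw [hG, Fu.sh_sh, hd, show C2.s i2 ω - C.s i ω + (C.s i ω - C2.s i2 ω) = 0 by ring, Fu.sh_zero]
  have e2 : C2.s i2 ω + (C.s i ω - C2.s i2 ω) = C.s i ω := by ring
  rwa [e1, e2] at hE

/-- **closeness in the step `i` of `C`, from the cell `(i2, b2)` of `C2`**, slopes -/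
theorem core2_ph (h1 : 1 ≤ K) (hl : C2.l = C.l) (hp : C2.p = C.p) (hK : C.Ok K ω) (hK' : C.Ok K ω')
    (hK2 : C2.Ok K ω) (hK2' : C2.Ok K ω') (hμ : C2.μ = C.μ) (hf : C.rf i ≤ C2.rf i2)
    (hT2 : Two C C2 K i i2 ω) (hli : C.Lev i b) (hlj : C2.Lev i2 b2) (hb : b ≤ b2)
    (hT : C.T i ω = C.T i ω') (h : C2.cell i2 b2 ω = C2.cell i2 b2 ω') :
    |(C.F i ω').ph - (C.F i ω).ph| ≤
      2 * K ^ 2 * q2 (C2.R i2 b2 - 3 * C.μ) + 50 * K ^ 5 * q2 (C.R i b - C.μ) := by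
  have hN := Nr_of_cell' h1 hK2 hlj h
  rw [hl, hμ] at hN
  have hP := (Nr_of_cell hlj h).2
  rw [hμ] at hP
  have hTj : C2.T i2 ω = C2.T i2 ω' := (cell_iff.1 h).1
  have K0 : 0 < K := by linarith
  obtain ⟨hbi, hRi⟩ := hli
  obtain ⟨hbj, hRj⟩ := hlj
  rw [hμ] at hbj hRj
  have hrk := C.R_le_rk i b
  have hrfi := C.R_le_rf i b
  have sj : C2.s i2 ω' = C2.s i2 ω := s_eq hTj
  have si : C.s i ω' = C.s i ω := s_eq hT
  have agω := hT2.ag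
  have cNi := F_cN (C := C) i ω
  have cNi' := F_cN (C := C) i ω'
  have cNj := F_cN (C := C2) i2 ω
  have cNj' := F_cN (C := C2) i2 ω'
  have cVi := F_cV (C := C) i ω
  have cVi' := F_cV (C := C) i ω'
  have cVj := F_cV (C := C2) i2 ω
  have cVj' := F_cV (C := C2) i2 ω'
  unfold Fu.cV at cVi cVi' cVj cVj'
  rw [hl] at cNj cNj' cVj cVj'
  rw [hp] at cVj cVj'
  have g1 := agω.cN
  have g2 := agω.ka
  have g3 := agω.al
  have sh1 := Fu.cN_sh (C.F i ω) (C.l ω) (C.s i ω) (C2.s i2 ω - C.s i ω)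
  rw [add_sub_cancel] at sh1
  rw [sh1] at g1
  rw [F_ga hT, F_ka hT, F_al hT, si] at cNi'
  rw [F_ga hTj, F_ka hTj, F_al hTj, sj] at cNj'
  rw [F_ka hT, F_al hT, si] at cVi'
  rw [F_ka hTj, F_al hTj, sj] at cVj'
  have Xi : (C.l ω).X (C.s i ω) = (C.l ω).X (C2.s i2 ω) + (C.s i ω - C2.s i2 ω) * (C.l ω).v := by
    rw [← Ray.X_add]; congr 1; ring
  have Xi' : (C.l ω').X (C.s i ω) = (C.l ω').X (C2.s i2 ω) + (C.s i ω - C2.s i2 ω) * (C.l ω').v := by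
    rw [← Ray.X_add]; congr 1; ring
  have Ni : (C.l ω).N (C.s i ω) = (C.l ω).N (C2.s i2 ω) + (C.s i ω - C2.s i2 ω) * (C.l ω).w := by
    rw [← Ray.N_add]; congr 1; ring
  have Ni' : (C.l ω').N (C.s i ω) = (C.l ω').N (C2.s i2 ω) + (C.s i ω - C2.s i2 ω) * (C.l ω').w := by
    rw [← Ray.N_add]; congr 1; ring
  have p1 : |rd (C2.rf i2) (C.p ω) - rd (C.rf i) (C.p ω)| ≤ q2 (C.R i b - C.μ) :=
    (rd_sub hf _).trans (q2_le (by omega))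
  have p1' : |rd (C2.rf i2) (C.p ω') - rd (C.rf i) (C.p ω')| ≤ q2 (C.R i b - C.μ) :=
    (rd_sub hf _).trans (q2_le (by omega))
  have p2' : |rd (C2.rf i2) (C.p ω')| ≤ 2 := by
    have h0 := p_le (C := C2) (i := i2) hK2' (by
      have := C2.R_le_rf i2 b2
      omega)
    rw [hp] at h0
    exact h0.trans (by have := q2_le_one (2 * C2.μ); linarith)
  have qa := q2_pos (C2.a i2)
  have eX : q2 (C2.a i2 + b2 - C.μ) = q2 (C2.a i2) * q2 (b2 - C.μ) := by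
    rw [← q2_add]; congr 1; omega
  have rk0 := q2_pos (C.rk i)
  have rk1 := q2_le_one (C.rk i)
  have β0 := q2_pos (b2 - C.μ)
  have b1 : q2 b2 ≤ q2 (b2 - C.μ) := q2_le (by omega)
  have b2' : q2 (b2 + 2 * C.μ) ≤ q2 (b2 - C.μ) := q2_le (by omega)
  have b3 : q2 (C.rk i) * q2 (b2 - C.μ) ≤ q2 (C.R i b - C.μ) := by
    rw [← q2_add]; exact q2_le (by omega)
  have dal : |(C2.F i2 ω).al - (C.F i ω).al| ≤ K * q2 (C.rk i) / q2 (C2.a i2) := by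
    rw [le_div_iff₀ qa]; exact g3
  have alj' : |(C2.F i2 ω).al| ≤ K / q2 (C2.a i2) := by
    rw [le_div_iff₀ qa]; exact hK2.a1 i2
  have dka : |(C2.F i2 ω).ka - ((C.F i ω).ka - (C2.s i2 ω - C.s i ω) * (C.F i ω).al)| ≤
      K * q2 (C.rk i) := g2
  have m1 : |((C2.F i2 ω).al - (C.F i ω).al) * ((C.l ω').X (C2.s i2 ω) - (C.l ω).X (C2.s i2 ω))| ≤
      K * (q2 (C.rk i) * q2 (b2 - C.μ)) := by
    refine (abs_mul_le dal hN.X).trans (le_of_eq ?_)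
    rw [eX]; field_simp
  have m2 : |((C2.F i2 ω).al - (C.F i ω).al) * ((C.l ω').N (C2.s i2 ω) - (C.l ω).N (C2.s i2 ω))| ≤
      K * (q2 (C.rk i) * q2 (b2 - C.μ)) := by
    refine (abs_mul_le dal hN.N).trans (le_of_eq ?_)
    rw [eX]; field_simp
  have m3 : |(C2.F i2 ω).al * ((C.l ω').X (C2.s i2 ω) - (C.l ω).X (C2.s i2 ω))| ≤
      K * q2 (b2 - C.μ) := by
    refine (abs_mul_le alj' hN.X).trans (le_of_eq ?_)
    rw [eX]; field_simp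
  have m4 : |(C2.F i2 ω).al * ((C.l ω').N (C2.s i2 ω) - (C.l ω).N (C2.s i2 ω))| ≤
      K * q2 (b2 - C.μ) := by
    refine (abs_mul_le alj' hN.N).trans (le_of_eq ?_)
    rw [eX]; field_simp
  have m5 : |((C2.F i2 ω).ka - ((C.F i ω).ka - (C2.s i2 ω - C.s i ω) * (C.F i ω).al)) *
      ((C.l ω').v - (C.l ω).v)| ≤ K * (q2 (C.rk i) * q2 (b2 - C.μ)) := by
    refine (abs_mul_le dka hN.v).trans ?_
    rw [mul_assoc]
    exact mul_le_mul_of_nonneg_left (mul_le_mul_of_nonneg_left b1 rk0.le) K0.le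
  have m6 : |((C2.F i2 ω).ka - ((C.F i ω).ka - (C2.s i2 ω - C.s i ω) * (C.F i ω).al)) *
      ((C.l ω').w - (C.l ω).w)| ≤ 10 * K ^ 3 * (q2 (C.rk i) * q2 (b2 - C.μ)) := by
    refine (abs_mul_le dka hN.w).trans ?_
    calc K * q2 (C.rk i) * (10 * K ^ 2 * q2 (b2 + 2 * C.μ)) =
        10 * K ^ 3 * (q2 (C.rk i) * q2 (b2 + 2 * C.μ)) := by ring
      _ ≤ _ := mul_le_mul_of_nonneg_left (mul_le_mul_of_nonneg_left b2' rk0.le) (by positivity)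
  have m7 : |(C2.F i2 ω).ka * ((C.l ω').v - (C.l ω).v)| ≤ K * q2 (b2 - C.μ) :=
    (abs_mul_le (hK2.k1 i2) hN.v).trans (mul_le_mul_of_nonneg_left b1 K0.le)
  have m8 : |(C2.F i2 ω).ka * ((C.l ω').w - (C.l ω).w)| ≤ 10 * K ^ 3 * q2 (b2 - C.μ) := by
    refine (abs_mul_le (hK2.k1 i2) hN.w).trans ?_
    calc K * (10 * K ^ 2 * q2 (b2 + 2 * C.μ)) = 10 * K ^ 3 * q2 (b2 + 2 * C.μ) := by ring
      _ ≤ _ := mul_le_mul_of_nonneg_left b2' (by positivity)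
  have hci' : |(C.F i ω').cN (C.l ω') (C.s i ω)| ≤ K := by
    have := cN_abs hK' h1 i
    rwa [si] at this
  have n1 := hK2.n1 i2
  rw [hl] at n1
  refine ph_aux (cj' := (C2.F i2 ω').cN (C.l ω') (C2.s i2 ω)) h1 (q2_pos _).le (q2_pos _).le β0.le
    rk0.le rk1 b3 ?_ ?_ ?_ ?_ hP p2' p1 p1' (cN_abs hK h1 i) hci' n1 g1
    (m5.trans (mul_le_mul_of_nonneg_left b3 K0.le)) (m1.trans (mul_le_mul_of_nonneg_left b3 K0.le))
    m6 m2 m7 m3 m8 m4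
  · rw [Xi] at cVi
    rw [Xi'] at cVi'
    linear_combination cVi' - cVi - cVj' + cVj
  · rw [Ni] at cNi
    rw [Ni'] at cNi'
    linear_combination cNi' - cNj' - cNi + cNj
  · linear_combination -cVj' + cVj
  · linear_combination cNj' - cNj

/-- **closeness in the step `i` of `C`, from the cell `(i2, b2)` of `C2`** -/
theorem clo2 (h1 : 1 ≤ K) (hl : C2.l = C.l) (hp : C2.p = C.p) (hK : C.Ok K ω) (hK' : C.Ok K ω')
    (hK2 : C2.Ok K ω) (hK2' : C2.Ok K ω') (hμ : C2.μ = C.μ) (hf : C.rf i ≤ C2.rf i2)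
    (hT2 : Two C C2 K i i2 ω) (hli : C.Lev i b) (hlj : C2.Lev i2 b2) (hb : b ≤ b2)
    (ha : C.a i + b + 2 * C.μ ≤ C2.a i2 + b2) (hR : C.R i b + C.μ ≤ C2.R i2 b2)
    (hT : C.T i ω = C.T i ω') (h : C2.cell i2 b2 ω = C2.cell i2 b2 ω') :
    C.Clo i b (160 * K ^ 7) ω ω' := by
  have hN := core2 h1 hl hp hK hK2 hμ hf hT2 hli hlj hb (by omega) h
  have hph := core2_ph h1 hl hp hK hK' hK2 hK2' hμ hf hT2 hli hlj hb hT h
  have hv : fl1 b (C.l ω).v = fl1 b (C.l ω').v := by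
    have := (cell_iff.1 h).2.1
    rw [hl] at this
    exact fl1_fl1 hb this
  obtain ⟨hb8, hRi⟩ := hli
  have k27 : K ^ 2 ≤ K ^ 7 := pow_le_pow_right₀ h1 (by norm_num)
  have k47 : K ^ 4 ≤ K ^ 7 := pow_le_pow_right₀ h1 (by norm_num)
  have k57 : K ^ 5 ≤ K ^ 7 := pow_le_pow_right₀ h1 (by norm_num)
  have k7 : 1 ≤ K ^ 7 := one_le_pow₀ h1
  have eN : q2 (C.a i) * (10 * K ^ 2 * q2 (b2 + 2 * C.μ)) ≤ 10 * K ^ 7 * q2 (C.a i + b) := by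
    calc _ = 10 * K ^ 2 * (q2 (C.a i) * q2 (b2 + 2 * C.μ)) := by ring
      _ = 10 * K ^ 2 * q2 (C.a i + (b2 + 2 * C.μ)) := by rw [← q2_add]
      _ ≤ _ := mul_le_mul (by linarith) (q2_le (by omega)) (q2_pos _).le (by linarith)
  have ez : q2 (C.a i) * ((q2 b2 ^ 2 + (10 * K ^ 2 * q2 (b2 + 2 * C.μ)) ^ 2) / 2) ≤
      51 * K ^ 7 * q2 (C.a i + 2 * b - C.μ) := by
    have t1 : q2 b2 ^ 2 ≤ q2 (2 * b - C.μ) := by
      rw [pow_two, ← q2_add]; exact q2_le (by omega)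
    have t2 : q2 (b2 + 2 * C.μ) ^ 2 ≤ q2 (2 * b - C.μ) := by
      rw [pow_two, ← q2_add]; exact q2_le (by omega)
    have t3 : 1 ≤ K ^ 4 := one_le_pow₀ h1
    have t4 := q2_pos (2 * b - C.μ)
    have t5 : (q2 b2 ^ 2 + (10 * K ^ 2 * q2 (b2 + 2 * C.μ)) ^ 2) / 2 ≤
        51 * K ^ 7 * q2 (2 * b - C.μ) := by
      calc _ = q2 b2 ^ 2 / 2 + 50 * K ^ 4 * q2 (b2 + 2 * C.μ) ^ 2 := by rw [mul_pow]; ring
        _ ≤ K ^ 7 * q2 (2 * b - C.μ) + 50 * K ^ 7 * q2 (2 * b - C.μ) := by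
          apply add_le_add
          · nlinarith
          · exact mul_le_mul (by linarith) t2 (by positivity) (by linarith)
        _ = _ := by ring
    calc _ ≤ q2 (C.a i) * (51 * K ^ 7 * q2 (2 * b - C.μ)) :=
          mul_le_mul_of_nonneg_left t5 (q2_pos _).le
      _ = 51 * K ^ 7 * (q2 (C.a i) * q2 (2 * b - C.μ)) := by ring
      _ = _ := by rw [← q2_add, show C.a i + (2 * b - C.μ) = C.a i + 2 * b - C.μ by omega]
  have ec : 2 * K ^ 2 * q2 (C2.R i2 b2 + b2 - 5 * C.μ) + 131 * K ^ 7 * q2 (C.R i b + b - 3 * C.μ) ≤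
      133 * K ^ 7 * q2 (C.R i b + b - 4 * C.μ) := by
    have t1 : 2 * K ^ 2 * q2 (C2.R i2 b2 + b2 - 5 * C.μ) ≤ 2 * K ^ 7 * q2 (C.R i b + b - 4 * C.μ) :=
      mul_le_mul (by linarith) (q2_le (by omega)) (q2_pos _).le (by linarith)
    have t2 : 131 * K ^ 7 * q2 (C.R i b + b - 3 * C.μ) ≤ 131 * K ^ 7 * q2 (C.R i b + b - 4 * C.μ) :=
      mul_le_mul_of_nonneg_left (q2_le (by omega)) (by linarith)
    linarith
  refine ⟨hT, hv, hN.mono (q2_le hb) ?_ ?_ ?_ ?_ ?_ ?_, ?_⟩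
  · calc 10 * K ^ 2 * q2 (b2 + 2 * C.μ) ≤ 10 * K ^ 7 * q2 b :=
          mul_le_mul (by linarith) (q2_le (by omega)) (q2_pos _).le (by linarith)
      _ ≤ _ := mul_le_mul_of_nonneg_right (by linarith) (q2_pos b).le
  · have u : q2 (C2.a i2 + b2 - C.μ) ≤ q2 (C.a i + b) := q2_le (by omega)
    have u' : q2 (C.a i) * q2 b2 ≤ q2 (C.a i + b) := by
      rw [← q2_add]; exact q2_le (by omega)
    have q := q2_pos (C.a i + b)
    nlinarith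
  · have u : q2 (C2.a i2 + b2 - C.μ) ≤ q2 (C.a i + b) := q2_le (by omega)
    have q := q2_pos (C.a i + b)
    nlinarith
  · have u : q2 (C2.a i2 + 2 * b2 - 3 * C.μ) ≤ q2 (C.a i + 2 * b - C.μ) := q2_le (by omega)
    have q := q2_pos (C.a i + 2 * b - C.μ)
    nlinarith
  · have q := q2_pos (C.R i b + b - 4 * C.μ)
    nlinarith
  · have u : q2 (C2.a i2 + b2 + C2.R i2 b2 - 7 * C.μ) ≤ q2 (C.a i + b + C.R i b - 6 * C.μ) :=
      q2_le (by omega)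
    have u'' : q2 (C.a i + b + C.R i b - 3 * C.μ) ≤ q2 (C.a i + b + C.R i b - 6 * C.μ) :=
      q2_le (by omega)
    have q := q2_pos (C.a i + b + C.R i b - 6 * C.μ)
    have t1 : 2 * K ^ 2 * q2 (C2.a i2 + b2 + C2.R i2 b2 - 7 * C.μ) ≤
        2 * K ^ 7 * q2 (C.a i + b + C.R i b - 6 * C.μ) :=
      mul_le_mul (by linarith) u (q2_pos _).le (by linarith)
    have t3 : 9 * K ^ 7 * q2 (C.a i + b + C.R i b - 3 * C.μ) ≤
        9 * K ^ 7 * q2 (C.a i + b + C.R i b - 6 * C.μ) :=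
      mul_le_mul_of_nonneg_left u'' (by linarith)
    have t4 : q2 (C.a i) * (2 * K ^ 2 * q2 (C2.R i2 b2 + b2 - 5 * C.μ) +
        131 * K ^ 7 * q2 (C.R i b + b - 3 * C.μ)) ≤
        133 * K ^ 7 * q2 (C.a i + b + C.R i b - 6 * C.μ) := by
      calc _ ≤ q2 (C.a i) * (133 * K ^ 7 * q2 (C.R i b + b - 4 * C.μ)) :=
            mul_le_mul_of_nonneg_left ec (q2_pos _).le
        _ = 133 * K ^ 7 * (q2 (C.a i) * q2 (C.R i b + b - 4 * C.μ)) := by ring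
        _ = 133 * K ^ 7 * q2 (C.a i + (C.R i b + b - 4 * C.μ)) := by rw [← q2_add]
        _ ≤ _ := mul_le_mul_of_nonneg_left (q2_le (by omega)) (by linarith)
    nlinarith
  · have u : q2 (C2.R i2 b2 - 3 * C.μ) ≤ q2 (C.R i b - 2 * C.μ) := q2_le (by omega)
    have u' : q2 (C.R i b - C.μ) ≤ q2 (C.R i b - 2 * C.μ) := q2_le (by omega)
    have q := q2_pos (C.R i b - 2 * C.μ)
    have t1 : 2 * K ^ 2 * q2 (C2.R i2 b2 - 3 * C.μ) ≤ 2 * K ^ 7 * q2 (C.R i b - 2 * C.μ) :=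
      mul_le_mul (by linarith) u (q2_pos _).le (by linarith)
    have t2 : 50 * K ^ 5 * q2 (C.R i b - C.μ) ≤ 50 * K ^ 7 * q2 (C.R i b - 2 * C.μ) :=
      mul_le_mul (by linarith) u' (q2_pos _).le (by linarith)
    nlinarith

/-- **(N2')** the cell `(i2, b2)` of the path `C2` and the letter `C.T i` determine the cell `(i, b)` of the path `C`,
outside `Bad` -/
theorem cell2 (h1 : 1 ≤ K) (hl : C2.l = C.l) (hp : C2.p = C.p) (hK : C.Ok K ω) (hK' : C.Ok K ω')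
    (hK2 : C2.Ok K ω) (hK2' : C2.Ok K ω') (hμ : C2.μ = C.μ) (hf : C.rf i ≤ C2.rf i2)
    (hT2 : Two C C2 K i i2 ω) (hli : C.Lev i b) (hlj : C2.Lev i2 b2) (hb : b ≤ b2)
    (ha : C.a i + b + 2 * C.μ ≤ C2.a i2 + b2) (hR : C.R i b + C.μ ≤ C2.R i2 b2)
    (hB : ¬ C.Bad (640 * K ^ 7) i b ω) (hT : C.T i ω = C.T i ω')
    (h : C2.cell i2 b2 ω = C2.cell i2 b2 ω') : C.cell i b ω = C.cell i b ω' := by
  refine (clo2 h1 hl hp hK hK' hK2 hK2' hμ hf hT2 hli hlj hb ha hR hT h).cell hli ?_ ?_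
  · have : 1 ≤ K ^ 7 := one_le_pow₀ h1
    linarith
  · rwa [show 4 * (160 * K ^ 7) = 640 * K ^ 7 by ring]

end Vale.Agent.P106.U.H101
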