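import Vale.Agent.P106.U.H101.OffT
import Vale.Agent.P106.U.H465.Res
import Vale.Agent.P106.U.H449.NLe
import Vale.Agent.P106.U.H61.PLem
import Vale.Agent.P106.U.H661.SDef

/-!
# P106 / U / H101 : the far sums of row [S] over the windows, family (A) of `oT_gen` (helper101)

* `card_ZS` : at most `B + 1` steps of `SD.ZS D B` at each level.
* `cv_wo3`, `cv_D`, `cv_I` : the data of a window with other offsets of the letter.
* `aY`, `aW`, `aC`, `aD`, `av`, `aZ` : places, words, data, inputs, levels, steps = family (A) of `oT_gen`;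
  `aZN`, `aZc` : its hypotheses;  **`fr_of`** : its conclusion is the sum of helper661's `frS`;  **`fS_of`** : it gives `SD.FS`.
-/

set_option autoImplicit false

namespace Vale.Agent.P106.U.H101.FsW

open Finset Vale.Agent.P127 Vale.Agent.P127.Stk Vale.Agent.P127.U
open Vale.Agent.P127.U.CellD (q2 Nb q2_pos)
open Vale.Agent.P106.U Vale.Agent.P106.U.H565 Vale.Agent.P106.U.H823.PathNum
open Vale.Agent.P106.U.H61.PS
open Vale.Agent.P106.U.H712.Fam (Win Vl Pl)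
open Vale.Agent.P106.U.S3.PthW (Inp)
open Vale.Agent.P106.U.H101.TN (BadT wo3)
open Vale.Agent.P106.U.H661

/-- at most `B + 1` steps at each level -/
theorem card_ZS (D : PN) (B x : ℕ) : ((SD.ZS D B).filter fun z => D.li z = x).card ≤ B + 1 := by
  have h : ((SD.ZS D B).filter fun z => D.li z = x) ⊆ Icc (D.L.J x - B) (D.L.J x) := by
    intro z hz
    obtain ⟨h1, h2⟩ := Finset.mem_filter.1 hz
    obtain ⟨h3, h4⟩ := Finset.mem_filter.1 h1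
    have h5 : z ≤ D.N := by
      have := Finset.mem_range.1 h3
      omega
    rw [D.li_eq h5] at h2
    have h6 := D.L.le_J_lev z
    rw [h2] at h4 h6
    exact Finset.mem_Icc.2 ⟨by omega, h6⟩
  refine (Finset.card_le_card h).trans ?_
  rw [Nat.card_Icc]
  omega

variable {σ : S5.Cst} {cc : ℝ} {J M Md : ℕ} {p : Par} {X0 R0 h0 : ℕ} {Ω : Type} [Fintype Ω]
  (x : Ctx σ cc J M Md p X0 R0 h0 Ω)

/-- the data with other offsets of the letter -/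
theorem cv_wo3 (o : Fin 7 → ℝ) (oK oG oN : ℝ) (b0 k : ℕ) (z : Vl) :
    wo3 ((x.win ⟨o, 0, 0, 0⟩ b0).cv k z).inp oK oG oN = ((x.win ⟨o, oK, oG, oN⟩ b0).cv k z).inp := by
  by_cases h : 0 < (x.win ⟨o, 0, 0, 0⟩ b0).Q1.pr ((x.win ⟨o, 0, 0, 0⟩ b0).Z k) z
  · have h' : 0 < (x.win ⟨o, oK, oG, oN⟩ b0).Q1.pr ((x.win ⟨o, oK, oG, oN⟩ b0).Z k) z := h
    rw [Win.cv_eq _ h, Win.cv_eq _ h']
    rfl
  · have h' : ¬ 0 < (x.win ⟨o, oK, oG, oN⟩ b0).Q1.pr ((x.win ⟨o, oK, oG, oN⟩ b0).Z k) z := h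
    unfold Win.cv
    rw [dif_neg h, dif_neg h']
    rfl

/-- the numbers do not depend on the offsets of the letter -/
theorem cv_D (oo oo' : Oo) (b0 k : ℕ) (z : Vl) : ((x.win oo b0).cv k z).D = ((x.win oo' b0).cv k z).D := by
  by_cases h : 0 < (x.win oo b0).Q1.pr ((x.win oo b0).Z k) z
  · have h' : 0 < (x.win oo' b0).Q1.pr ((x.win oo' b0).Z k) z := h
    rw [Win.cv_eq _ h, Win.cv_eq _ h']
    rfl
  · have h' : ¬ 0 < (x.win oo' b0).Q1.pr ((x.win oo' b0).Z k) z := h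
    unfold Win.cv
    rw [dif_neg h, dif_neg h']
    rfl

theorem cv_I (oo : Oo) (b0 k : ℕ) (z : Vl) : ((x.win oo b0).cv k z).I = x.c.I := by
  by_cases h : 0 < (x.win oo b0).Q1.pr ((x.win oo b0).Z k) z
  · rw [Win.cv_eq _ h]
    rfl
  · unfold Win.cv
    rw [dif_neg h]
    rfl

/-! ### family (A) -/

/-- places -/
noncomputable def aY : Finset (ℕ × ℕ) := x.bs ×ˢ range p.Tc

/-- words -/
noncomputable def aW (o : Fin 7 → ℝ) (β : ℕ) (y : ℕ × ℕ) : Ω → Vl := (x.win ⟨o, 0, 0, 0⟩ y.1).Z (y.2 + β)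

/-- data -/
noncomputable def aC (o : Fin 7 → ℝ) (y : ℕ × ℕ) (e : Vl) : C2 Ω := (x.win ⟨o, 0, 0, 0⟩ y.1).cv y.2 (res y.2 e)

/-- inputs -/
noncomputable def aD (o : Fin 7 → ℝ) (y : ℕ × ℕ) (e : Vl) : Inp Ω := (aC x o y e).inp

/-- levels -/
noncomputable def av (o : Fin 7 → ℝ) (y : ℕ × ℕ) (e : Vl) : ℕ → ℕ := (aC x o y e).D.li

open Classical in
/-- steps -/
noncomputable def aZ (o : Fin 7 → ℝ) (B : ℕ) (y : ℕ × ℕ) (e : Vl) : Finset ℕ :=
  if Win.good y.2 (res y.2 e) then SD.ZS (aC x o y e).D B else ∅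

theorem aZN (o : Fin 7 → ℝ) (B : ℕ) (y : ℕ × ℕ) (e : Vl) : aZ x o B y e ⊆ range (SD.NT x.c) := by
  unfold aZ
  split_ifs
  · intro z hz
    have h1 := (Finset.mem_filter.1 hz).1
    have h2 := Vale.Agent.P106.U.H449.NLe.N_le (aC x o y e)
    have h3 : (aC x o y e).I = x.c.I := cv_I x _ _ _ _
    rw [h3] at h2
    rw [Finset.mem_range] at h1 ⊢
    exact lt_of_lt_of_le h1 h2
  · exact Finset.empty_subset _

theorem aZc (o : Fin 7 → ℝ) (B : ℕ) (y : ℕ × ℕ) (e : Vl) (l : ℕ) :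
    ((aZ x o B y e).filter fun z => av x o y e z = l).card ≤ B + 1 := by
  unfold aZ
  split_ifs
  · exact card_ZS _ _ _
  · simp

/-- **the conclusion (A) of `oT_gen` is the sum of the far costs** -/
theorem fr_of (o : Fin 7 → ℝ) (oK oG oN : ℝ) :
    ∑ b0 ∈ x.bs, ∑ k ∈ range p.Tc, x.Q1.ex (SD.frS (x.win ⟨o, oK, oG, oN⟩ b0) p.fp (SD.βr p) k) =
      ∑ y ∈ aY x, x.Q1.ex (fun ω => ∑ z ∈ aZ x o p.B y (aW x o (SD.βr p) y ω),
        ∑ j ∈ (range (SD.NT x.c)).filter (fun j => av x o y (aW x o (SD.βr p) y ω) j + p.g ≤ av x o y (aW x o (SD.βr p) y ω) z),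
        Real.sqrt (prE (x.Q1.cond (aW x o (SD.βr p) y) (aW x o (SD.βr p) y ω))
          (BadT (wo3 (aD x o y (aW x o (SD.βr p) y ω)) oK oG oN) j
          (H711.C0 6 648 * q2 (2 * (x.c.I.m * ((av x o y (aW x o (SD.βr p) y ω) z - av x o y (aW x o (SD.βr p) y ω) j) /
            (4 * x.c.I.J)))) * q2 ((aD x o y (aW x o (SD.βr p) y ω)).rk j))
          (H711.C0 6 648 * q2 (2 * (x.c.I.m * ((av x o y (aW x o (SD.βr p) y ω) z - av x o y (aW x o (SD.βr p) y ω) j) /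
            (4 * x.c.I.J)))) * q2 ((aD x o y (aW x o (SD.βr p) y ω)).a j))))) := by
  unfold aY
  rw [Finset.sum_product]
  refine Finset.sum_congr rfl fun b0 _ => Finset.sum_congr rfl fun k _ => x.Q1.ex_congr fun ω _ => ?_
  have e1 : (x.win ⟨o, oK, oG, oN⟩ b0).Z k ω = res k (aW x o (SD.βr p) (b0, k) ω) :=
    C0.zW_res (Nat.le_add_right k _) ω
  unfold SD.frS aZ
  rw [e1]
  split_ifs with hg
  · have e2 : ((x.win ⟨o, oK, oG, oN⟩ b0).cv k (res k (aW x o (SD.βr p) (b0, k) ω))).D =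
        (aC x o (b0, k) (aW x o (SD.βr p) (b0, k) ω)).D := cv_D x _ _ _ _ _
    have e3 : ((x.win ⟨o, oK, oG, oN⟩ b0).cv k (res k (aW x o (SD.βr p) (b0, k) ω))).inp =
        wo3 (aD x o (b0, k) (aW x o (SD.βr p) (b0, k) ω)) oK oG oN := (cv_wo3 x o oK oG oN b0 k _).symm
    rw [e2, e3]
    rfl
  · rw [Finset.sum_empty]

theorem card_aY : (aY x).card ≤ x.nB * p.Tc := by
  unfold aY
  rw [Finset.card_product, Finset.card_range]
  refine Nat.mul_le_mul_right _ ?_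
  have h : x.bs ⊆ Icc 1 x.nB := by
    intro b hb
    obtain ⟨h1, h2⟩ := x.mem_bs.1 hb
    exact Finset.mem_Icc.2 ⟨by omega, by omega⟩
  have := Finset.card_le_card h
  rw [Nat.card_Icc] at this
  omega

/-- **`SD.FS` from the conclusion (A) of `oT_gen`** -/
theorem fS_of (hK1 : 0 ≤ σ.K1) (hJh : (x.c.I.J : ℝ) + 4 ≤ (x.c.I.h : ℝ) / x.c.I.m) (o : Fin 7 → ℝ) (oK oG oN : ℝ)
    (h : ∑ b0 ∈ x.bs, ∑ k ∈ range p.Tc, x.Q1.ex (SD.frS (x.win ⟨o, oK, oG, oN⟩ b0) p.fp (SD.βr p) k) ≤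
      Real.sqrt (12 * H711.C0 6 648) * ((aY x).card * (SD.NT x.c * ((p.B + 1 : ℕ) *
        (2 * (4 * x.c.I.J : ℕ) * q2 (x.c.I.m * (p.g / (4 * x.c.I.J)))))))) {K : ℝ} :
    SD.FS σ K cc J M Md p X0 R0 h0 Ω x ⟨o, oK, oG, oN⟩ := by
  show ∑ b0 ∈ x.bs, ∑ kk ∈ range p.Tc, x.Q1.ex (SD.frS (x.win ⟨o, oK, oG, oN⟩ b0) p.fp (SD.βr p) kk) ≤
    (x.nB * p.Tc) * ((x.c.I.h / p.m) * ((p.B + 1) * (SD.cF σ J * q2 (p.m * (p.g / (4 * J))))))
  refine h.trans ?_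
  have e1 := x.em
  have e2 := x.eJ
  have h1 : ((aY x).card : ℝ) ≤ x.nB * p.Tc := by exact_mod_cast card_aY x
  have h2 : (SD.NT x.c : ℝ) ≤ (20 + 10 * σ.K1) * ((x.c.I.h : ℝ) / x.c.I.m) :=
    Vale.Agent.P106.U.H449.NLe.NT_le' x.good hK1 hJh
  rw [e1] at h2 ⊢
  rw [e2]
  have q0 := q2_pos (p.m * (p.g / (4 * J)))
  have s0 := Real.sqrt_nonneg (12 * H711.C0 6 648)
  have hN0 : (0 : ℝ) ≤ SD.NT x.c := Nat.cast_nonneg _
  have hY0 : (0 : ℝ) ≤ (aY x).card := Nat.cast_nonneg _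
  have hB0 : (0 : ℝ) ≤ (p.B : ℝ) := Nat.cast_nonneg _
  have hJ0 : (0 : ℝ) ≤ (J : ℝ) := Nat.cast_nonneg _
  push_cast
  have h3 : ((aY x).card : ℝ) * (SD.NT x.c * (((p.B : ℝ) + 1) * (2 * (4 * (J : ℝ)) * q2 (p.m * (p.g / (4 * J)))))) ≤
      (x.nB * p.Tc) * ((20 + 10 * σ.K1) * ((x.c.I.h : ℝ) / p.m) *
        (((p.B : ℝ) + 1) * (2 * (4 * (J : ℝ)) * q2 (p.m * (p.g / (4 * J)))))) := by
    have h4 : 0 ≤ ((p.B : ℝ) + 1) * (2 * (4 * (J : ℝ)) * q2 (p.m * (p.g / (4 * J)))) := by positivity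
    have h5 := mul_le_mul_of_nonneg_right h2 h4
    exact mul_le_mul h1 h5 (mul_nonneg hN0 h4) (by positivity)
  refine (mul_le_mul_of_nonneg_left h3 s0).trans (le_of_eq ?_)
  unfold SD.cF
  ring

end Vale.Agent.P106.U.H101.FsW
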