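import Vale.Agent.P106.U.H101.Low

/-!
# P106 / U / H101 : generic offsets for families of paths, with words and weights (helper101)  [row OFF]

* `gen_wt` : generic translation with weights; `gen1` : one offset, events `Nb` with flags, weights `c x`.
* `OffD C` : a path which depends on the offsets `o` (seven numbers) and `o' 0, o' 1` (kappa and gamma of the letter): levels, ray,
  time do not depend on them, the functional depends on `o 2, o' 0, o' 1` only.
* `off_all` : for a finite family of such paths (labels `x`, path, index and cap may depend on the point through the words) and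
  two families of numbers for `o' 0`, `o' 1` : offsets with small weighted sum of all exceptional events.
-/

set_option autoImplicit false

namespace Vale.Agent.P106.U.H101.Off

open Finset MeasureTheory Vale.Agent.P127 Vale.Agent.P127.Stk
open Vale.Agent.P127.U.CellD (q2 rd Nb q2_pos q2_le q2_add q2_mul_pow)
open Vale.Agent.P127.U.H715 (cnt int_cnt int_cnt' fl1_eq_of_cnt cnt_nonneg)
open Vale.Agent.P106.U.Cell

section gen

variable {Ω : Type} [Fintype Ω] {ι : Type*}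

/-- **generic translation with weights** -/
theorem gen_wt (s : Finset ι) (W : ι → Ω → ℝ) (n : ι → Ω → ℕ) (z η : ι → Ω → ℝ) :
    ∃ ξ : ℝ, 0 < ξ ∧ ξ ≤ 1 ∧ ∑ i ∈ s, ∑ ω, W i ω * cnt (n i ω) (z i ω + ξ) (η i ω) ≤
      ∑ i ∈ s, ∑ ω, W i ω * ((2 : ℝ) ^ (n i ω) * η i ω) := by
  set g : ℝ → ℝ := fun ξ => ∑ i ∈ s, ∑ ω, W i ω * cnt (n i ω) (z i ω + ξ) (η i ω) with hg
  have hint : ∀ i ω, IntervalIntegrable (fun ξ => W i ω * cnt (n i ω) (z i ω + ξ) (η i ω)) volume
      0 1 := fun i ω => (int_cnt' _ _ _ _ _).const_mul _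
  have hsum : ∀ i, IntervalIntegrable (fun ξ => ∑ ω, W i ω * cnt (n i ω) (z i ω + ξ) (η i ω))
      volume 0 1 := fun i => by
    have h := IntervalIntegrable.sum Finset.univ fun ω (_ : ω ∈ Finset.univ) => hint i ω
    have e : (fun ξ => ∑ ω, W i ω * cnt (n i ω) (z i ω + ξ) (η i ω)) =
        ∑ ω, fun ξ => W i ω * cnt (n i ω) (z i ω + ξ) (η i ω) := by
      funext ξ
      rw [Finset.sum_apply]
    rw [e]
    exact h
  have h1 : ∫ ξ in (0 : ℝ)..1, g ξ = ∑ i ∈ s, ∑ ω, W i ω * ((2 : ℝ) ^ (n i ω) * η i ω) := by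
    rw [hg]
    rw [intervalIntegral.integral_finsetSum fun i _ => hsum i]
    refine Finset.sum_congr rfl fun i _ => ?_
    rw [intervalIntegral.integral_finsetSum fun ω _ => hint i ω]
    refine Finset.sum_congr rfl fun ω _ => ?_
    rw [intervalIntegral.integral_const_mul, int_cnt]
  have hgi : IntervalIntegrable g volume 0 1 := by
    rw [hg]
    have h := IntervalIntegrable.sum s fun i (_ : i ∈ s) => hsum i
    have e : (fun ξ => ∑ i ∈ s, ∑ ω, W i ω * cnt (n i ω) (z i ω + ξ) (η i ω)) =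
        ∑ i ∈ s, fun ξ => ∑ ω, W i ω * cnt (n i ω) (z i ω + ξ) (η i ω) := by
      funext ξ
      rw [Finset.sum_apply]
    rw [e]
    exact h
  by_contra hc
  push Not at hc
  set c := ∑ i ∈ s, ∑ ω, W i ω * ((2 : ℝ) ^ (n i ω) * η i ω) with hcdef
  have h2 : ∫ ξ in (0 : ℝ)..1, (g ξ - c) = 0 := by
    rw [intervalIntegral.integral_sub hgi intervalIntegrable_const, h1]
    simp
  have h3 : 0 < ∫ ξ in (0 : ℝ)..1, (g ξ - c) := by
    refine intervalIntegral.intervalIntegral_pos_of_pos_on (hgi.sub intervalIntegrable_const) ?_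
      one_pos
    intro ξ hξ
    have := hc ξ hξ.1 hξ.2.le
    exact sub_pos.2 this
  linarith

open Classical in
/-- **one generic offset** : weights `c x`, flags `I x ω`, relative radii `e x ω` -/
theorem gen1 (P : Law Ω) (S : Finset ι) (c : ι → ℝ) (hc : ∀ x ∈ S, 0 ≤ c x) (I : ι → Ω → Prop) (n : ι → Ω → ℕ)
    (z e : ι → Ω → ℝ) (he : ∀ x ∈ S, ∀ ω, I x ω → 0 ≤ e x ω) : ∃ ξ : ℝ, 0 < ξ ∧ ξ ≤ 1 ∧
      ∑ x ∈ S, c x * prE P (fun ω => I x ω ∧ Nb (n x ω) (z x ω + ξ) (e x ω * q2 (n x ω))) ≤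
        2 * ∑ x ∈ S, c x * P.ex (fun ω => if I x ω then e x ω else 0) := by
  obtain ⟨ξ, h0, h1, h2⟩ := gen_wt S (fun x ω => c x * P.w ω) n
    (fun x ω => z x ω - e x ω * q2 (n x ω)) (fun x ω => if I x ω then 2 * (e x ω * q2 (n x ω)) else 0)
  refine ⟨ξ, h0, h1, ?_⟩
  have e1 : ∑ x ∈ S, ∑ ω, c x * P.w ω * ((2 : ℝ) ^ (n x ω) * (if I x ω then 2 * (e x ω * q2 (n x ω)) else 0)) =
      2 * ∑ x ∈ S, c x * P.ex (fun ω => if I x ω then e x ω else 0) := by
    rw [Finset.mul_sum]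
    refine Finset.sum_congr rfl fun x _ => ?_
    unfold Law.ex
    rw [Finset.mul_sum, Finset.mul_sum]
    refine Finset.sum_congr rfl fun ω _ => ?_
    beta_reduce
    by_cases hI : I x ω
    · rw [if_pos hI, if_pos hI]
      have := q2_mul_pow (n x ω)
      linear_combination (2 * c x * P.w ω * e x ω) * this
    · rw [if_neg hI, if_neg hI]
      ring
  rw [e1] at h2
  refine le_trans ?_ h2
  refine Finset.sum_le_sum fun x hx => ?_
  unfold prE
  rw [Finset.sum_filter, Finset.mul_sum]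
  refine Finset.sum_le_sum fun ω _ => ?_
  rw [mul_assoc]
  refine mul_le_mul_of_nonneg_left ?_ (hc x hx)
  by_cases hI : I x ω
  · have hη : 0 ≤ 2 * (e x ω * q2 (n x ω)) :=
      mul_nonneg (by norm_num) (mul_nonneg (he x hx ω hI) (q2_pos _).le)
    simp only [hI, true_and, if_true]
    split_ifs with hE
    · obtain ⟨y, h3, h4, h5⟩ := hE
      have h6 : 1 ≤ cnt (n x ω) (z x ω - e x ω * q2 (n x ω) + ξ) (2 * (e x ω * q2 (n x ω))) := by
        by_contra hlt
        refine h5 ?_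
        have := fl1_eq_of_cnt (y := y) _ (not_le.1 hlt) (by linarith) (by linarith)
        rw [this]
        congr 1
        ring
      nlinarith [P.nn ω]
    · exact mul_nonneg (P.nn ω) (cnt_nonneg _ _ hη)
  · simp only [hI, false_and, if_false]
    exact mul_nonneg (P.nn ω) (cnt_nonneg _ _ le_rfl)

end gen

/-! ### paths which depend on the offsets -/

variable {Ω τ : Type}

/-- **dependence of a path on the offsets** -/
structure OffD (C : (Fin 7 → ℝ) → (ℕ → ℝ) → Pth Ω τ) : Prop where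
  o : ∀ o o', (C o o').o = o
  a : ∀ o o' p p', (C o o').a = (C p p').a
  rf : ∀ o o' p p', (C o o').rf = (C p p').rf
  rk : ∀ o o' p p', (C o o').rk = (C p p').rk
  μ : ∀ o o' p p', (C o o').μ = (C p p').μ
  l : ∀ o o' p p', (C o o').l = (C p p').l
  t : ∀ o o' p p', (C o o').t = (C p p').t
  p : ∀ o o' p p', (C o o').p = (C p p').p
  F : ∀ o o' p p', o 2 = p 2 → o' 0 = p' 0 → o' 1 = p' 1 → (C o o').F = (C p p').F

namespace OffD

variable {C : (Fin 7 → ℝ) → (ℕ → ℝ) → Pth Ω τ} (h : OffD C) {o p : Fin 7 → ℝ} {o' p' : ℕ → ℝ}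
include h

theorem s : (C o o').s = (C p p').s := by
  funext i ω; unfold Pth.s; rw [h.a o o' p p', h.t o o' p p']

theorem bs : (C o o').bs = (C p p').bs := by
  funext i b; unfold Pth.bs; rw [h.rf o o' p p', h.rk o o' p p']

theorem R : (C o o').R = (C p p').R := by
  funext i b; unfold Pth.R; rw [h.bs (p := p) (p' := p'), h.rk o o' p p']

theorem lv : (C o o').lv = (C p p').lv := by
  funext i b; unfold Pth.lv; rw [h.R (p := p) (p' := p'), h.a o o' p p', h.μ o o' p p']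

theorem va0 (i b : ℕ) (ω : Ω) : (C o o').va i b ω 0 = (C p p').va i b ω 0 := by
  rw [Pth.va0, Pth.va0, h.l o o' p p', h.s (p := p) (p' := p')]

theorem va1 (i b : ℕ) (ω : Ω) : (C o o').va i b ω 1 = (C p p').va i b ω 1 := by
  rw [Pth.va1, Pth.va1, h.l o o' p p']

theorem va2 (i b : ℕ) (ω : Ω) : (C o o').va i b ω 2 = (C p p').va i b ω 2 := by
  rw [Pth.va2, Pth.va2, h.l o o' p p', h.s (p := p) (p' := p')]

theorem va3 (h1 : o 1 = p 1) (i b : ℕ) (ω : Ω) : (C o o').va i b ω 3 = (C p p').va i b ω 3 := by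
  rw [Pth.va3, Pth.va3]
  unfold Pth.Zs Pth.ro
  rw [h.l o o' p p', h.s (p := p) (p' := p'), h.o, h.o, h1, h.μ o o' p p']

theorem sl (h2 : o 2 = p 2) (h3 : o' 0 = p' 0) (h4 : o' 1 = p' 1) (i b : ℕ) (ω : Ω) :
    (C o o').sl i b ω = (C p p').sl i b ω := by
  unfold Pth.sl
  rw [h.F o o' p p' h2 h3 h4, h.bs (p := p) (p' := p'), h.l o o' p p']

theorem va4 (h2 : o 2 = p 2) (h3 : o' 0 = p' 0) (h4 : o' 1 = p' 1) (i b : ℕ) (ω : Ω) :
    (C o o').va i b ω 4 = (C p p').va i b ω 4 := by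
  rw [Pth.va4, Pth.va4, h.sl h2 h3 h4]

theorem slR (h2 : o 2 = p 2) (h3 : o' 0 = p' 0) (h4 : o' 1 = p' 1) (i b : ℕ) (ω : Ω) :
    H420.slR (C o o') i b ω = H420.slR (C p p') i b ω := by
  unfold H420.slR
  rw [h.F o o' p p' h2 h3 h4, h.bs (p := p) (p' := p'), h.l o o' p p', h.p o o' p p', h.s (p := p) (p' := p')]

theorem Fr (h2 : o 2 = p 2) (h3 : o' 0 = p' 0) (h4 : o' 1 = p' 1) (h5 : o 4 = p 4) (i b m : ℕ) (ω : Ω) :
    (C o o').Fr i b m ω = (C p p').Fr i b m ω := by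
  unfold Pth.Fr Pth.ro
  rw [h.F o o' p p' h2 h3 h4, h.bs (p := p) (p' := p'), h.l o o' p p', h.sl h2 h3 h4, h.o, h.o, h5]

theorem va5 (h2 : o 2 = p 2) (h3 : o' 0 = p' 0) (h4 : o' 1 = p' 1) (h5 : o 4 = p 4) (i b : ℕ) (ω : Ω) :
    (C o o').va i b ω 5 = (C p p').va i b ω 5 := by
  rw [Pth.va5, Pth.va5, h.Fr h2 h3 h4 h5, h.l o o' p p', h.s (p := p) (p' := p'), h.R (p := p) (p' := p'),
    h.μ o o' p p']

theorem va6 (h2 : o 2 = p 2) (h3 : o' 0 = p' 0) (h4 : o' 1 = p' 1) (h5 : o 4 = p 4) (i b : ℕ) (ω : Ω) :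
    (C o o').va i b ω 6 = (C p p').va i b ω 6 := by
  rw [Pth.va6, Pth.va6, h.Fr h2 h3 h4 h5, h.l o o' p p', h.s (p := p) (p' := p'), h.R (p := p) (p' := p'),
    h.μ o o' p p']

end OffD

section all

variable [Fintype Ω] {ι ι' : Type*} {τ : ι → Type}

open Classical in
lemma ex_flag (P : Law Ω) (I : Ω → Prop) (e : ℝ) : P.ex (fun ω => if I ω then e else 0) = e * prE P I := by
  unfold Law.ex prE
  rw [Finset.sum_filter, Finset.mul_sum]
  refine Finset.sum_congr rfl fun ω _ => ?_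
  beta_reduce
  by_cases h : I ω
  · rw [if_pos h, if_pos h]; ring
  · rw [if_neg h, if_neg h]; ring

open Classical in
/-- **[OFF]** generic offsets for a family of paths with words -/
theorem off_all (P : Law Ω) (S : Finset ι) (c : ι → ℝ) (hc : ∀ x ∈ S, 0 ≤ c x) (I : ι → Ω → Prop)
    (C : ∀ x : ι, Ω → (Fin 7 → ℝ) → (ℕ → ℝ) → Pth Ω (τ x)) (hC : ∀ x ω, OffD (C x ω)) (i b : ι → Ω → ℕ) (μ : ℕ)
    (hμ : ∀ x ω o o', (C x ω o o').μ = μ) {K : ℝ} (hK : 0 ≤ K) (S' : Finset ι') (c' : ι' → ℝ) (hc' : ∀ x ∈ S', 0 ≤ c' x)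
    (I' : ι' → Ω → Prop) (n' : ι' → Ω → ℕ) (zk : ι' → Ω → ℝ) (zu : ℝ → ι' → Ω → ℝ) (e' : ι' → Ω → ℝ)
    (he' : ∀ x ∈ S', ∀ ω, I' x ω → 0 ≤ e' x ω) :
    ∃ (o : Fin 7 → ℝ) (o' : ℕ → ℝ), (∀ k, 0 < o k ∧ o k ≤ 1) ∧ (∀ k, 0 < o' k ∧ o' k ≤ 1) ∧
      ∑ x ∈ S, c x * (prE P (fun ω => I x ω ∧ (C x ω o o').Bad K (i x ω) (b x ω) ω) +
        prE P (fun ω => I x ω ∧ H420.BadS (C x ω o o') K (i x ω) (b x ω) ω) +
        prE P (fun ω => I x ω ∧ H300.BadR (C x ω o o') K (i x ω) (b x ω) ω)) ≤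
          18 * K * q2 μ * ∑ x ∈ S, c x * prE P (I x) ∧
      ∑ x ∈ S', c' x * (prE P (fun ω => I' x ω ∧ Nb (n' x ω) (zk x ω + o' 0) (e' x ω * q2 (n' x ω))) +
        prE P (fun ω => I' x ω ∧ Nb (n' x ω) (zu (o 2) x ω + o' 1) (e' x ω * q2 (n' x ω)))) ≤
          4 * ∑ x ∈ S', c' x * P.ex (fun ω => if I' x ω then e' x ω else 0) := by
  have hKμ : 0 ≤ K * q2 μ := mul_nonneg hK (q2_pos _).le
  -- one of the first numbers
  have g : ∀ (k : Fin 7) (o : Fin 7 → ℝ) (o' : ℕ → ℝ), ∃ ξ : ℝ, 0 < ξ ∧ ξ ≤ 1 ∧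
      ∑ x ∈ S, c x * prE P (fun ω => I x ω ∧ Nb ((C x ω o o').lv (i x ω) (b x ω) k)
        ((C x ω o o').va (i x ω) (b x ω) ω k + ξ) (K * q2 μ * q2 ((C x ω o o').lv (i x ω) (b x ω) k))) ≤
        2 * (K * q2 μ) * ∑ x ∈ S, c x * prE P (I x) := by
    intro k o o'
    obtain ⟨ξ, h1, h2, h3⟩ := gen1 P S c hc I (fun x ω => (C x ω o o').lv (i x ω) (b x ω) k)
      (fun x ω => (C x ω o o').va (i x ω) (b x ω) ω k) (fun _ _ => K * q2 μ) fun _ _ _ _ => hKμ
    refine ⟨ξ, h1, h2, h3.trans (le_of_eq ?_)⟩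
    have e1 : ∑ x ∈ S, c x * P.ex (fun ω => if I x ω then K * q2 μ else 0) =
        K * q2 μ * ∑ x ∈ S, c x * prE P (I x) := by
      rw [Finset.mul_sum]
      refine Finset.sum_congr rfl fun x _ => ?_
      rw [ex_flag]
      ring
    rw [e1]
    ring
  obtain ⟨o1, p1, q1, r1⟩ := g 1 0 0
  obtain ⟨o2, p2, q2', r2⟩ := g 2 0 0
  obtain ⟨o0, p0, q0, r0⟩ := g 0 0 0
  obtain ⟨k0, pk, qk, rk⟩ := gen1 P S' c' hc' I' n' zk e' he'
  obtain ⟨k1, pu, qu, ru⟩ := gen1 P S' c' hc' I' n' (zu o2) e' he'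
  set A : Fin 7 → ℝ := fun k => if k = 1 then o1 else o2 with hA
  set A' : ℕ → ℝ := fun k => if k = 0 then k0 else k1 with hA'
  obtain ⟨o4, p4, q4, r4⟩ := gen1 P (S ×ˢ (univ : Finset (Fin 3))) (fun y => c y.1)
    (fun y hy => hc y.1 (Finset.mem_product.1 hy).1) (fun y => I y.1)
    (fun y ω => if y.2 = 0 then (C y.1 ω A A').lv (i y.1 ω) (b y.1 ω) 4 else
      if y.2 = 1 then (C y.1 ω A A').rf (i y.1 ω) else (C y.1 ω A A').R (i y.1 ω) (b y.1 ω))
    (fun y ω => if y.2 = 0 then (C y.1 ω A A').va (i y.1 ω) (b y.1 ω) ω 4 else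
      H420.slR (C y.1 ω A A') (i y.1 ω) (b y.1 ω) ω)
    (fun y ω => if y.2 = 2 then K * q2 ((C y.1 ω A A').rf (i y.1 ω) - (C y.1 ω A A').R (i y.1 ω) (b y.1 ω) + 5 * μ)
      else K * q2 μ)
    (fun y _ ω _ => by
      beta_reduce
      split_ifs
      · exact mul_nonneg hK (q2_pos _).le
      · exact hKμ)
  obtain ⟨o3, p3, q3, r3⟩ := g 3 A A'
  set B : Fin 7 → ℝ := fun k => if k = 1 then o1 else if k = 4 then o4 else o2 with hB
  obtain ⟨o5, p5, q5, r5⟩ := g 5 B A'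
  obtain ⟨o6, p6, q6, r6⟩ := g 6 B A'
  set o : Fin 7 → ℝ := ![o0, o1, o2, o3, o4, o5, o6] with ho
  have E0 : o 0 = o0 := rfl
  have E1 : o 1 = o1 := rfl
  have E2 : o 2 = o2 := rfl
  have E3 : o 3 = o3 := rfl
  have E4 : o 4 = o4 := rfl
  have E5 : o 5 = o5 := rfl
  have E6 : o 6 = o6 := rfl
  have A1 : A 1 = o1 := by simp [hA]
  have A2 : A 2 = o2 := by simp [hA]
  have B1 : B 1 = o1 := by simp [hB]
  have B2 : B 2 = o2 := by simp [hB]
  have B4 : B 4 = o4 := by simp [hB]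
  have A0' : A' 0 = k0 := by simp [hA']
  have A1' : A' 1 = k1 := by simp [hA']
  refine ⟨o, A', ?_, ?_, ?_, ?_⟩
  · intro k
    fin_cases k
    · exact ⟨p0, q0⟩
    · exact ⟨p1, q1⟩
    · exact ⟨p2, q2'⟩
    · exact ⟨p3, q3⟩
    · exact ⟨p4, q4⟩
    · exact ⟨p5, q5⟩
    · exact ⟨p6, q6⟩
  · intro k
    rw [hA']
    beta_reduce
    split_ifs
    · exact ⟨pk, qk⟩
    · exact ⟨pu, qu⟩
  · -- the seven numbers
    have hbad : ∀ x ∈ S, prE P (fun ω => I x ω ∧ (C x ω o A').Bad K (i x ω) (b x ω) ω) ≤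
        ∑ k : Fin 7, prE P (fun ω => I x ω ∧ Nb ((C x ω o A').lv (i x ω) (b x ω) k)
          ((C x ω o A').va (i x ω) (b x ω) ω k + o k) (K * q2 μ * q2 ((C x ω o A').lv (i x ω) (b x ω) k))) := by
      intro x _
      have := H300.prE_exists_fin P (fun (k : Fin 7) ω => I x ω ∧ Nb ((C x ω o A').lv (i x ω) (b x ω) k)
          ((C x ω o A').va (i x ω) (b x ω) ω k + o k) (K * q2 μ * q2 ((C x ω o A').lv (i x ω) (b x ω) k)))
      refine le_trans (le_of_eq ?_) this
      congr 1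
      funext ω
      unfold Pth.Bad
      rw [(hC x ω).o, hμ, exists_and_left]
      simp only [q2_add, mul_assoc, mul_comm (q2 μ)]
    have h7 : ∑ x ∈ S, c x * prE P (fun ω => I x ω ∧ (C x ω o A').Bad K (i x ω) (b x ω) ω) ≤
        ∑ k : Fin 7, ∑ x ∈ S, c x * prE P (fun ω => I x ω ∧ Nb ((C x ω o A').lv (i x ω) (b x ω) k)
          ((C x ω o A').va (i x ω) (b x ω) ω k + o k) (K * q2 μ * q2 ((C x ω o A').lv (i x ω) (b x ω) k))) := by
      rw [Finset.sum_comm]
      refine Finset.sum_le_sum fun x hx => ?_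
      rw [← Finset.mul_sum]
      exact mul_le_mul_of_nonneg_left (hbad x hx) (hc x hx)
    rw [Fin.sum_univ_seven] at h7
    -- each number
    have t0 : ∑ x ∈ S, c x * prE P (fun ω => I x ω ∧ Nb ((C x ω o A').lv (i x ω) (b x ω) 0)
          ((C x ω o A').va (i x ω) (b x ω) ω 0 + o 0) (K * q2 μ * q2 ((C x ω o A').lv (i x ω) (b x ω) 0))) ≤
        2 * (K * q2 μ) * ∑ x ∈ S, c x * prE P (I x) := by
      refine le_trans (le_of_eq ?_) r0
      refine Finset.sum_congr rfl fun x _ => ?_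
      congr 2
      funext ω
      rw [(hC x ω).lv (p := 0) (p' := 0), (hC x ω).va0 (p := 0) (p' := 0), E0]
    have t1 : ∑ x ∈ S, c x * prE P (fun ω => I x ω ∧ Nb ((C x ω o A').lv (i x ω) (b x ω) 1)
          ((C x ω o A').va (i x ω) (b x ω) ω 1 + o 1) (K * q2 μ * q2 ((C x ω o A').lv (i x ω) (b x ω) 1))) ≤
        2 * (K * q2 μ) * ∑ x ∈ S, c x * prE P (I x) := by
      refine le_trans (le_of_eq ?_) r1
      refine Finset.sum_congr rfl fun x _ => ?_
      congr 2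
      funext ω
      rw [(hC x ω).lv (p := 0) (p' := 0), (hC x ω).va1 (p := 0) (p' := 0), E1]
    have t2 : ∑ x ∈ S, c x * prE P (fun ω => I x ω ∧ Nb ((C x ω o A').lv (i x ω) (b x ω) 2)
          ((C x ω o A').va (i x ω) (b x ω) ω 2 + o 2) (K * q2 μ * q2 ((C x ω o A').lv (i x ω) (b x ω) 2))) ≤
        2 * (K * q2 μ) * ∑ x ∈ S, c x * prE P (I x) := by
      refine le_trans (le_of_eq ?_) r2
      refine Finset.sum_congr rfl fun x _ => ?_
      congr 2
      funext ω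
      rw [(hC x ω).lv (p := 0) (p' := 0), (hC x ω).va2 (p := 0) (p' := 0), E2]
    have t3 : ∑ x ∈ S, c x * prE P (fun ω => I x ω ∧ Nb ((C x ω o A').lv (i x ω) (b x ω) 3)
          ((C x ω o A').va (i x ω) (b x ω) ω 3 + o 3) (K * q2 μ * q2 ((C x ω o A').lv (i x ω) (b x ω) 3))) ≤
        2 * (K * q2 μ) * ∑ x ∈ S, c x * prE P (I x) := by
      refine le_trans (le_of_eq ?_) r3
      refine Finset.sum_congr rfl fun x _ => ?_
      congr 2
      funext ω
      rw [(hC x ω).lv (p := A) (p' := A'), (hC x ω).va3 (p := A) (p' := A') (E1.trans A1.symm), E3]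
    have t5 : ∑ x ∈ S, c x * prE P (fun ω => I x ω ∧ Nb ((C x ω o A').lv (i x ω) (b x ω) 5)
          ((C x ω o A').va (i x ω) (b x ω) ω 5 + o 5) (K * q2 μ * q2 ((C x ω o A').lv (i x ω) (b x ω) 5))) ≤
        2 * (K * q2 μ) * ∑ x ∈ S, c x * prE P (I x) := by
      refine le_trans (le_of_eq ?_) r5
      refine Finset.sum_congr rfl fun x _ => ?_
      congr 2
      funext ω
      rw [(hC x ω).lv (p := B) (p' := A'), (hC x ω).va5 (p := B) (p' := A') (E2.trans B2.symm) rfl rfl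
        (E4.trans B4.symm), E5]
    have t6 : ∑ x ∈ S, c x * prE P (fun ω => I x ω ∧ Nb ((C x ω o A').lv (i x ω) (b x ω) 6)
          ((C x ω o A').va (i x ω) (b x ω) ω 6 + o 6) (K * q2 μ * q2 ((C x ω o A').lv (i x ω) (b x ω) 6))) ≤
        2 * (K * q2 μ) * ∑ x ∈ S, c x * prE P (I x) := by
      refine le_trans (le_of_eq ?_) r6
      refine Finset.sum_congr rfl fun x _ => ?_
      congr 2
      funext ω
      rw [(hC x ω).lv (p := B) (p' := A'), (hC x ω).va6 (p := B) (p' := A') (E2.trans B2.symm) rfl rfl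
        (E4.trans B4.symm), E6]
    -- the slopes
    have t4 : ∑ x ∈ S, c x * prE P (fun ω => I x ω ∧ Nb ((C x ω o A').lv (i x ω) (b x ω) 4)
          ((C x ω o A').va (i x ω) (b x ω) ω 4 + o 4) (K * q2 μ * q2 ((C x ω o A').lv (i x ω) (b x ω) 4))) +
        (∑ x ∈ S, c x * prE P (fun ω => I x ω ∧ H420.BadS (C x ω o A') K (i x ω) (b x ω) ω) +
        ∑ x ∈ S, c x * prE P (fun ω => I x ω ∧ H300.BadR (C x ω o A') K (i x ω) (b x ω) ω)) ≤
        6 * (K * q2 μ) * ∑ x ∈ S, c x * prE P (I x) := by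
      rw [Finset.sum_product, Finset.sum_product] at r4
      simp only [Fin.sum_univ_three] at r4
      have hl : ∀ x ∈ S, c x * prE P (fun ω => I x ω ∧ Nb ((C x ω o A').lv (i x ω) (b x ω) 4)
          ((C x ω o A').va (i x ω) (b x ω) ω 4 + o 4) (K * q2 μ * q2 ((C x ω o A').lv (i x ω) (b x ω) 4))) +
          (c x * prE P (fun ω => I x ω ∧ H420.BadS (C x ω o A') K (i x ω) (b x ω) ω) +
          c x * prE P (fun ω => I x ω ∧ H300.BadR (C x ω o A') K (i x ω) (b x ω) ω)) =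
          c x * prE P (fun ω => I x ω ∧ Nb ((C x ω A A').lv (i x ω) (b x ω) 4)
            ((C x ω A A').va (i x ω) (b x ω) ω 4 + o4) (K * q2 μ * q2 ((C x ω A A').lv (i x ω) (b x ω) 4))) +
          c x * prE P (fun ω => I x ω ∧ Nb ((C x ω A A').rf (i x ω)) (H420.slR (C x ω A A') (i x ω) (b x ω) ω + o4)
            (K * q2 μ * q2 ((C x ω A A').rf (i x ω)))) +
          c x * prE P (fun ω => I x ω ∧ Nb ((C x ω A A').R (i x ω) (b x ω))
            (H420.slR (C x ω A A') (i x ω) (b x ω) ω + o4)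
            (K * q2 ((C x ω A A').rf (i x ω) - (C x ω A A').R (i x ω) (b x ω) + 5 * μ) *
              q2 ((C x ω A A').R (i x ω) (b x ω)))) := by
        intro x _
        rw [add_assoc]
        congr 1
        · congr 2
          funext ω
          rw [(hC x ω).lv (p := A) (p' := A'), (hC x ω).va4 (p := A) (p' := A') (E2.trans A2.symm) rfl rfl, E4]
        · congr 1
          · congr 2
            funext ω
            unfold H420.BadS
            rw [(hC x ω).slR (p := A) (p' := A') (E2.trans A2.symm) rfl rfl, (hC x ω).o, hμ,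
              (hC x ω).rf o A' A A', E4]
            simp only [q2_add, mul_assoc, mul_comm (q2 μ)]
          · congr 2
            funext ω
            unfold H300.BadR
            rw [(hC x ω).slR (p := A) (p' := A') (E2.trans A2.symm) rfl rfl, (hC x ω).o, hμ,
              (hC x ω).rf o A' A A', (hC x ω).R (p := A) (p' := A'), E4]
            have hRf := (C x ω A A').R_le_rf (i x ω) (b x ω)
            rw [mul_assoc, ← q2_add,
              show (C x ω A A').rf (i x ω) - (C x ω A A').R (i x ω) (b x ω) + 5 * μ +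
                (C x ω A A').R (i x ω) (b x ω) = (C x ω A A').rf (i x ω) + 5 * μ by omega]
      rw [← Finset.sum_add_distrib, ← Finset.sum_add_distrib, Finset.sum_congr rfl hl]
      refine le_trans (le_of_eq ?_) (r4.trans ?_)
      · refine Finset.sum_congr rfl fun x _ => ?_
        simp
      · rw [Finset.mul_sum, Finset.mul_sum]
        refine Finset.sum_le_sum fun x hx => ?_
        have hc0 := hc x hx
        have key : ∀ X0 X1 X2 : ℝ, X0 ≤ K * q2 μ * prE P (I x) → X1 ≤ K * q2 μ * prE P (I x) →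
            X2 ≤ K * q2 μ * prE P (I x) →
            2 * (c x * X0 + c x * X1 + c x * X2) ≤ 6 * (K * q2 μ) * (c x * prE P (I x)) := by
          intro X0 X1 X2 x0 x1 x2
          have v0 := mul_le_mul_of_nonneg_left x0 hc0
          have v1 := mul_le_mul_of_nonneg_left x1 hc0
          have v2 := mul_le_mul_of_nonneg_left x2 hc0
          linarith
        refine key _ _ _ ?_ ?_ ?_ <;>
        · rw [← ex_flag]
          unfold Law.ex
          refine Finset.sum_le_sum fun ω _ => mul_le_mul_of_nonneg_left ?_ (P.nn ω)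
          beta_reduce
          split_ifs
          all_goals first
            | exact le_rfl
            | exact mul_le_mul_of_nonneg_left (q2_le (by omega)) hK
    have e7 : ∑ x ∈ S, c x * (prE P (fun ω => I x ω ∧ (C x ω o A').Bad K (i x ω) (b x ω) ω) +
        prE P (fun ω => I x ω ∧ H420.BadS (C x ω o A') K (i x ω) (b x ω) ω) +
        prE P (fun ω => I x ω ∧ H300.BadR (C x ω o A') K (i x ω) (b x ω) ω)) =
        ∑ x ∈ S, c x * prE P (fun ω => I x ω ∧ (C x ω o A').Bad K (i x ω) (b x ω) ω) +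
        (∑ x ∈ S, c x * prE P (fun ω => I x ω ∧ H420.BadS (C x ω o A') K (i x ω) (b x ω) ω) +
        ∑ x ∈ S, c x * prE P (fun ω => I x ω ∧ H300.BadR (C x ω o A') K (i x ω) (b x ω) ω)) := by
      rw [← Finset.sum_add_distrib, ← Finset.sum_add_distrib]
      refine Finset.sum_congr rfl fun x _ => ?_
      ring
    rw [e7]
    linarith
  · rw [A0', A1', E2]
    have e2 : ∑ x ∈ S', c' x * (prE P (fun ω => I' x ω ∧ Nb (n' x ω) (zk x ω + k0) (e' x ω * q2 (n' x ω))) +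
        prE P (fun ω => I' x ω ∧ Nb (n' x ω) (zu o2 x ω + k1) (e' x ω * q2 (n' x ω)))) =
        ∑ x ∈ S', c' x * prE P (fun ω => I' x ω ∧ Nb (n' x ω) (zk x ω + k0) (e' x ω * q2 (n' x ω))) +
        ∑ x ∈ S', c' x * prE P (fun ω => I' x ω ∧ Nb (n' x ω) (zu o2 x ω + k1) (e' x ω * q2 (n' x ω))) := by
      rw [← Finset.sum_add_distrib]
      refine Finset.sum_congr rfl fun x _ => ?_
      ring
    rw [e2]
    linarith

end all

end Vale.Agent.P106.U.H101.Off
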