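import Vale.Agent.P106.U.H101.OffF
import Vale.Agent.P106.U.H61.Ext2
import Vale.Agent.P106.U.H711.Arr

/-!
# P106 / U / H101 : row [OFF] in the form of the frame of `PF2` (helper101)

* `cOff_eq`, .. : helper61's four costs are the costs of `OffF`; `allV` : all levels; `cOffK_all`, `cOffP_all` : the costs of `(Vs, Xs)`
  are at most those of `(allV, ∅)`.
* `o4` : the sum of the four costs.
* **`off_dep`** : records given on the values of positive probability only; one choice of the offsets, mean `≤ 300 / K' q2 (μ / 4)` per place.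
* **`off_raw`** : the sums `sOff`, `sK d`, `sP d`, `sL` themselves (no weights), if `n + J + 1 ≤ N`.
* `sum_mu`, `sum_dy` : the sums over `μ ≥ m` and over the dyadic constants.
-/

set_option autoImplicit false

namespace Vale.Agent.P106.U.H101.Off

open Finset Vale.Agent.P127 Vale.Agent.P127.Stk
open Vale.Agent.P127.U.CellD (q2 rd Nb q2_pos q2_le q2_add q2_mul_pow)
open Vale.Agent.P106.U.Cell Vale.Agent.P106.U.S3
open Vale.Agent.P106.U.H61.Ext2

section eqs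

variable {Ω : Type} [Fintype Ω] {τ υ π : Type} (R : Run Ω τ υ) (p : Run.Num) (B bS bV : ℕ) (F : Pf R π)
  (Vs Xs : Finset ℕ) (μ : ℕ) (K' : ℝ) (o : Fin 7 → ℝ) (o' : ℕ → ℝ) (d : ℕ)

theorem cOff_eq : cOff R p bS μ K' o = cO R p B bS bV F Vs Xs μ K' o o' .a 0 := by
  unfold cOff cO sOff tD
  congr 1
  refine Finset.sum_congr rfl fun k _ => ?_
  show _ = _ + _ + ∑ i ∈ (∅ : Finset ℕ), _
  rw [Finset.sum_empty, add_zero]
  rfl

theorem cOffK_eq : cOffK R p B bV F Vs Xs μ K' o o' d = cO R p B bS bV F Vs Xs μ K' o o' .k d := rfl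

theorem cOffP_eq : cOffP R p B bV F Vs Xs μ K' o o' d = cO R p B bS bV F Vs Xs μ K' o o' .p d := rfl

theorem cOffL_eq : cOffL R p μ K' o o' = cL R p μ K' o o' := by
  unfold cOffL cL sL tD
  congr 1
  push_cast
  ring

/-- all levels -/
noncomputable def allV : Finset ℕ := (range (R.n + 1)).image (lv R)

theorem lv_allV {k : ℕ} (hk : k ≤ R.n) : lv R k ∈ allV R :=
  Finset.mem_image.2 ⟨k, Finset.mem_range.2 (by omega), rfl⟩

theorem IdK_all : IdK R Vs Xs ⊆ IdK R (allV R) ∅ := by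
  intro k hk
  obtain ⟨h1, _, _, h2⟩ := Finset.mem_filter.1 hk
  exact Finset.mem_filter.2 ⟨h1, lv_allV R (Finset.mem_Icc.1 h1).2, Finset.notMem_empty _, h2⟩

theorem IdP_all : IdP R F B Vs Xs ⊆ IdP R F B (allV R) ∅ := by
  intro k hk
  obtain ⟨h1, _, _, h2⟩ := Finset.mem_filter.1 hk
  exact Finset.mem_filter.2 ⟨h1, lv_allV R (Finset.mem_Icc.1 h1).2, Finset.notMem_empty _, h2⟩

theorem sK_all : sK R p B bV F Vs Xs μ K' o o' d ≤ sK R p B bV F (allV R) ∅ μ K' o o' d :=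
  Finset.sum_le_sum_of_subset_of_nonneg (IdK_all R Vs Xs) fun _ _ _ =>
    add_nonneg (add_nonneg (exc_nonneg _ _ _ _ _) (exc_nonneg _ _ _ _ _)) (Finset.sum_nonneg fun _ _ => exc_nonneg _ _ _ _ _)

theorem sP_all : sP R p B bV F Vs Xs μ K' o o' d ≤ sP R p B bV F (allV R) ∅ μ K' o o' d :=
  Finset.sum_le_sum_of_subset_of_nonneg (IdP_all R B F Vs Xs) fun _ _ _ =>
    add_nonneg (add_nonneg (exc_nonneg _ _ _ _ _) (exc_nonneg _ _ _ _ _)) (Finset.sum_nonneg fun _ _ => exc_nonneg _ _ _ _ _)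

variable {K'} in
theorem cOffK_all (hK : 0 < K') :
    cOffK R p B bV F Vs Xs μ K' o o' d ≤ cOffK R p B bV F (allV R) ∅ μ K' o o' d :=
  div_le_div_of_nonneg_right (sK_all R p B bV F Vs Xs μ K' o o' d) (tD_pos hK).le

variable {K'} in
theorem cOffP_all (hK : 0 < K') :
    cOffP R p B bV F Vs Xs μ K' o o' d ≤ cOffP R p B bV F (allV R) ∅ μ K' o o' d :=
  div_le_div_of_nonneg_right (sP_all R p B bV F Vs Xs μ K' o o' d) (tD_pos hK).le

/-- **the sum of the four costs** -/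
noncomputable def o4 : ℝ := cOff R p bS μ K' o +
  ∑ d ∈ range (B + 1), (cOffK R p B bV F Vs Xs μ K' o o' d + cOffP R p B bV F Vs Xs μ K' o o' d) + cOffL R p μ K' o o'

variable {K'} in
theorem o4_all (hK : 0 < K') : o4 R p B bS bV F Vs Xs μ K' o o' ≤ o4 R p B bS bV F (allV R) ∅ μ K' o o' := by
  unfold o4
  have h := Finset.sum_le_sum (s := range (B + 1)) fun d _ =>
    add_le_add (cOffK_all R p B bV F Vs Xs μ o o' d hK) (cOffP_all R p B bV F Vs Xs μ o o' d hK)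
  linarith

variable {K'} in
theorem o4_nonneg (hK : 0 < K') : 0 ≤ o4 R p B bS bV F Vs Xs μ K' o o' :=
  add_nonneg (add_nonneg (cOff_nonneg hK) (Finset.sum_nonneg fun _ _ => add_nonneg (cOffK_nonneg hK) (cOffP_nonneg hK)))
    (cOffL_nonneg hK)

end eqs

variable {Ω : Type} [Fintype Ω] {τ υ π : Type}

open Classical in
/-- **row [OFF]**, records on the values of positive probability -/
theorem off_dep (Q1 : Law Ω) {X Z : Type} (S : Finset X) (w : X → Ω → Z)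
    (R : ∀ x z, 0 < Q1.pr (w x) z → Run Ω τ υ) (p : Run.Num) (B : ℕ) (F : ∀ x z hz, Pf (R x z hz) π)
    (Vs Xs : ∀ x z, 0 < Q1.pr (w x) z → Finset ℕ) (bS bV : ∀ x z, 0 < Q1.pr (w x) z → ℕ)
    (hQ : ∀ x ∈ S, ∀ z hz, (R x z hz).Q = Q1.cond (w x) z) (hm : ∀ x ∈ S, ∀ z hz, 1 ≤ (R x z hz).m) {μ : ℕ} {K' : ℝ}
    (hK : 0 < K') (hr : ∀ x ∈ S, ∀ z hz k, μ / 2 ≤ (R x z hz).C.rk k) :
    ∃ (o : Fin 7 → ℝ) (o' : ℕ → ℝ), ((∀ k, 0 < o k ∧ o k ≤ 1) ∧ ∀ k, 0 < o' k ∧ o' k ≤ 1) ∧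
      ∑ x ∈ S, Q1.ex (fun ω => if hz : 0 < Q1.pr (w x) (w x ω) then
        o4 (R x _ hz) p B (bS x _ hz) (bV x _ hz) (F x _ hz) (Vs x _ hz) (Xs x _ hz) μ K' o o' else 0) ≤
          300 / K' * q2 (μ / 4) * S.card := by
  rcases S.eq_empty_or_nonempty with rfl | ⟨x0, hx0⟩
  · refine ⟨fun _ => 1, fun _ => 1, ⟨fun _ => ⟨one_pos, le_rfl⟩, fun _ => ⟨one_pos, le_rfl⟩⟩, ?_⟩
    rw [Finset.sum_empty, Finset.card_empty, Nat.cast_zero, mul_zero]
  · -- a point of the support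
    obtain ⟨ω0, hω0⟩ : ∃ ω, 0 < Q1.w ω := by
      by_contra hc
      push Not at hc
      have h1 : ∑ ω, Q1.w ω ≤ 0 := Finset.sum_nonpos fun ω _ => hc ω
      have h2 := Q1.sum_one
      linarith
    have hz0 := Q1.pr_pos (w x0) hω0
    obtain ⟨E, hE⟩ : ∃ E : X → Z → Σ R : Run Ω τ υ, Pf R π × (Finset ℕ × Finset ℕ) × (ℕ × ℕ), ∀ x z hz,
        E x z = ⟨R x z hz, F x z hz, (Vs x z hz, Xs x z hz), (bS x z hz, bV x z hz)⟩ :=
      ⟨fun x z => if hz : 0 < Q1.pr (w x) z then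
        ⟨R x z hz, F x z hz, (Vs x z hz, Xs x z hz), (bS x z hz, bV x z hz)⟩ else
        ⟨R x0 _ hz0, F x0 _ hz0, (∅, ∅), (0, 0)⟩, fun x z hz => dif_pos hz⟩
    obtain ⟨o, o', h1, h2⟩ := off_row Q1 S w (fun x z => (E x z).1) p B (fun x z => (E x z).2.1)
      (fun x z => (E x z).2.2.1.1) (fun x z => (E x z).2.2.1.2) (fun x z => (E x z).2.2.2.1)
      (fun x z => (E x z).2.2.2.2)
      (fun x hx ω hω => by rw [hE x _ (Q1.pr_pos (w x) hω)]; exact hQ x hx _ _)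
      (fun x hx ω hω => by rw [hE x _ (Q1.pr_pos (w x) hω)]; exact hm x hx _ _) hK
      (fun x hx ω hω k => by rw [hE x _ (Q1.pr_pos (w x) hω)]; exact hr x hx _ _ k)
    refine ⟨o, o', h1, le_trans (le_of_eq ?_) h2⟩
    refine Finset.sum_congr rfl fun x hx => Q1.ex_congr fun ω hω => ?_
    have hz := Q1.pr_pos (w x) hω
    rw [dif_pos hz, hE x _ hz]
    unfold o4
    rw [cOff_eq (R x _ hz) p B (bS x _ hz) (bV x _ hz) (F x _ hz) (Vs x _ hz) (Xs x _ hz) μ K' o o', cOffL_eq]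
    rfl

/-- the sum of the four costs bounds each of them -/
theorem o4_ge {R : Run Ω τ υ} {p : Run.Num} {B bS bV : ℕ} {F : Pf R π} {Vs Xs : Finset ℕ} {μ : ℕ} {K' : ℝ}
    {o : Fin 7 → ℝ} {o' : ℕ → ℝ} (hK : 0 < K') {T : ℝ} (hT : o4 R p B bS bV F Vs Xs μ K' o o' ≤ T) :
    sOff R p bS μ K' o ≤ T * tD R p μ K' 0 ∧ sL R μ K' o o' ≤ T * tD R p μ K' 0 ∧
      ∀ d ≤ B, sK R p B bV F Vs Xs μ K' o o' d + sP R p B bV F Vs Xs μ K' o o' d ≤ T * tD R p μ K' d := by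
  have a1 := cOff_nonneg (R := R) (p := p) (bS := bS) (μ := μ) (o := o) hK
  have a2 := cOffL_nonneg (R := R) (p := p) (μ := μ) (o := o) (o' := o') hK
  have b0 : ∀ d ∈ range (B + 1), 0 ≤ cOffK R p B bV F Vs Xs μ K' o o' d + cOffP R p B bV F Vs Xs μ K' o o' d :=
    fun d _ => add_nonneg (cOffK_nonneg hK) (cOffP_nonneg hK)
  have b1 := Finset.sum_nonneg b0
  unfold o4 at hT
  refine ⟨le_of_div (tD_pos hK) (show cOff R p bS μ K' o ≤ T by linarith),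
    le_of_div (tD_pos hK) (show cOffL R p μ K' o o' ≤ T by linarith), fun d hd => ?_⟩
  have b2 := Finset.single_le_sum b0 (Finset.mem_range.2 (show d < B + 1 by omega))
  refine le_of_div (tD_pos hK) ?_
  rw [add_div]
  exact b2.trans (by linarith)

/-- **the sums themselves** in the mean, from the mean of the costs -/
theorem off_raw (Q1 : Law Ω) {X Z : Type} (S : Finset X) (w : X → Ω → Z)
    (R : ∀ x z, 0 < Q1.pr (w x) z → Run Ω τ υ) (p : Run.Num) (B : ℕ) (F : ∀ x z hz, Pf (R x z hz) π)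
    (Vs Xs : ∀ x z, 0 < Q1.pr (w x) z → Finset ℕ) (bS bV : ∀ x z, 0 < Q1.pr (w x) z → ℕ) {μ : ℕ} {K' : ℝ} (hK : 0 < K')
    {o : Fin 7 → ℝ} {o' : ℕ → ℝ} {N : ℝ} (hN0 : 0 ≤ N) (hN : ∀ x ∈ S, ∀ z hz, ((R x z hz).n : ℝ) + p.J + 1 ≤ N) {M : ℝ}
    (h : ∑ x ∈ S, Q1.ex (fun ω => @dite _ (0 < Q1.pr (w x) (w x ω)) (Classical.propDecidable _) (fun hz =>
        o4 (R x _ hz) p B (bS x _ hz) (bV x _ hz) (F x _ hz) (Vs x _ hz) (Xs x _ hz) μ K' o o') fun _ => 0) ≤ M) {d : ℕ}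
    (hd : d ≤ B) :
    ∑ x ∈ S, Q1.ex (fun ω => @dite _ (0 < Q1.pr (w x) (w x ω)) (Classical.propDecidable _) (fun hz =>
        sOff (R x _ hz) p (bS x _ hz) μ K' o + sL (R x _ hz) μ K' o o' +
          (sK (R x _ hz) p B (bV x _ hz) (F x _ hz) (Vs x _ hz) (Xs x _ hz) μ K' o o' d +
          sP (R x _ hz) p B (bV x _ hz) (F x _ hz) (Vs x _ hz) (Xs x _ hz) μ K' o o' d)) fun _ => 0) ≤
      3 * (K' ^ 2 * ((d : ℝ) + 1) ^ 2 * N * q2 (μ / 4)) * M := by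
  have q4 := q2_pos (μ / 4)
  have key : ∀ x ∈ S, Q1.ex (fun ω => @dite _ (0 < Q1.pr (w x) (w x ω)) (Classical.propDecidable _) (fun hz =>
        sOff (R x _ hz) p (bS x _ hz) μ K' o + sL (R x _ hz) μ K' o o' +
          (sK (R x _ hz) p B (bV x _ hz) (F x _ hz) (Vs x _ hz) (Xs x _ hz) μ K' o o' d +
          sP (R x _ hz) p B (bV x _ hz) (F x _ hz) (Vs x _ hz) (Xs x _ hz) μ K' o o' d)) fun _ => 0) ≤
      3 * (K' ^ 2 * ((d : ℝ) + 1) ^ 2 * N * q2 (μ / 4)) *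
        Q1.ex (fun ω => @dite _ (0 < Q1.pr (w x) (w x ω)) (Classical.propDecidable _) (fun hz =>
        o4 (R x _ hz) p B (bS x _ hz) (bV x _ hz) (F x _ hz) (Vs x _ hz) (Xs x _ hz) μ K' o o') fun _ => 0) := by
    intro x hx
    rw [← Q1.ex_const_mul]
    refine Q1.ex_mono fun ω hω => ?_
    have hz := Q1.pr_pos (w x) hω
    rw [dif_pos hz, dif_pos hz]
    obtain ⟨c1, c2, c3⟩ := o4_ge (R := R x _ hz) (p := p) (B := B) (bS := bS x _ hz) (bV := bV x _ hz) (F := F x _ hz)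
      (Vs := Vs x _ hz) (Xs := Xs x _ hz) (μ := μ) (o := o) (o' := o') hK le_rfl
    have c4 := c3 d hd
    have c0 := o4_nonneg (R x _ hz) p B (bS x _ hz) (bV x _ hz) (F x _ hz) (Vs x _ hz) (Xs x _ hz) μ o o' hK
    set T := o4 (R x _ hz) p B (bS x _ hz) (bV x _ hz) (F x _ hz) (Vs x _ hz) (Xs x _ hz) μ K' o o' with hT
    have hn := hN x hx _ hz
    have e1 : ∀ e ≤ d, tD (R x _ hz) p μ K' e ≤ K' ^ 2 * ((d : ℝ) + 1) ^ 2 * N * q2 (μ / 4) := by
      intro e he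
      unfold tD
      refine mul_le_mul_of_nonneg_right ?_ q4.le
      have e2 : ((e : ℝ) + 1) ^ 2 ≤ ((d : ℝ) + 1) ^ 2 := by
        have : (e : ℝ) ≤ d := by exact_mod_cast he
        exact pow_le_pow_left₀ (by positivity) (by linarith) 2
      have e3 : K' ^ 2 * ((e : ℝ) + 1) ^ 2 ≤ K' ^ 2 * ((d : ℝ) + 1) ^ 2 := mul_le_mul_of_nonneg_left e2 (by positivity)
      exact mul_le_mul e3 hn (by positivity) (by positivity)
    have f1 := mul_le_mul_of_nonneg_left (e1 0 (Nat.zero_le d)) c0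
    have f2 := mul_le_mul_of_nonneg_left (e1 d le_rfl) c0
    linarith
  refine (Finset.sum_le_sum key).trans ?_
  rw [← Finset.mul_sum]
  exact mul_le_mul_of_nonneg_left h (by positivity)

/-- sum over the margins -/
theorem sum_mu (m B : ℕ) : ∑ μ ∈ Icc m B, q2 (μ / 4) ≤ 8 * q2 (m / 4) := by
  have h := Vale.Agent.P106.U.H711.geo (m := 1) (p := 4) le_rfl (by norm_num) m (B + 1)
  simp only [one_mul] at h
  have e : Icc m B = Ico m (B + 1) := by
    ext x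
    rw [Finset.mem_Icc, Finset.mem_Ico]
    omega
  rw [e]
  push_cast at h
  linarith

/-- sum over the dyadic constants -/
theorem sum_dy (g N : ℕ) : ∑ j ∈ Ico g N, q2 j ≤ 2 * q2 g := by
  have h := Vale.Agent.P106.U.H711.geo (m := 1) (p := 1) le_rfl le_rfl g N
  simp only [one_mul, Nat.div_one] at h
  push_cast at h
  linarith

/-- **sum over the grid** of the bound of `off_dep` -/
theorem off_grid (m B j0 N : ℕ) {c : ℝ} (hc : 0 ≤ c) :
    ∑ μ ∈ Icc m B, ∑ j ∈ Ico j0 N, 300 / (2 : ℝ) ^ j * q2 (μ / 4) * c ≤ 4800 * q2 j0 * q2 (m / 4) * c := by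
  have e1 : ∑ μ ∈ Icc m B, ∑ j ∈ Ico j0 N, 300 / (2 : ℝ) ^ j * q2 (μ / 4) * c =
      300 * c * ((∑ μ ∈ Icc m B, q2 (μ / 4)) * ∑ j ∈ Ico j0 N, q2 j) := by
    rw [Finset.sum_mul_sum, Finset.mul_sum]
    refine Finset.sum_congr rfl fun μ _ => ?_
    rw [Finset.mul_sum]
    refine Finset.sum_congr rfl fun j _ => ?_
    have e2 : 300 / (2 : ℝ) ^ j = 300 * q2 j := by
      unfold q2
      rw [one_div, inv_pow, div_eq_mul_inv]
    rw [e2]
    ring
  rw [e1]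
  have h1 := sum_mu m B
  have h2 := sum_dy j0 N
  have h3 : 0 ≤ ∑ j ∈ Ico j0 N, q2 j := Finset.sum_nonneg fun _ _ => (q2_pos _).le
  have h4 := q2_pos (m / 4)
  have h5 := mul_le_mul h1 h2 h3 (by linarith)
  have h6 := mul_le_mul_of_nonneg_left h5 (show 0 ≤ 300 * c by positivity)
  refine h6.trans (le_of_eq ?_)
  ring

end Vale.Agent.P106.U.H101.Off
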