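import Vale.Agent.P106.U.H101.OffR
import Vale.Agent.P106.U.H480.AvgS

/-!
# P106 / U / H101 : row [OFF] of the producer of `S3.F2` (helper101)

A family of records `R x z` (`x` = place `(b0, kk)`, `z` = value of the word `w x`), laws `Q1.cond (w x) z`.

* `Kd`, `pa`, `ids`, `ats` : the three kinds of paths of `F2o` (`lc`, `mt`, `mt0`) and their sums; `cO` : left side / right side of the
  fields `off`, `offK d`, `offP d`; `cL` : the same for `offL`.
* **`off_row`** : one choice of offsets for all places, values, indices: the mean cost is `≤ 300 / K' * q2 (μ / 4)` per place.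
-/

set_option autoImplicit false

namespace Vale.Agent.P106.U.H101.Off

open Finset Vale.Agent.P127 Vale.Agent.P127.Stk
open Vale.Agent.P127.U.CellD (q2 rd Nb q2_pos q2_le q2_add q2_mul_pow)
open Vale.Agent.P106.U.Cell Vale.Agent.P106.U.S3
open Vale.Agent.P106.U.H785.Mtr (Mtd)

section avg

variable {Ω : Type} [Fintype Ω] {S : Type} {ι : Type}

/-- means over a word, sums with weights -/
theorem avg_w (Q : Law Ω) (Z : Ω → S) (J : Finset ι) (I : S → Finset ι)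
    (hI : ∀ ω, 0 < Q.w ω → I (Z ω) ⊆ J) (c : ι → ℝ) (A : ι → S → Ω → Prop) :
    Q.ex (fun ω => ∑ i ∈ I (Z ω), c i * prE (Q.cond Z (Z ω)) (A i (Z ω))) =
      ∑ i ∈ J, c i * prE Q (fun ω => i ∈ I (Z ω) ∧ A i (Z ω) ω) := by
  classical
  rw [G480.ex_sum_dep Q Z J I hI fun i z => c i * prE (Q.cond Z z) (A i z)]
  refine Finset.sum_congr rfl fun i _ => ?_
  rw [← G480.prE_avg_dep Q Z fun z ω => i ∈ I z ∧ A i z ω, ← Q.ex_const_mul]
  refine Q.ex_congr fun ω _ => ?_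
  beta_reduce
  split_ifs with h
  · simp only [h, true_and]
  · rw [H565.prE_eq_ex]
    have : (Q.cond Z (Z ω)).ex (fun ω' => Law.ind (i ∈ I (Z ω) ∧ A i (Z ω) ω')) =
        (Q.cond Z (Z ω)).ex (fun _ => 0) :=
      (Q.cond Z (Z ω)).ex_congr fun ω' _ => by rw [Law.ind_not (fun q => h q.1)]
    rw [this, Law.ex_const, mul_zero]

/-- the weights -/
theorem avg_c (Q : Law Ω) (Z : Ω → S) (J : Finset ι) (I : S → Finset ι)
    (hI : ∀ ω, 0 < Q.w ω → I (Z ω) ⊆ J) (c : ι → ℝ) {M : ℝ} (hM : ∀ ω, 0 < Q.w ω → ∑ i ∈ I (Z ω), c i ≤ M) :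
    ∑ i ∈ J, c i * prE Q (fun ω => i ∈ I (Z ω)) ≤ M := by
  have h := avg_w Q Z J I hI c fun _ _ _ => True
  simp only [and_true] at h
  rw [← h, ← Q.ex_const M]
  refine Q.ex_mono fun ω hω => ?_
  refine le_trans (le_of_eq ?_) (hM ω hω)
  refine Finset.sum_congr rfl fun i _ => ?_
  have : prE (Q.cond Z (Z ω)) (fun _ => True) = 1 := by
    rw [H565.prE_eq_ex]
    have h1 : (Q.cond Z (Z ω)).ex (fun _ => Law.ind True) = (Q.cond Z (Z ω)).ex (fun _ => 1) :=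
      (Q.cond Z (Z ω)).ex_congr fun ω' _ => by unfold Law.ind; simp
    rw [h1, Law.ex_const]
  rw [this, mul_one]

end avg

/-- the three kinds of paths of `F2o` -/
inductive Kd
  | a
  | k
  | p
  deriving DecidableEq

/-- type of the letter of a path of the kind `g` -/
def Ty (τ π : Type) : Kd → Type
  | .a => τ
  | .k => H785.Mtr.Lt π × ℤ
  | .p => H785.Mtr.Lt (π × ℤ × ℤ) × ℤ

variable {Ω : Type} [Fintype Ω] {τ υ π : Type}

/-- the path of the kind `g` at the index `k` -/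
noncomputable def pa (R : Run Ω τ υ) (F : Pf R π) (μ : ℕ) (o : Fin 7 → ℝ) (o' : ℕ → ℝ) (k : ℕ) :
    (g : Kd) → Pth Ω (Ty τ π g)
  | .a => lc R.C μ o
  | .k => (mt R F μ o o').fz k k
  | .p => (mt0 R F μ o o').fz k k

/-- its indices -/
noncomputable def ids (R : Run Ω τ υ) (p : Run.Num) (B : ℕ) (F : Pf R π) (Vs Xs : Finset ℕ) : Kd → Finset ℕ
  | .a => range (R.n + p.J + 1)
  | .k => IdK R Vs Xs
  | .p => IdP R F B Vs Xs

/-- later indices -/
noncomputable def ats (R : Run Ω τ υ) (p : Run.Num) (B d k : ℕ) : Kd → Finset ℕ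
  | .a => ∅
  | .k => At' R p B d k
  | .p => At' R p B d k

/-- the later cap -/
def cap2 (bS bV : ℕ) : Kd → ℕ
  | .a => bS
  | .k => bV
  | .p => bV

/-- **cost of the exceptional events** : left side / right side of `off` (`d = 0`), `offK d`, `offP d` -/
noncomputable def cO (R : Run Ω τ υ) (p : Run.Num) (B bS bV : ℕ) (F : Pf R π) (Vs Xs : Finset ℕ) (μ : ℕ) (K' : ℝ)
    (o : Fin 7 → ℝ) (o' : ℕ → ℝ) (g : Kd) (d : ℕ) : ℝ :=
  (∑ k ∈ ids R p B F Vs Xs g, (exc R.Q (pa R F μ o o' k g) K' k (R.m * R.b1) +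
    exc R.Q (pa R F μ o o' k g) K' k (cap2 bS bV g) +
    ∑ i ∈ ats R p B d k g, exc R.Q (pa R F μ o o' k g) K' i (R.m * R.b1))) /
      (K' ^ 2 * (d + 1) ^ 2 * (R.n + p.J + 1) * q2 (μ / 4))

/-- **cost of the letters** : left side / right side of `offL` -/
noncomputable def cL (R : Run Ω τ υ) (p : Run.Num) (μ : ℕ) (K' : ℝ) (o : Fin 7 → ℝ) (o' : ℕ → ℝ) : ℝ :=
  (∑ k ∈ range (R.n + 1), (prE R.Q (fun ω => Nb (R.C.rk k - μ / 2) (kaL R k ω + o' 0) (K' * q2 (R.C.rk k))) +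
    prE R.Q (fun ω => Nb (R.C.rk k - μ / 2) (uL R o k ω + o' 1) (K' * q2 (R.C.rk k))))) /
      (K' ^ 2 * (R.n + p.J + 1) * q2 (μ / 4))

/-! ### the labels -/

/-- pairs `(k, c)` : `c` = the index `k` at the base cap, at the later cap, or a later index -/
abbrev Lb : Type := Σ _ : ℕ, Option (Option ℕ)

/-- index of a label -/
def ix (y : Lb) : ℕ := match y.2 with
  | some (some i) => i
  | _ => y.1

/-- cap of a label -/
def cp (R : Run Ω τ υ) (bS bV : ℕ) (g : Kd) (y : Lb) : ℕ := match y.2 with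
  | some none => cap2 bS bV g
  | _ => R.m * R.b1

/-- the labels of a record -/
noncomputable def lbs (R : Run Ω τ υ) (p : Run.Num) (B : ℕ) (F : Pf R π) (Vs Xs : Finset ℕ) (g : Kd) (d : ℕ) : Finset Lb :=
  (ids R p B F Vs Xs g).sigma fun k => insertNone (insertNone (ats R p B d k g))

theorem sum_lbs (R : Run Ω τ υ) (p : Run.Num) (B : ℕ) (F : Pf R π) (Vs Xs : Finset ℕ) (g : Kd) (d : ℕ) (f : Lb → ℝ) :
    ∑ y ∈ lbs R p B F Vs Xs g d, f y = ∑ k ∈ ids R p B F Vs Xs g, (f ⟨k, none⟩ + f ⟨k, some none⟩ +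
      ∑ i ∈ ats R p B d k g, f ⟨k, some (some i)⟩) := by
  unfold lbs
  rw [Finset.sum_sigma]
  refine Finset.sum_congr rfl fun k _ => ?_
  rw [Finset.sum_insertNone, Finset.sum_insertNone, add_assoc]

theorem ids_sub (R : Run Ω τ υ) (p : Run.Num) (B : ℕ) (F : Pf R π) (Vs Xs : Finset ℕ) (g : Kd) :
    ids R p B F Vs Xs g ⊆ range (R.n + p.J + 1) := by
  intro k hk
  rw [Finset.mem_range]
  cases g
  · exact Finset.mem_range.1 hk
  · have := Finset.mem_Icc.1 (Finset.mem_filter.1 hk).1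
    omega
  · have := Finset.mem_Icc.1 (Finset.mem_filter.1 hk).1
    omega

theorem ats_sub (R : Run Ω τ υ) (p : Run.Num) (B d k : ℕ) (g : Kd) : ats R p B d k g ⊆ range (R.n + p.J + 1) := by
  classical
  intro i hi
  cases g
  · exact absurd hi (Finset.notMem_empty i)
  · exact (Finset.mem_filter.1 hi).1
  · exact (Finset.mem_filter.1 hi).1

theorem at_card (R : Run Ω τ υ) (hm : 1 ≤ R.m) (p : Run.Num) (B d k : ℕ) : (At' R p B d k).card ≤ 1 := by
  classical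
  rw [Finset.card_le_one]
  intro i hi j hj
  obtain ⟨-, -, -, h1, h2⟩ := (Finset.mem_filter.1 hi).2
  obtain ⟨-, -, -, h3, h4⟩ := (Finset.mem_filter.1 hj).2
  unfold Run.IsA at h2 h4
  by_contra hne
  rcases lt_or_gt_of_ne hne with h | h
  · have : R.C.a (i + 1) ≤ R.C.a j := R.C.ha h
    omega
  · have : R.C.a (j + 1) ≤ R.C.a i := R.C.ha h
    omega

theorem ats_card (R : Run Ω τ υ) (hm : 1 ≤ R.m) (p : Run.Num) (B d k : ℕ) (g : Kd) : (ats R p B d k g).card ≤ 1 := by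
  cases g
  · exact Nat.zero_le _
  · exact at_card R hm p B d k
  · exact at_card R hm p B d k

theorem lbs_card (R : Run Ω τ υ) (hm : 1 ≤ R.m) (p : Run.Num) (B : ℕ) (F : Pf R π) (Vs Xs : Finset ℕ) (g : Kd) (d : ℕ) :
    ((lbs R p B F Vs Xs g d).card : ℝ) ≤ 3 * (R.n + p.J + 1) := by
  have h := sum_lbs R p B F Vs Xs g d fun _ => (1 : ℝ)
  rw [Finset.sum_const, nsmul_eq_mul, mul_one] at h
  rw [h]
  have h1 : ∀ k ∈ ids R p B F Vs Xs g, ((1 : ℝ) + 1 + ∑ _i ∈ ats R p B d k g, (1 : ℝ)) ≤ 3 := by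
    intro k _
    rw [Finset.sum_const, nsmul_eq_mul, mul_one]
    have : ((ats R p B d k g).card : ℝ) ≤ 1 := by exact_mod_cast ats_card R hm p B d k g
    linarith
  refine (Finset.sum_le_sum h1).trans ?_
  rw [Finset.sum_const, nsmul_eq_mul]
  have h2 : ((ids R p B F Vs Xs g).card : ℝ) ≤ R.n + p.J + 1 := by
    have := Finset.card_le_card (ids_sub R p B F Vs Xs g)
    rw [Finset.card_range] at this
    exact_mod_cast this
  linarith

theorem offD_pa (R : Run Ω τ υ) (F : Pf R π) (μ k : ℕ) (g : Kd) : OffD (fun o o' => pa R F μ o o' k g) := by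
  cases g
  · exact offD_lc R.C μ
  · exact offD_mt R F μ k k
  · exact offD_mt0 R F μ k k

theorem pa_mu (R : Run Ω τ υ) (F : Pf R π) (μ k : ℕ) (g : Kd) (o : Fin 7 → ℝ) (o' : ℕ → ℝ) :
    (pa R F μ o o' k g).μ = μ := by
  cases g <;> rfl

open Classical in
/-- **row [OFF]** : one choice of the offsets for all places, all values of the words, all indices -/
theorem off_row (Q1 : Law Ω) {X Z : Type} (S : Finset X) (w : X → Ω → Z) (R : X → Z → Run Ω τ υ) (p : Run.Num) (B : ℕ)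
    (F : ∀ x z, Pf (R x z) π) (Vs Xs : X → Z → Finset ℕ) (bS bV : X → Z → ℕ)
    (hQ : ∀ x ∈ S, ∀ ω, 0 < Q1.w ω → (R x (w x ω)).Q = Q1.cond (w x) (w x ω))
    (hm : ∀ x ∈ S, ∀ ω, 0 < Q1.w ω → 1 ≤ (R x (w x ω)).m) {μ : ℕ} {K' : ℝ} (hK : 0 < K')
    (hr : ∀ x ∈ S, ∀ ω, 0 < Q1.w ω → ∀ k, μ / 2 ≤ (R x (w x ω)).C.rk k) :
    ∃ (o : Fin 7 → ℝ) (o' : ℕ → ℝ), ((∀ k, 0 < o k ∧ o k ≤ 1) ∧ ∀ k, 0 < o' k ∧ o' k ≤ 1) ∧
      ∑ x ∈ S, Q1.ex (fun ω =>
        cO (R x (w x ω)) p B (bS x (w x ω)) (bV x (w x ω)) (F x (w x ω)) (Vs x (w x ω)) (Xs x (w x ω)) μ K' o o' .a 0 +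
        ∑ d ∈ range (B + 1),
          (cO (R x (w x ω)) p B (bS x (w x ω)) (bV x (w x ω)) (F x (w x ω)) (Vs x (w x ω)) (Xs x (w x ω)) μ K' o o' .k d +
          cO (R x (w x ω)) p B (bS x (w x ω)) (bV x (w x ω)) (F x (w x ω)) (Vs x (w x ω)) (Xs x (w x ω)) μ K' o o' .p d) +
        cL (R x (w x ω)) p μ K' o o') ≤ 300 / K' * q2 (μ / 4) * S.card := by
  have q4 : 0 < q2 (μ / 4) := q2_pos _
  -- bound for the number of steps
  obtain ⟨N, hN⟩ : ∃ N : ℕ, ∀ x ∈ S, ∀ ω, (R x (w x ω)).n ≤ N := by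
    refine ⟨S.sup fun x => univ.sup fun ω => (R x (w x ω)).n, fun x hx ω => ?_⟩
    exact (Finset.le_sup (f := fun ω => (R x (w x ω)).n) (Finset.mem_univ ω)).trans
      (Finset.le_sup (f := fun x => univ.sup fun ω => (R x (w x ω)).n) hx)
  -- kinds and distances
  set GD : Finset (Kd × ℕ) := {(Kd.a, 0)} ∪ (({Kd.k, Kd.p} : Finset Kd) ×ˢ range (B + 1)) with hGD
  -- labels of one place
  set JL : Finset (ℕ × Lb) := range (N + 1) ×ˢ ((range (N + p.J + 1)).sigma fun _ =>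
    insertNone (insertNone (range (N + p.J + 1)))) with hJL
  set IL : X → Z → Kd × ℕ → Finset (ℕ × Lb) := fun x z gd =>
    ({(R x z).n} : Finset ℕ) ×ˢ lbs (R x z) p B (F x z) (Vs x z) (Xs x z) gd.1 gd.2 with hIL
  have hIJ : ∀ x ∈ S, ∀ gd, ∀ ω, 0 < Q1.w ω → IL x (w x ω) gd ⊆ JL := by
    intro x hx gd ω _
    have h1 := hN x hx ω
    have h2 : range ((R x (w x ω)).n + p.J + 1) ⊆ range (N + p.J + 1) := by
      intro a ha
      rw [Finset.mem_range] at ha ⊢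
      omega
    refine Finset.product_subset_product ?_ ?_
    · intro a ha
      rw [Finset.mem_singleton] at ha
      rw [Finset.mem_range]
      omega
    · unfold lbs
      refine Finset.sigma_mono ((ids_sub _ p B _ _ _ _).trans h2) fun k => ?_
      exact (Finset.insertNone).monotone ((Finset.insertNone).monotone ((ats_sub _ p B _ k _).trans h2))
  -- the family
  set cw : (X × (Kd × ℕ)) × (ℕ × Lb) → ℝ := fun y =>
    1 / (K' ^ 2 * ((y.1.2.2 : ℝ) + 1) ^ 2 * ((y.2.1 : ℝ) + p.J + 1) * q2 (μ / 4)) with hcw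
  have hcw0 : ∀ y, 0 ≤ cw y := fun y => by rw [hcw]; positivity
  set II : (X × (Kd × ℕ)) × (ℕ × Lb) → Ω → Prop := fun y ω => y.2 ∈ IL y.1.1 (w y.1.1 ω) y.1.2 with hII
  set CC : ∀ y : (X × (Kd × ℕ)) × (ℕ × Lb), Ω → (Fin 7 → ℝ) → (ℕ → ℝ) → Pth Ω (Ty τ π y.1.2.1) := fun y ω o o' =>
    pa (R y.1.1 (w y.1.1 ω)) (F y.1.1 (w y.1.1 ω)) μ o o' y.2.2.1 y.1.2.1 with hCC
  set bb : (X × (Kd × ℕ)) × (ℕ × Lb) → Ω → ℕ := fun y ω =>
    cp (R y.1.1 (w y.1.1 ω)) (bS y.1.1 (w y.1.1 ω)) (bV y.1.1 (w y.1.1 ω)) y.1.2.1 y.2.2 with hbb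
  -- the numbers
  set cw' : X × (ℕ × ℕ) → ℝ := fun y => 1 / (K' ^ 2 * ((y.2.1 : ℝ) + p.J + 1) * q2 (μ / 4)) with hcw'
  have hcw0' : ∀ y, 0 ≤ cw' y := fun y => by rw [hcw']; positivity
  set IL' : X → Z → Finset (ℕ × ℕ) := fun x z => ({(R x z).n} : Finset ℕ) ×ˢ range ((R x z).n + 1) with hIL'
  have hIJ' : ∀ x ∈ S, ∀ ω, 0 < Q1.w ω → IL' x (w x ω) ⊆ range (N + 1) ×ˢ range (N + 1) := by
    intro x hx ω _
    have h1 := hN x hx ω
    refine Finset.product_subset_product ?_ ?_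
    · intro a ha
      rw [Finset.mem_singleton] at ha
      rw [Finset.mem_range]
      omega
    · intro a ha
      rw [Finset.mem_range] at ha ⊢
      omega
  obtain ⟨o, o', h1, h2, h3, h4⟩ := off_all Q1 ((S ×ˢ GD) ×ˢ JL) cw (fun y _ => hcw0 y) II CC
    (fun y ω => offD_pa _ _ _ _ _) (fun y _ => ix y.2.2) bb μ (fun y ω o o' => pa_mu _ _ _ _ _ _ _) hK.le
    (S ×ˢ (range (N + 1) ×ˢ range (N + 1))) cw' (fun y _ => hcw0' y) (fun y ω => y.2 ∈ IL' y.1 (w y.1 ω))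
    (fun y ω => (R y.1 (w y.1 ω)).C.rk y.2.2 - μ / 2) (fun y ω => kaL (R y.1 (w y.1 ω)) y.2.2 ω)
    (fun r y ω => uL (R y.1 (w y.1 ω)) (fun _ => r) y.2.2 ω) (fun _ _ => K' * q2 (μ / 2))
    (fun _ _ _ _ => mul_nonneg hK.le (q2_pos _).le)
  refine ⟨o, o', ⟨h1, h2⟩, ?_⟩
  -- the means of the costs of the paths
  have hA : ∀ x ∈ S, ∀ gd : Kd × ℕ, Q1.ex (fun ω => cO (R x (w x ω)) p B (bS x (w x ω)) (bV x (w x ω)) (F x (w x ω))
      (Vs x (w x ω)) (Xs x (w x ω)) μ K' o o' gd.1 gd.2) =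
      ∑ y ∈ JL, cw ((x, gd), y) * (prE Q1 (fun ω => II ((x, gd), y) ω ∧ (CC ((x, gd), y) ω o o').Bad K' (ix y.2)
        (bb ((x, gd), y) ω) ω) +
        prE Q1 (fun ω => II ((x, gd), y) ω ∧ H420.BadS (CC ((x, gd), y) ω o o') K' (ix y.2) (bb ((x, gd), y) ω) ω) +
        prE Q1 (fun ω => II ((x, gd), y) ω ∧ H300.BadR (CC ((x, gd), y) ω o o') K' (ix y.2) (bb ((x, gd), y) ω) ω)) := by
    intro x hx gd
    have e1 : ∀ ω, 0 < Q1.w ω → cO (R x (w x ω)) p B (bS x (w x ω)) (bV x (w x ω)) (F x (w x ω))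
        (Vs x (w x ω)) (Xs x (w x ω)) μ K' o o' gd.1 gd.2 =
        ∑ y ∈ IL x (w x ω) gd, cw ((x, gd), y) * prE (Q1.cond (w x) (w x ω)) ((pa (R x (w x ω)) (F x (w x ω)) μ o o'
          y.2.1 gd.1).Bad K' (ix y.2) (cp (R x (w x ω)) (bS x (w x ω)) (bV x (w x ω)) gd.1 y.2)) +
        ∑ y ∈ IL x (w x ω) gd, cw ((x, gd), y) * prE (Q1.cond (w x) (w x ω)) (H420.BadS (pa (R x (w x ω)) (F x (w x ω)) μ
          o o' y.2.1 gd.1) K' (ix y.2) (cp (R x (w x ω)) (bS x (w x ω)) (bV x (w x ω)) gd.1 y.2)) +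
        ∑ y ∈ IL x (w x ω) gd, cw ((x, gd), y) * prE (Q1.cond (w x) (w x ω)) (H300.BadR (pa (R x (w x ω)) (F x (w x ω)) μ
          o o' y.2.1 gd.1) K' (ix y.2) (cp (R x (w x ω)) (bS x (w x ω)) (bV x (w x ω)) gd.1 y.2)) := by
      intro ω hω
      rw [← Finset.sum_add_distrib, ← Finset.sum_add_distrib]
      unfold cO
      rw [hQ x hx ω hω, hIL]
      beta_reduce
      rw [Finset.sum_product, Finset.sum_singleton, sum_lbs, Finset.sum_div]
      refine Finset.sum_congr rfl fun k _ => ?_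
      rw [add_div, add_div, Finset.sum_div]
      congr 1
      · congr 1
        · rw [hcw]
          show _ / _ = _
          simp only [exc, ix, cp]
          ring
        · rw [hcw]
          simp only [exc, ix, cp]
          ring
      · refine Finset.sum_congr rfl fun i _ => ?_
        rw [hcw]
        simp only [exc, ix, cp]
        ring
    rw [Q1.ex_congr e1, Q1.ex_add, Q1.ex_add, avg_w Q1 (w x) JL (fun z => IL x z gd) (hIJ x hx gd)
      (fun y => cw ((x, gd), y)) fun y z => (pa (R x z) (F x z) μ o o' y.2.1 gd.1).Bad K' (ix y.2)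
        (cp (R x z) (bS x z) (bV x z) gd.1 y.2),
      avg_w Q1 (w x) JL (fun z => IL x z gd) (hIJ x hx gd)
      (fun y => cw ((x, gd), y)) fun y z => H420.BadS (pa (R x z) (F x z) μ o o' y.2.1 gd.1) K' (ix y.2)
        (cp (R x z) (bS x z) (bV x z) gd.1 y.2),
      avg_w Q1 (w x) JL (fun z => IL x z gd) (hIJ x hx gd)
      (fun y => cw ((x, gd), y)) fun y z => H300.BadR (pa (R x z) (F x z) μ o o' y.2.1 gd.1) K' (ix y.2)
        (cp (R x z) (bS x z) (bV x z) gd.1 y.2), ← Finset.sum_add_distrib, ← Finset.sum_add_distrib]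
    refine Finset.sum_congr rfl fun y _ => ?_
    rw [mul_add, mul_add]
  -- the mean of the costs of the letters
  have hB : ∀ x ∈ S, Q1.ex (fun ω => cL (R x (w x ω)) p μ K' o o') =
      ∑ y ∈ range (N + 1) ×ˢ range (N + 1), cw' (x, y) *
        (prE Q1 (fun ω => y ∈ IL' x (w x ω) ∧ Nb ((R x (w x ω)).C.rk y.2 - μ / 2) (kaL (R x (w x ω)) y.2 ω + o' 0)
          (K' * q2 (μ / 2) * q2 ((R x (w x ω)).C.rk y.2 - μ / 2))) +
        prE Q1 (fun ω => y ∈ IL' x (w x ω) ∧ Nb ((R x (w x ω)).C.rk y.2 - μ / 2) (uL (R x (w x ω)) (fun _ => o 2) y.2 ω +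
          o' 1) (K' * q2 (μ / 2) * q2 ((R x (w x ω)).C.rk y.2 - μ / 2)))) := by
    intro x hx
    have hq : ∀ ω, 0 < Q1.w ω → ∀ k, K' * q2 ((R x (w x ω)).C.rk k) =
        K' * q2 (μ / 2) * q2 ((R x (w x ω)).C.rk k - μ / 2) := by
      intro ω hω k
      rw [mul_assoc, ← q2_add, Nat.add_sub_cancel' (hr x hx ω hω k)]
    have e1 : ∀ ω, 0 < Q1.w ω → cL (R x (w x ω)) p μ K' o o' =
        ∑ y ∈ IL' x (w x ω), cw' (x, y) * prE (Q1.cond (w x) (w x ω)) (fun ω' => Nb ((R x (w x ω)).C.rk y.2 - μ / 2)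
          (kaL (R x (w x ω)) y.2 ω' + o' 0) (K' * q2 (μ / 2) * q2 ((R x (w x ω)).C.rk y.2 - μ / 2))) +
        ∑ y ∈ IL' x (w x ω), cw' (x, y) * prE (Q1.cond (w x) (w x ω)) (fun ω' => Nb ((R x (w x ω)).C.rk y.2 - μ / 2)
          (uL (R x (w x ω)) (fun _ => o 2) y.2 ω' + o' 1) (K' * q2 (μ / 2) * q2 ((R x (w x ω)).C.rk y.2 - μ / 2))) := by
      intro ω hω
      rw [← Finset.sum_add_distrib]
      unfold cL
      rw [hQ x hx ω hω, hIL']
      beta_reduce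
      rw [Finset.sum_product, Finset.sum_singleton, Finset.sum_div]
      refine Finset.sum_congr rfl fun k _ => ?_
      rw [hcw', hq ω hω k]
      have e2 : ∀ ω', uL (R x (w x ω)) o k ω' = uL (R x (w x ω)) (fun _ => o 2) k ω' := fun ω' => uL_congr _ rfl k ω'
      simp only [e2]
      ring
    rw [Q1.ex_congr e1, Q1.ex_add, avg_w Q1 (w x) _ (fun z => IL' x z) (hIJ' x hx) (fun y => cw' (x, y)) fun y z ω' =>
        Nb ((R x z).C.rk y.2 - μ / 2) (kaL (R x z) y.2 ω' + o' 0) (K' * q2 (μ / 2) * q2 ((R x z).C.rk y.2 - μ / 2)),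
      avg_w Q1 (w x) _ (fun z => IL' x z) (hIJ' x hx) (fun y => cw' (x, y)) fun y z ω' =>
        Nb ((R x z).C.rk y.2 - μ / 2) (uL (R x z) (fun _ => o 2) y.2 ω' + o' 1)
          (K' * q2 (μ / 2) * q2 ((R x z).C.rk y.2 - μ / 2)), ← Finset.sum_add_distrib]
    refine Finset.sum_congr rfl fun y _ => ?_
    rw [mul_add]
  -- the weights
  have hC : ∀ x ∈ S, ∀ gd : Kd × ℕ, ∑ y ∈ JL, cw ((x, gd), y) * prE Q1 (II ((x, gd), y)) ≤
      3 / (K' ^ 2 * ((gd.2 : ℝ) + 1) ^ 2 * q2 (μ / 4)) := by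
    intro x hx gd
    refine avg_c Q1 (w x) JL (fun z => IL x z gd) (hIJ x hx gd) (fun y => cw ((x, gd), y)) fun ω hω => ?_
    rw [hIL]
    beta_reduce
    rw [Finset.sum_product, Finset.sum_singleton]
    have e1 : ∀ y ∈ lbs (R x (w x ω)) p B (F x (w x ω)) (Vs x (w x ω)) (Xs x (w x ω)) gd.1 gd.2,
        cw ((x, gd), ((R x (w x ω)).n, y)) = 1 / (K' ^ 2 * ((gd.2 : ℝ) + 1) ^ 2 * (((R x (w x ω)).n : ℝ) + p.J + 1) *
          q2 (μ / 4)) := fun y _ => rfl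
    rw [Finset.sum_congr rfl e1, Finset.sum_const, nsmul_eq_mul]
    have h5 := lbs_card (R x (w x ω)) (hm x hx ω hω) p B (F x (w x ω)) (Vs x (w x ω)) (Xs x (w x ω)) gd.1 gd.2
    have h6 : (0 : ℝ) < ((R x (w x ω)).n : ℝ) + p.J + 1 := by positivity
    rw [mul_one_div, div_le_div_iff₀ (by positivity) (by positivity)]
    have h7 := mul_le_mul_of_nonneg_right h5 (show 0 ≤ K' ^ 2 * ((gd.2 : ℝ) + 1) ^ 2 * q2 (μ / 4) by positivity)
    linarith
  have hC' : ∀ x ∈ S, ∑ y ∈ range (N + 1) ×ˢ range (N + 1), cw' (x, y) * prE Q1 (fun ω => y ∈ IL' x (w x ω)) ≤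
      1 / (K' ^ 2 * q2 (μ / 4)) := by
    intro x hx
    refine avg_c Q1 (w x) _ (fun z => IL' x z) (hIJ' x hx) (fun y => cw' (x, y)) fun ω hω => ?_
    rw [hIL']
    beta_reduce
    rw [Finset.sum_product, Finset.sum_singleton]
    have e1 : ∀ y ∈ range ((R x (w x ω)).n + 1),
        cw' (x, ((R x (w x ω)).n, y)) = 1 / (K' ^ 2 * (((R x (w x ω)).n : ℝ) + p.J + 1) * q2 (μ / 4)) := fun y _ => rfl
    rw [Finset.sum_congr rfl e1, Finset.sum_const, nsmul_eq_mul, Finset.card_range]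
    have h6 : (0 : ℝ) < ((R x (w x ω)).n : ℝ) + p.J + 1 := by positivity
    rw [mul_one_div, div_le_div_iff₀ (by positivity) (by positivity)]
    push_cast
    have h7 : ((R x (w x ω)).n : ℝ) + 1 ≤ ((R x (w x ω)).n : ℝ) + p.J + 1 := by
      have : (0 : ℝ) ≤ p.J := Nat.cast_nonneg _
      linarith
    have h8 := mul_le_mul_of_nonneg_right h7 (show 0 ≤ K' ^ 2 * q2 (μ / 4) by positivity)
    linarith
  -- sums over the kinds
  have hGs : ∀ f : Kd × ℕ → ℝ, ∑ gd ∈ GD, f gd = f (.a, 0) + ∑ d ∈ range (B + 1), (f (.k, d) + f (.p, d)) := by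
    intro f
    rw [hGD, Finset.sum_union, Finset.sum_singleton, Finset.sum_product, Finset.sum_pair (by decide),
      ← Finset.sum_add_distrib]
    rw [Finset.disjoint_singleton_left]
    intro h
    rcases Finset.mem_insert.1 (Finset.mem_product.1 h).1 with h | h
    · exact absurd h (by decide)
    · exact absurd (Finset.mem_singleton.1 h) (by decide)
  have hd2 : ∀ M : ℕ, ∑ d ∈ range (M + 1), 1 / ((d : ℝ) + 1) ^ 2 ≤ 2 - 1 / ((M : ℝ) + 1) := by
    intro M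
    induction M with
    | zero => norm_num
    | succ M ih =>
      rw [Finset.sum_range_succ]
      have h6 : 1 / (((M + 1 : ℕ) : ℝ) + 1) ^ 2 ≤ 1 / ((M : ℝ) + 1) - 1 / (((M + 1 : ℕ) : ℝ) + 1) := by
        push_cast
        rw [div_sub_div _ _ (by positivity) (by positivity), div_le_div_iff₀ (by positivity) (by positivity)]
        have : (0 : ℝ) ≤ M := Nat.cast_nonneg _
        nlinarith
      linarith
  have hdB : ∑ d ∈ range (B + 1), 1 / ((d : ℝ) + 1) ^ 2 ≤ 2 := by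
    have := hd2 B
    have h5 : (0 : ℝ) ≤ 1 / ((B : ℝ) + 1) := by positivity
    linarith
  -- the total of the weights
  have hW : ∑ y ∈ (S ×ˢ GD) ×ˢ JL, cw y * prE Q1 (II y) ≤ 15 / (K' ^ 2 * q2 (μ / 4)) * S.card := by
    rw [Finset.sum_product, Finset.sum_product]
    have e1 : ∀ x ∈ S, ∑ gd ∈ GD, ∑ y ∈ JL, cw ((x, gd), y) * prE Q1 (II ((x, gd), y)) ≤ 15 / (K' ^ 2 * q2 (μ / 4)) := by
      intro x hx
      refine (Finset.sum_le_sum fun gd _ => hC x hx gd).trans ?_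
      rw [hGs]
      have e2 : ∑ d ∈ range (B + 1), (3 / (K' ^ 2 * ((d : ℝ) + 1) ^ 2 * q2 (μ / 4)) +
          3 / (K' ^ 2 * ((d : ℝ) + 1) ^ 2 * q2 (μ / 4))) = 6 / (K' ^ 2 * q2 (μ / 4)) *
          ∑ d ∈ range (B + 1), 1 / ((d : ℝ) + 1) ^ 2 := by
        rw [Finset.mul_sum]
        refine Finset.sum_congr rfl fun d _ => ?_
        field_simp
        ring
      have e3 : (3 : ℝ) / (K' ^ 2 * (((0 : ℕ) : ℝ) + 1) ^ 2 * q2 (μ / 4)) = 3 / (K' ^ 2 * q2 (μ / 4)) := by norm_num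
      beta_reduce
      rw [e2, e3]
      have e4 : (0 : ℝ) ≤ 6 / (K' ^ 2 * q2 (μ / 4)) := by positivity
      have e5 := mul_le_mul_of_nonneg_left hdB e4
      have e6 : 3 / (K' ^ 2 * q2 (μ / 4)) + 6 / (K' ^ 2 * q2 (μ / 4)) * 2 = 15 / (K' ^ 2 * q2 (μ / 4)) := by
        ring
      linarith
    refine (Finset.sum_le_sum e1).trans (le_of_eq ?_)
    rw [Finset.sum_const, nsmul_eq_mul, mul_comm]
  have hW' : ∑ y ∈ S ×ˢ (range (N + 1) ×ˢ range (N + 1)), cw' y * prE Q1 (fun ω => y.2 ∈ IL' y.1 (w y.1 ω)) ≤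
      1 / (K' ^ 2 * q2 (μ / 4)) * S.card := by
    rw [Finset.sum_product]
    refine (Finset.sum_le_sum hC').trans (le_of_eq ?_)
    rw [Finset.sum_const, nsmul_eq_mul, mul_comm]
  -- the sum
  have hT : ∀ x ∈ S, Q1.ex (fun ω =>
        cO (R x (w x ω)) p B (bS x (w x ω)) (bV x (w x ω)) (F x (w x ω)) (Vs x (w x ω)) (Xs x (w x ω)) μ K' o o' .a 0 +
        ∑ d ∈ range (B + 1),
          (cO (R x (w x ω)) p B (bS x (w x ω)) (bV x (w x ω)) (F x (w x ω)) (Vs x (w x ω)) (Xs x (w x ω)) μ K' o o' .k d +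
          cO (R x (w x ω)) p B (bS x (w x ω)) (bV x (w x ω)) (F x (w x ω)) (Vs x (w x ω)) (Xs x (w x ω)) μ K' o o' .p d) +
        cL (R x (w x ω)) p μ K' o o') =
      ∑ gd ∈ GD, Q1.ex (fun ω => cO (R x (w x ω)) p B (bS x (w x ω)) (bV x (w x ω)) (F x (w x ω)) (Vs x (w x ω))
        (Xs x (w x ω)) μ K' o o' gd.1 gd.2) + Q1.ex (fun ω => cL (R x (w x ω)) p μ K' o o') := by
    intro x _
    rw [Q1.ex_add, ← H565.ex_sum']
    congr 1
    refine Q1.ex_congr fun ω _ => ?_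
    rw [hGs]
  rw [Finset.sum_congr rfl hT, Finset.sum_add_distrib]
  have hT1 : ∑ x ∈ S, ∑ gd ∈ GD, Q1.ex (fun ω => cO (R x (w x ω)) p B (bS x (w x ω)) (bV x (w x ω)) (F x (w x ω))
      (Vs x (w x ω)) (Xs x (w x ω)) μ K' o o' gd.1 gd.2) ≤ 18 * K' * q2 μ * (15 / (K' ^ 2 * q2 (μ / 4)) * S.card) := by
    refine le_trans (le_of_eq ?_) (h3.trans (mul_le_mul_of_nonneg_left hW
      (mul_nonneg (mul_nonneg (by norm_num) hK.le) (q2_pos _).le)))
    rw [Finset.sum_product, Finset.sum_product]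
    exact Finset.sum_congr rfl fun x hx => Finset.sum_congr rfl fun gd _ => hA x hx gd
  have hT2 : ∑ x ∈ S, Q1.ex (fun ω => cL (R x (w x ω)) p μ K' o o') ≤
      4 * (K' * q2 (μ / 2) * (1 / (K' ^ 2 * q2 (μ / 4)) * S.card)) := by
    refine le_trans (le_of_eq ?_) (h4.trans (mul_le_mul_of_nonneg_left ?_ (by norm_num)))
    · rw [Finset.sum_product]
      exact Finset.sum_congr rfl fun x hx => hB x hx
    · refine le_trans (le_of_eq ?_) (mul_le_mul_of_nonneg_left hW' (mul_nonneg hK.le (q2_pos _).le))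
      rw [Finset.mul_sum]
      refine Finset.sum_congr rfl fun y _ => ?_
      rw [ex_flag]
      ring
  refine (add_le_add hT1 hT2).trans ?_
  have v1 : q2 μ ≤ q2 (μ / 4) * q2 (μ / 4) := by
    rw [← q2_add]
    exact q2_le (by omega)
  have v2 : q2 (μ / 2) ≤ q2 (μ / 4) * q2 (μ / 4) := by
    rw [← q2_add]
    exact q2_le (by omega)
  have hS : (0 : ℝ) ≤ S.card := Nat.cast_nonneg _
  have v3 : 18 * K' * q2 μ * (15 / (K' ^ 2 * q2 (μ / 4)) * S.card) = q2 μ * (270 / (K' * q2 (μ / 4)) * S.card) := by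
    field_simp
    ring
  have v4 : 4 * (K' * q2 (μ / 2) * (1 / (K' ^ 2 * q2 (μ / 4)) * S.card)) =
      q2 (μ / 2) * (4 / (K' * q2 (μ / 4)) * S.card) := by
    field_simp
  rw [v3, v4]
  have v5 := mul_le_mul_of_nonneg_right v1 (show 0 ≤ 270 / (K' * q2 (μ / 4)) * (S.card : ℝ) by positivity)
  have v6 := mul_le_mul_of_nonneg_right v2 (show 0 ≤ 4 / (K' * q2 (μ / 4)) * (S.card : ℝ) by positivity)
  have v7 : q2 (μ / 4) * q2 (μ / 4) * (270 / (K' * q2 (μ / 4)) * S.card) +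
      q2 (μ / 4) * q2 (μ / 4) * (4 / (K' * q2 (μ / 4)) * S.card) = 274 / K' * q2 (μ / 4) * S.card := by
    field_simp
    ring
  have v8 : 274 / K' * q2 (μ / 4) * S.card ≤ 300 / K' * q2 (μ / 4) * S.card := by
    have : 274 / K' ≤ 300 / K' := by
      rw [div_le_div_iff_of_pos_right hK]
      norm_num
    gcongr
  linarith

end Vale.Agent.P106.U.H101.Off
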