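import Vale.Agent.P106.U.H101.Off
import Vale.Agent.P106.U.S3.F2

/-!
# P106 / U / H101 : the paths of the record depend on the offsets as in `Off.OffD` (helper101)

`offD_lc` : `lc C μ o`; `offD_mt`, `offD_mt0` : the frozen paths of `S3.F2`.
-/

set_option autoImplicit false

namespace Vale.Agent.P106.U.H101.Off

open Finset Vale.Agent.P127 Vale.Agent.P127.Stk
open Vale.Agent.P127.U.CellD (q2 rd Nb q2_pos q2_le q2_add q2_mul_pow)
open Vale.Agent.P106.U.Cell Vale.Agent.P106.U.S3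
open Vale.Agent.P106.U.H785.Mtr (Mtd)

variable {Ω τ υ π : Type}

/-- the path with other margin and offsets -/
theorem offD_lc (C : Pth Ω τ) (μ : ℕ) : OffD (fun (o : Fin 7 → ℝ) (_ : ℕ → ℝ) => lc C μ o) where
  o _ _ := rfl
  a _ _ _ _ := rfl
  rf _ _ _ _ := rfl
  rk _ _ _ _ := rfl
  μ _ _ _ _ := rfl
  l _ _ _ _ := rfl
  t _ _ _ _ := rfl
  p _ _ _ _ := rfl
  F o o' p p' _ _ _ := by rw [lc_F, lc_F]

/-- **frozen paths** : data `D` whose offsets are `o, o' 0, o' 1`, other data independent, prefix letter dependent on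
`o 2, o' 0, o' 1` only, numbers of the prefix independent -/
theorem offD_fz (D : (Fin 7 → ℝ) → (ℕ → ℝ) → Mtd Ω π) (ho : ∀ o o', (D o o').o = o) (hκ : ∀ o o', (D o o').oκ = o' 0)
    (hγ : ∀ o o', (D o o').oγ = o' 1) (ha : ∀ o o' p p', (D o o').a = (D p p').a)
    (hrf : ∀ o o' p p', (D o o').rf = (D p p').rf) (hrk : ∀ o o' p p', (D o o').rk = (D p p').rk)
    (hμ : ∀ o o' p p', (D o o').μ = (D p p').μ) (hν : ∀ o o' p p', (D o o').ν = (D p p').ν)
    (hl : ∀ o o' p p', (D o o').l = (D p p').l) (ht : ∀ o o' p p', (D o o').t = (D p p').t)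
    (hp : ∀ o o' p p', (D o o').p = (D p p').p) (hun : ∀ o o' p p', (D o o').un = (D p p').un)
    (hka : ∀ o o' p p', (D o o').κ = (D p p').κ) (hal : ∀ o o' p p', (D o o').al = (D p p').al)
    (hpf : ∀ o o' p p', o 2 = p 2 → o' 0 = p' 0 → o' 1 = p' 1 → (D o o').pf = (D p p').pf)
    (hgv : ∀ o o' p p', (D o o').gv = (D p p').gv) (j k : ℕ) : OffD (fun o o' => (D o o').fz j k) where
  o o o' := ho o o'
  a o o' p p' := by show (fun i => (D o o').a (max i j)) = fun i => (D p p').a (max i j); rw [ha o o' p p']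
  rf o o' p p' := by show (fun i => (D o o').rf (max i j)) = fun i => (D p p').rf (max i j); rw [hrf o o' p p']
  rk o o' p p' := by
    show (fun i => (D o o').rk (min (max i j) k) - (D o o').ν) = fun i => (D p p').rk (min (max i j) k) - (D p p').ν
    rw [hrk o o' p p', hν o o' p p']
  μ o o' p p' := hμ o o' p p'
  l o o' p p' := hl o o' p p'
  t o o' p p' := ht o o' p p'
  p o o' p p' := hp o o' p p'
  F o o' p p' h2 h3 h4 := by
    funext i ω
    have e1 := ha o o' p p'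
    have e2 := hrf o o' p p'
    have e3 := hrk o o' p p'
    have e4 := hν o o' p p'
    have e5 := hl o o' p p'
    have e6 := ht o o' p p'
    have e7 := hp o o' p p'
    have e8 := hun o o' p p'
    have e9 := hka o o' p p'
    have e10 := hal o o' p p'
    have e11 := hpf o o' p p' h2 h3 h4
    have e12 := hgv o o' p p'
    have rr : ∀ k, (D o o').rr k = (D p p').rr k := by intro k; unfold Mtd.rr; rw [e3, e4]
    have s : ∀ k ω, (D o o').s k ω = (D p p').s k ω := by intro k ω; unfold Mtd.s; rw [e1, e6]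
    have nN : ∀ k ω, (D o o').nN k ω = (D p p').nN k ω := by
      intro k ω; unfold Mtd.nN; rw [s, e1, e5, ho, ho, h2]
    have Nr : ∀ k ω, (D o o').Nr k ω = (D p p').Nr k ω := by
      intro k ω; unfold Mtd.Nr; rw [nN, e1, ho, ho, h2]
    have u : ∀ k ω, (D o o').u k ω = (D p p').u k ω := by
      intro k ω; unfold Mtd.u; rw [s, Nr, e5, e8, e9, e10]
    have kN : ∀ k ω, (D o o').kN k ω = (D p p').kN k ω := by
      intro k ω; unfold Mtd.kN; rw [rr, e9, hκ, hκ, h3]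
    have uN : ∀ k ω, (D o o').uN k ω = (D p p').uN k ω := by
      intro k ω; unfold Mtd.uN; rw [rr, u, hγ, hγ, h4]
    have lt : ∀ k ω, (D o o').lt k ω = (D p p').lt k ω := by
      intro k ω; unfold Mtd.lt; rw [e1, e6, e11, kN, uN, nN]
    have gaL : ∀ k θ, (D o o').gaL k θ = (D p p').gaL k θ := by
      intro k θ; unfold Mtd.gaL; rw [rr, e1, e12, hγ, hγ, ho, ho, h2, h4]
    have kaL : ∀ k θ, (D o o').kaL k θ = (D p p').kaL k θ := by
      intro k θ; unfold Mtd.kaL; rw [rr, hκ, hκ, h3]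
    have T : ((D o o').fz j k).T i ω = ((D p p').fz j k).T i ω := by
      show ((D o o').lt k ω, fl1 ((D o o').a (max i j)) ((D o o').t ω)) =
        ((D p p').lt k ω, fl1 ((D p p').a (max i j)) ((D p p').t ω))
      rw [lt, e1, e6]
    unfold Pth.F
    rw [T]
    unfold Pth.Fv Pth.tv
    show (⟨(D o o').gaL k _, rd ((D o o').rf (max i j)) ((D o o').p ω) * ((D o o').gaL k _ -
        ((D o o').kaL k _ - (_ / 2 ^ (D o o').a (max i j) - _ / 2 ^ (D o o').a k) * (D o o').gv k _) * ((D o o').l ω).w -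
        (D o o').gv k _ * ((D o o').l ω).N (_ / 2 ^ (D o o').a (max i j))) -
        ((D o o').kaL k _ - (_ / 2 ^ (D o o').a (max i j) - _ / 2 ^ (D o o').a k) * (D o o').gv k _) * ((D o o').l ω).v -
        (D o o').gv k _ * ((D o o').l ω).X (_ / 2 ^ (D o o').a (max i j)),
        (D o o').kaL k _ - (_ / 2 ^ (D o o').a (max i j) - _ / 2 ^ (D o o').a k) * (D o o').gv k _,
        (D o o').gv k _⟩ : Fu) = _
    rw [gaL, kaL, e1, e2, e5, e7, e12]
    rfl

variable [Fintype Ω]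

theorem uL_congr (R : Run Ω τ υ) {o p : Fin 7 → ℝ} (h : o 2 = p 2) (k : ℕ) (ω : Ω) : uL R o k ω = uL R p k ω := by
  unfold uL; rw [h]

theorem offD_mt (R : Run Ω τ υ) (F : Pf R π) (μ j k : ℕ) : OffD (fun o o' => (mt R F μ o o').fz j k) :=
  offD_fz (mt R F μ) (fun _ _ => rfl) (fun _ _ => rfl) (fun _ _ => rfl) (fun _ _ _ _ => rfl) (fun _ _ _ _ => rfl)
    (fun _ _ _ _ => rfl) (fun _ _ _ _ => rfl) (fun _ _ _ _ => rfl) (fun _ _ _ _ => rfl) (fun _ _ _ _ => rfl)
    (fun _ _ _ _ => rfl) (fun _ _ _ _ => rfl) (fun _ _ _ _ => rfl) (fun _ _ _ _ => rfl) (fun _ _ _ _ _ _ _ => rfl)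
    (fun _ _ _ _ => rfl) j k

theorem offD_mt0 (R : Run Ω τ υ) (F : Pf R π) (μ j k : ℕ) : OffD (fun o o' => (mt0 R F μ o o').fz j k) :=
  offD_fz (mt0 R F μ) (fun _ _ => rfl) (fun _ _ => rfl) (fun _ _ => rfl) (fun _ _ _ _ => rfl) (fun _ _ _ _ => rfl)
    (fun _ _ _ _ => rfl) (fun _ _ _ _ => rfl) (fun _ _ _ _ => rfl) (fun _ _ _ _ => rfl) (fun _ _ _ _ => rfl)
    (fun _ _ _ _ => rfl) (fun _ _ _ _ => rfl) (fun _ _ _ _ => rfl) (fun _ _ _ _ => rfl)
    (fun o o' p p' h2 h3 h4 => by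
      show (fun i ω => (F.pf i ω, fl1 (R.C.rk i - μ / 2) (kaL R i ω + o' 0), fl1 (R.C.rk i - μ / 2) (uL R o i ω + o' 1))) =
        fun i ω => (F.pf i ω, fl1 (R.C.rk i - μ / 2) (kaL R i ω + p' 0), fl1 (R.C.rk i - μ / 2) (uL R p i ω + p' 1))
      funext i ω
      rw [h3, h4, uL_congr R h2])
    (fun _ _ _ _ => rfl) j k

end Vale.Agent.P106.U.H101.Off
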