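import Vale.Agent.P106.U.H101.OffD

/-!
# P106 / U / H101 : the square roots of the exceptional probabilities, in the mean (helper101)

* `cs_mean` : Cauchy-Schwarz for `∑ E ∑ √a`.
* `sq4` : sum of the square roots of `exc` for the four kinds of events of one record.
* **`off_sqrt`** : under `off_dep`, mean of `sq4 d` `≤ 300 (d + 1) √K' q2 (μ / 4) N #S` (`n + J + 1 ≤ N`).
-/

set_option autoImplicit false

namespace Vale.Agent.P106.U.H101.Off

open Finset Vale.Agent.P127 Vale.Agent.P127.Stk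
open Vale.Agent.P127.U.CellD (q2 rd Nb q2_pos q2_le q2_add q2_mul_pow)
open Vale.Agent.P106.U.Cell Vale.Agent.P106.U.S3
open Vale.Agent.P106.U.H61.Ext2

/-- optimisation of the weight -/
theorem sqrt_opt {L A M : ℝ} (hA : 0 ≤ A) (hM : 0 ≤ M) (h : ∀ t : ℝ, 0 < t → L ≤ A / t + t * M) :
    L ≤ 2 * Real.sqrt (A * M) := by
  rcases hA.eq_or_lt with hA0 | hA0
  · rw [← hA0, zero_mul, Real.sqrt_zero, mul_zero]
    by_contra hc
    push Not at hc
    have h1 := h (L / (2 * (M + 1))) (by positivity)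
    rw [← hA0, zero_div, zero_add] at h1
    have h2 : L / (2 * (M + 1)) * M ≤ L / 2 := by
      rw [div_mul_eq_mul_div, div_le_div_iff₀ (by positivity) (by norm_num)]
      nlinarith
    linarith
  · rcases hM.eq_or_lt with hM0 | hM0
    · rw [← hM0, mul_zero, Real.sqrt_zero, mul_zero]
      by_contra hc
      push Not at hc
      have h1 := h (2 * A / L) (by positivity)
      rw [← hM0, mul_zero, add_zero] at h1
      have h2 : A / (2 * A / L) = L / 2 := by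
        field_simp
      linarith
    · have hs : 0 < Real.sqrt (A * M) := Real.sqrt_pos.2 (mul_pos hA0 hM0)
      have h1 := h (Real.sqrt (A * M) / M) (by positivity)
      have h2 := Real.mul_self_sqrt (mul_nonneg hA hM)
      have h3 : A / (Real.sqrt (A * M) / M) = Real.sqrt (A * M) := by
        rw [div_div_eq_mul_div, div_eq_iff hs.ne']
        exact h2.symm
      have h4 : Real.sqrt (A * M) / M * M = Real.sqrt (A * M) := div_mul_cancel₀ _ hM0.ne'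
      linarith

/-- **Cauchy-Schwarz in the mean** -/
theorem cs_mean {Ω X ι : Type*} [Fintype Ω] (w : Ω → ℝ) (hw : ∀ ω, 0 ≤ w ω) (hw1 : ∑ ω, w ω = 1) (S : Finset X)
    (I : X → Ω → Finset ι) (a : X → Ω → ι → ℝ) (ha : ∀ x ω i, 0 ≤ a x ω i) {N : ℝ}
    (hN : ∀ x ∈ S, ∀ ω, 0 < w ω → ((I x ω).card : ℝ) ≤ N) (hN0 : 0 ≤ N) :
    ∑ x ∈ S, ∑ ω, w ω * ∑ i ∈ I x ω, Real.sqrt (a x ω i) ≤
      2 * Real.sqrt ((∑ x ∈ S, ∑ ω, w ω * ∑ i ∈ I x ω, a x ω i) * (N * S.card)) := by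
  have hA : 0 ≤ ∑ x ∈ S, ∑ ω, w ω * ∑ i ∈ I x ω, a x ω i :=
    Finset.sum_nonneg fun x _ => Finset.sum_nonneg fun ω _ => mul_nonneg (hw ω) (Finset.sum_nonneg fun i _ => ha _ _ _)
  refine sqrt_opt hA (by positivity) fun t ht => ?_
  have e1 : ∑ x ∈ S, ∑ ω, w ω * ∑ i ∈ I x ω, Real.sqrt (a x ω i) ≤
      ∑ x ∈ S, (∑ ω, w ω * ((∑ i ∈ I x ω, a x ω i) / t) + ∑ ω, w ω * (t * N)) := by
    refine Finset.sum_le_sum fun x hx => ?_
    rw [← Finset.sum_add_distrib]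
    refine Finset.sum_le_sum fun ω _ => ?_
    rcases (hw ω).eq_or_lt with h0 | h0
    · rw [← h0]
      simp
    · rw [← mul_add]
      refine mul_le_mul_of_nonneg_left ?_ (hw ω)
      have h1 : ∀ i ∈ I x ω, Real.sqrt (a x ω i) ≤ a x ω i / t + t := by
        intro i _
        have h2 := Real.sq_sqrt (ha x ω i)
        have h3 := Real.sqrt_nonneg (a x ω i)
        rw [div_add' _ _ _ ht.ne', le_div_iff₀ ht]
        nlinarith [sq_nonneg (Real.sqrt (a x ω i) - t)]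
      refine (Finset.sum_le_sum h1).trans ?_
      rw [Finset.sum_add_distrib, ← Finset.sum_div, Finset.sum_const, nsmul_eq_mul]
      have h4 := mul_le_mul_of_nonneg_right (hN x hx ω h0) ht.le
      linarith
  refine e1.trans (le_of_eq ?_)
  have e2 : ∑ ω, w ω * (t * N) = t * N := by
    rw [← Finset.sum_mul, hw1, one_mul]
  rw [Finset.sum_add_distrib, e2, Finset.sum_const, nsmul_eq_mul, Finset.sum_div]
  congr 1
  · refine Finset.sum_congr rfl fun x _ => ?_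
    rw [Finset.sum_div]
    refine Finset.sum_congr rfl fun ω _ => ?_
    ring
  · ring

variable {Ω : Type} [Fintype Ω] {τ υ π : Type}

/-- **the square roots** of one record: path, frozen paths, offsets of the letters -/
noncomputable def sq4 (R : Run Ω τ υ) (p : Run.Num) (B bS bV : ℕ) (F : Pf R π) (Vs Xs : Finset ℕ) (μ : ℕ) (K' : ℝ)
    (o : Fin 7 → ℝ) (o' : ℕ → ℝ) (d : ℕ) : ℝ :=
  ∑ k ∈ range (R.n + p.J + 1), (Real.sqrt (exc R.Q (lc R.C μ o) K' k (R.m * R.b1)) +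
    Real.sqrt (exc R.Q (lc R.C μ o) K' k bS)) +
  ∑ k ∈ range (R.n + 1), (Real.sqrt (prE R.Q (fun ω => Nb (R.C.rk k - μ / 2) (kaL R k ω + o' 0) (K' * q2 (R.C.rk k)))) +
    Real.sqrt (prE R.Q (fun ω => Nb (R.C.rk k - μ / 2) (uL R o k ω + o' 1) (K' * q2 (R.C.rk k))))) +
  (∑ k ∈ IdK R Vs Xs, (Real.sqrt (exc R.Q ((mt R F μ o o').fz k k) K' k (R.m * R.b1)) +
    Real.sqrt (exc R.Q ((mt R F μ o o').fz k k) K' k bV) +
    ∑ i ∈ At' R p B d k, Real.sqrt (exc R.Q ((mt R F μ o o').fz k k) K' i (R.m * R.b1))) +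
  ∑ k ∈ IdP R F B Vs Xs, (Real.sqrt (exc R.Q ((mt0 R F μ o o').fz k k) K' k (R.m * R.b1)) +
    Real.sqrt (exc R.Q ((mt0 R F μ o o').fz k k) K' k bV) +
    ∑ i ∈ At' R p B d k, Real.sqrt (exc R.Q ((mt0 R F μ o o').fz k k) K' i (R.m * R.b1))))

/-- labels of `sq4` -/
abbrev L4 : Type := (ℕ × Bool ⊕ ℕ × Bool) ⊕ (Lb ⊕ Lb)

/-- index set -/
noncomputable def I4 (R : Run Ω τ υ) (p : Run.Num) (B : ℕ) (F : Pf R π) (Vs Xs : Finset ℕ) (d : ℕ) : Finset L4 :=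
  ((range (R.n + p.J + 1) ×ˢ (univ : Finset Bool)).disjSum (range (R.n + 1) ×ˢ (univ : Finset Bool))).disjSum
    ((lbs R p B F Vs Xs .k d).disjSum (lbs R p B F Vs Xs .p d))

/-- values -/
noncomputable def a4 (R : Run Ω τ υ) (bS bV : ℕ) (F : Pf R π) (μ : ℕ) (K' : ℝ)
    (o : Fin 7 → ℝ) (o' : ℕ → ℝ) : L4 → ℝ
  | .inl (.inl (k, true)) => exc R.Q (lc R.C μ o) K' k (R.m * R.b1)
  | .inl (.inl (k, false)) => exc R.Q (lc R.C μ o) K' k bS
  | .inl (.inr (k, true)) => prE R.Q (fun ω => Nb (R.C.rk k - μ / 2) (kaL R k ω + o' 0) (K' * q2 (R.C.rk k)))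
  | .inl (.inr (k, false)) => prE R.Q (fun ω => Nb (R.C.rk k - μ / 2) (uL R o k ω + o' 1) (K' * q2 (R.C.rk k)))
  | .inr (.inl y) => exc R.Q ((mt R F μ o o').fz y.1 y.1) K' (ix y) (cp R bS bV .k y)
  | .inr (.inr y) => exc R.Q ((mt0 R F μ o o').fz y.1 y.1) K' (ix y) (cp R bS bV .p y)

theorem sum_I4 (R : Run Ω τ υ) (p : Run.Num) (B : ℕ) (F : Pf R π) (Vs Xs : Finset ℕ) (d : ℕ) (f : L4 → ℝ) :
    ∑ y ∈ I4 R p B F Vs Xs d, f y =
      ∑ k ∈ range (R.n + p.J + 1), (f (.inl (.inl (k, true))) + f (.inl (.inl (k, false)))) +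
      ∑ k ∈ range (R.n + 1), (f (.inl (.inr (k, true))) + f (.inl (.inr (k, false)))) +
      (∑ k ∈ IdK R Vs Xs, (f (.inr (.inl ⟨k, none⟩)) + f (.inr (.inl ⟨k, some none⟩)) +
        ∑ i ∈ At' R p B d k, f (.inr (.inl ⟨k, some (some i)⟩))) +
      ∑ k ∈ IdP R F B Vs Xs, (f (.inr (.inr ⟨k, none⟩)) + f (.inr (.inr ⟨k, some none⟩)) +
        ∑ i ∈ At' R p B d k, f (.inr (.inr ⟨k, some (some i)⟩)))) := by
  unfold I4
  rw [Finset.sum_disjSum, Finset.sum_disjSum, Finset.sum_disjSum, Finset.sum_product, Finset.sum_product,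
    sum_lbs R p B F Vs Xs .k d (fun y => f (.inr (.inl y))), sum_lbs R p B F Vs Xs .p d (fun y => f (.inr (.inr y)))]
  simp only [Fintype.sum_bool]
  rfl

theorem card_I4 (R : Run Ω τ υ) (hm : 1 ≤ R.m) (p : Run.Num) (B : ℕ) (F : Pf R π) (Vs Xs : Finset ℕ) (d : ℕ) :
    ((I4 R p B F Vs Xs d).card : ℝ) ≤ 10 * (R.n + p.J + 1) := by
  unfold I4
  rw [Finset.card_disjSum, Finset.card_disjSum, Finset.card_disjSum, Finset.card_product, Finset.card_product,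
    Finset.card_range, Finset.card_range, Finset.card_univ, Fintype.card_bool]
  have h1 := lbs_card R hm p B F Vs Xs .k d
  have h2 := lbs_card R hm p B F Vs Xs .p d
  have h3 : (0 : ℝ) ≤ p.J := Nat.cast_nonneg _
  push_cast
  linarith

theorem a4_nonneg (R : Run Ω τ υ) (bS bV : ℕ) (F : Pf R π) (μ : ℕ) (K' : ℝ) (o : Fin 7 → ℝ) (o' : ℕ → ℝ) (y : L4) :
    0 ≤ a4 R bS bV F μ K' o o' y := by
  rcases y with (⟨k, b⟩ | ⟨k, b⟩) | (y | y)
  · cases b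
    · exact exc_nonneg _ _ _ _ _
    · exact exc_nonneg _ _ _ _ _
  · cases b
    · exact prE_nonneg _ _
    · exact prE_nonneg _ _
  · exact exc_nonneg _ _ _ _ _
  · exact exc_nonneg _ _ _ _ _

theorem sq4_eq (R : Run Ω τ υ) (p : Run.Num) (B bS bV : ℕ) (F : Pf R π) (Vs Xs : Finset ℕ) (μ : ℕ) (K' : ℝ)
    (o : Fin 7 → ℝ) (o' : ℕ → ℝ) (d : ℕ) : sq4 R p B bS bV F Vs Xs μ K' o o' d =
      ∑ y ∈ I4 R p B F Vs Xs d, Real.sqrt (a4 R bS bV F μ K' o o' y) := by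
  rw [sum_I4]
  rfl

theorem a4_eq (R : Run Ω τ υ) (p : Run.Num) (B bS bV : ℕ) (F : Pf R π) (Vs Xs : Finset ℕ) (μ : ℕ) (K' : ℝ)
    (o : Fin 7 → ℝ) (o' : ℕ → ℝ) (d : ℕ) : ∑ y ∈ I4 R p B F Vs Xs d, a4 R bS bV F μ K' o o' y =
      sOff R p bS μ K' o + sL R μ K' o o' +
        (sK R p B bV F Vs Xs μ K' o o' d + sP R p B bV F Vs Xs μ K' o o' d) := by
  rw [sum_I4]
  rfl

/-- **square roots in the mean** -/
theorem off_sqrt (Q1 : Law Ω) {X Z : Type} (S : Finset X) (w : X → Ω → Z)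
    (R : ∀ x z, 0 < Q1.pr (w x) z → Run Ω τ υ) (p : Run.Num) (B : ℕ) (F : ∀ x z hz, Pf (R x z hz) π)
    (Vs Xs : ∀ x z, 0 < Q1.pr (w x) z → Finset ℕ) (bS bV : ∀ x z, 0 < Q1.pr (w x) z → ℕ)
    (hm : ∀ x ∈ S, ∀ z hz, 1 ≤ (R x z hz).m) {μ : ℕ} {K' : ℝ} (hK : 0 < K')
    {o : Fin 7 → ℝ} {o' : ℕ → ℝ} {N : ℝ} (hN0 : 0 ≤ N) (hN : ∀ x ∈ S, ∀ z hz, ((R x z hz).n : ℝ) + p.J + 1 ≤ N)
    (h : ∑ x ∈ S, Q1.ex (fun ω => @dite _ (0 < Q1.pr (w x) (w x ω)) (Classical.propDecidable _) (fun hz =>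
        o4 (R x _ hz) p B (bS x _ hz) (bV x _ hz) (F x _ hz) (Vs x _ hz) (Xs x _ hz) μ K' o o') fun _ => 0) ≤
          300 / K' * q2 (μ / 4) * S.card) {d : ℕ} (hd : d ≤ B) :
    ∑ x ∈ S, Q1.ex (fun ω => @dite _ (0 < Q1.pr (w x) (w x ω)) (Classical.propDecidable _) (fun hz =>
        sq4 (R x _ hz) p B (bS x _ hz) (bV x _ hz) (F x _ hz) (Vs x _ hz) (Xs x _ hz) μ K' o o' d) fun _ => 0) ≤
      200 * (d + 1) * Real.sqrt K' * q2 (μ / 4) * N * S.card := by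
  classical
  have q4 := q2_pos (μ / 4)
  have hraw := off_raw Q1 S w R p B F Vs Xs bS bV hK hN0 hN h hd
  set I : X → Ω → Finset L4 := fun x ω => @dite _ (0 < Q1.pr (w x) (w x ω)) (Classical.propDecidable _) (fun hz =>
    I4 (R x _ hz) p B (F x _ hz) (Vs x _ hz) (Xs x _ hz) d) fun _ => ∅ with hI
  set a : X → Ω → L4 → ℝ := fun x ω y => @dite _ (0 < Q1.pr (w x) (w x ω)) (Classical.propDecidable _) (fun hz =>
    a4 (R x _ hz) (bS x _ hz) (bV x _ hz) (F x _ hz) μ K' o o' y) fun _ => 0 with ha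
  have hcs := cs_mean Q1.w Q1.nn Q1.sum_one S I a
    (fun x ω y => by
      rw [ha]
      beta_reduce
      split_ifs
      · exact a4_nonneg _ _ _ _ _ _ _ _ _
      · exact le_rfl) (N := 10 * N)
    (fun x hx ω hω => by
      have hz := Q1.pr_pos (w x) hω
      rw [hI]
      beta_reduce
      rw [dif_pos hz]
      have h1 := card_I4 (R x _ hz) (hm x hx _ hz) p B (F x _ hz) (Vs x _ hz) (Xs x _ hz) d
      have h2 := hN x hx _ hz
      linarith) (by positivity)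
  have e1 : ∑ x ∈ S, Q1.ex (fun ω => @dite _ (0 < Q1.pr (w x) (w x ω)) (Classical.propDecidable _) (fun hz =>
        sq4 (R x _ hz) p B (bS x _ hz) (bV x _ hz) (F x _ hz) (Vs x _ hz) (Xs x _ hz) μ K' o o' d) fun _ => 0) =
      ∑ x ∈ S, ∑ ω, Q1.w ω * ∑ i ∈ I x ω, Real.sqrt (a x ω i) := by
    refine Finset.sum_congr rfl fun x _ => ?_
    show Q1.ex _ = Q1.ex _
    refine Q1.ex_congr fun ω hω => ?_
    have hz := Q1.pr_pos (w x) hω
    rw [hI, ha]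
    beta_reduce
    simp only [dif_pos hz]
    exact sq4_eq _ _ _ _ _ _ _ _ _ _ _ _ _
  have e2 : ∑ x ∈ S, ∑ ω, Q1.w ω * ∑ i ∈ I x ω, a x ω i =
      ∑ x ∈ S, Q1.ex (fun ω => @dite _ (0 < Q1.pr (w x) (w x ω)) (Classical.propDecidable _) (fun hz =>
        sOff (R x _ hz) p (bS x _ hz) μ K' o + sL (R x _ hz) μ K' o o' +
          (sK (R x _ hz) p B (bV x _ hz) (F x _ hz) (Vs x _ hz) (Xs x _ hz) μ K' o o' d +
          sP (R x _ hz) p B (bV x _ hz) (F x _ hz) (Vs x _ hz) (Xs x _ hz) μ K' o o' d)) fun _ => 0) := by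
    refine Finset.sum_congr rfl fun x _ => ?_
    show Q1.ex _ = Q1.ex _
    refine Q1.ex_congr fun ω hω => ?_
    have hz := Q1.pr_pos (w x) hω
    rw [hI, ha]
    beta_reduce
    simp only [dif_pos hz]
    exact a4_eq _ _ _ _ _ _ _ _ _ _ _ _ _
  rw [e1]
  refine hcs.trans ?_
  rw [e2]
  have hS : (0 : ℝ) ≤ S.card := Nat.cast_nonneg _
  have hd1 : (0 : ℝ) < (d : ℝ) + 1 := by positivity
  have f1 : Real.sqrt ((∑ x ∈ S, Q1.ex (fun ω => @dite _ (0 < Q1.pr (w x) (w x ω)) (Classical.propDecidable _) (fun hz =>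
        sOff (R x _ hz) p (bS x _ hz) μ K' o + sL (R x _ hz) μ K' o o' +
          (sK (R x _ hz) p B (bV x _ hz) (F x _ hz) (Vs x _ hz) (Xs x _ hz) μ K' o o' d +
          sP (R x _ hz) p B (bV x _ hz) (F x _ hz) (Vs x _ hz) (Xs x _ hz) μ K' o o' d)) fun _ => 0)) *
        (10 * N * S.card)) ≤ 100 * ((d : ℝ) + 1) * Real.sqrt K' * q2 (μ / 4) * N * S.card := by
    refine Real.sqrt_le_iff.2 ⟨by positivity, ?_⟩
    refine (mul_le_mul_of_nonneg_right hraw (by positivity)).trans ?_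
    have f2 := Real.sq_sqrt hK.le
    have f3 : 3 * (K' ^ 2 * ((d : ℝ) + 1) ^ 2 * N * q2 (μ / 4)) * (300 / K' * q2 (μ / 4) * S.card) * (10 * N * S.card) =
        9000 * ((d + 1) ^ 2 * K' * q2 (μ / 4) ^ 2 * N ^ 2 * S.card ^ 2) := by
      field_simp
      ring
    rw [f3]
    have f4 : (100 * ((d : ℝ) + 1) * Real.sqrt K' * q2 (μ / 4) * N * S.card) ^ 2 =
        10000 * ((d + 1) ^ 2 * K' * q2 (μ / 4) ^ 2 * N ^ 2 * S.card ^ 2) := by
      have : (100 * ((d : ℝ) + 1) * Real.sqrt K' * q2 (μ / 4) * N * S.card) ^ 2 =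
        10000 * ((d + 1) ^ 2 * (Real.sqrt K') ^ 2 * q2 (μ / 4) ^ 2 * N ^ 2 * S.card ^ 2) := by ring
      rw [this, f2]
    rw [f4]
    have f5 : 0 ≤ ((d : ℝ) + 1) ^ 2 * K' * q2 (μ / 4) ^ 2 * N ^ 2 * S.card ^ 2 := by positivity
    linarith
  linarith

end Vale.Agent.P106.U.H101.Off
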