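import Vale.Agent.P106.U.H101.Off
import Vale.Agent.P106.U.H711.Far

/-!
# P106 / U / H101 : one choice of the offsets of the letter (helper101)  [row OT]

* `gen1w`, `exists_oR` : generic offsets `oK oG oN` of 785's letter, real weights and radii which depend on the point.
* `exists_oR2` : two families, one choice (Markov).
* **`oT_gen`**, `oT_two` : one choice of `oK oG oN` with (A) helper711's `exists_far_sum`, (B) the weighted sums of helper127's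
  [MTR-T]; in `oT_gen` the two families have their own places, words and inputs.
-/

set_option autoImplicit false

namespace Vale.Agent.P106.U.H101.OffT

open Finset Vale.Agent.P127 Vale.Agent.P127.Stk
open Vale.Agent.P127.U.CellD
open Vale.Agent.P127.U.H715 (cnt fl1_eq_of_cnt cnt_nonneg)
open Vale.Agent.P106.U.Cell Vale.Agent.P106.U.S3.PthW
open Vale.Agent.P106.U.H101.TN (BadT wo3)
open Vale.Agent.P106.U.H101.Off (gen_wt)
open Vale.Agent.P106.U.H711 (cs_cond prE_supp ex_sum sum_far_q2 prE_if)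

variable {Ω : Type} [Fintype Ω] {ι ι' σ : Type*}

open Classical in
/-- **one generic offset** : real weights, levels and radii which depend on the point -/
theorem gen1w (P : Law Ω) (S : Finset ι) (c : ι → Ω → ℝ) (hc : ∀ x ω, 0 ≤ c x ω) (n : ι → Ω → ℕ) (z r : ι → Ω → ℝ)
    (hr : ∀ x ω, 0 ≤ r x ω) : ∃ ξ : ℝ, 0 < ξ ∧ ξ ≤ 1 ∧
      ∑ x ∈ S, P.ex (fun ω => if Nb (n x ω) (z x ω + ξ) (r x ω) then c x ω else 0) ≤
        ∑ x ∈ S, P.ex (fun ω => c x ω * (2 * (2 ^ n x ω * r x ω))) := by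
  obtain ⟨ξ, h0, h1, h2⟩ := gen_wt S (fun x ω => P.w ω * c x ω) n (fun x ω => z x ω - r x ω) (fun x ω => 2 * r x ω)
  refine ⟨ξ, h0, h1, ?_⟩
  have e1 : ∑ x ∈ S, P.ex (fun ω => c x ω * (2 * (2 ^ n x ω * r x ω))) =
      ∑ x ∈ S, ∑ ω, P.w ω * c x ω * ((2 : ℝ) ^ (n x ω) * (2 * r x ω)) := by
    refine Finset.sum_congr rfl fun x _ => ?_
    unfold Law.ex
    refine Finset.sum_congr rfl fun ω _ => ?_
    ring
  rw [e1]
  refine le_trans ?_ h2
  refine Finset.sum_le_sum fun x hx => ?_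
  unfold Law.ex
  refine Finset.sum_le_sum fun ω _ => ?_
  have hw := mul_nonneg (P.nn ω) (hc x ω)
  have hη : 0 ≤ 2 * r x ω := mul_nonneg (by norm_num) (hr x ω)
  beta_reduce
  split_ifs with hE
  · obtain ⟨y, h3, h4, h5⟩ := hE
    have h6 : 1 ≤ cnt (n x ω) (z x ω - r x ω + ξ) (2 * r x ω) := by
      by_contra hlt
      refine h5 ?_
      have := fl1_eq_of_cnt (y := y) _ (not_le.1 hlt) (by linarith) (by linarith)
      rw [this]
      congr 1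
      ring
    nlinarith
  · rw [mul_zero]
    exact mul_nonneg hw (cnt_nonneg _ _ hη)

open Classical in
/-- **generic offsets of the letter**, real weights -/
theorem exists_oR (P : Law Ω) (S : Finset ι) (D : ι → Ω → Inp Ω) (j : ι → Ω → ℕ) (c r r' : ι → Ω → ℝ)
    (hc : ∀ x ω, 0 ≤ c x ω) (hr : ∀ x ω, 0 ≤ r x ω) (hr' : ∀ x ω, 0 ≤ r' x ω) :
    ∃ oK oG oN : ℝ, (0 < oK ∧ oK ≤ 1) ∧ (0 < oG ∧ oG ≤ 1) ∧ (0 < oN ∧ oN ≤ 1) ∧
      ∑ x ∈ S, P.ex (fun ω => if BadT (wo3 (D x ω) oK oG oN) (j x ω) (r x ω) (r' x ω) ω then c x ω else 0) ≤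
        ∑ x ∈ S, P.ex (fun ω => c x ω * (4 * (2 ^ (D x ω).rk (j x ω) * r x ω) + 2 * (2 ^ (D x ω).a (j x ω) * r' x ω))) := by
  obtain ⟨oN, n1, n2, n3⟩ := gen1w P S c hc (fun x ω => (D x ω).a (j x ω)) (fun x ω => (D x ω).Nc ω) r' hr'
  obtain ⟨oK, k1, k2, k3⟩ := gen1w P S c hc (fun x ω => (D x ω).rk (j x ω)) (fun x ω => (D x ω).kR (j x ω) ω) r hr
  obtain ⟨oG, g1, g2, g3⟩ := gen1w P S c hc (fun x ω => (D x ω).rk (j x ω))
    (fun x ω => (wo3 (D x ω) oK 0 oN).gR (j x ω) ω) r hr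
  refine ⟨oK, oG, oN, ⟨k1, k2⟩, ⟨g1, g2⟩, ⟨n1, n2⟩, ?_⟩
  have e1 : ∑ x ∈ S, P.ex (fun ω => c x ω * (4 * (2 ^ (D x ω).rk (j x ω) * r x ω) + 2 * (2 ^ (D x ω).a (j x ω) * r' x ω))) =
      ∑ x ∈ S, P.ex (fun ω => c x ω * (2 * (2 ^ (D x ω).rk (j x ω) * r x ω))) +
      (∑ x ∈ S, P.ex (fun ω => c x ω * (2 * (2 ^ (D x ω).rk (j x ω) * r x ω))) +
      ∑ x ∈ S, P.ex (fun ω => c x ω * (2 * (2 ^ (D x ω).a (j x ω) * r' x ω)))) := by
    rw [← Finset.sum_add_distrib, ← Finset.sum_add_distrib]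
    refine Finset.sum_congr rfl fun x _ => ?_
    rw [← P.ex_add, ← P.ex_add]
    refine P.ex_congr fun ω _ => ?_
    ring
  rw [e1]
  refine le_trans ?_ (add_le_add k3 (add_le_add g3 n3))
  rw [← Finset.sum_add_distrib, ← Finset.sum_add_distrib]
  refine Finset.sum_le_sum fun x _ => ?_
  rw [← P.ex_add, ← P.ex_add]
  refine P.ex_mono fun ω _ => ?_
  have h0 := hc x ω
  have t1 : 0 ≤ (if Nb ((D x ω).rk (j x ω)) ((D x ω).kR (j x ω) ω + oK) (r x ω) then c x ω else 0) := by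
    split_ifs <;> linarith
  have t2 : 0 ≤ (if Nb ((D x ω).rk (j x ω)) ((wo3 (D x ω) oK 0 oN).gR (j x ω) ω + oG) (r x ω) then c x ω else 0) := by
    split_ifs <;> linarith
  have t3 : 0 ≤ (if Nb ((D x ω).a (j x ω)) ((D x ω).Nc ω + oN) (r' x ω) then c x ω else 0) := by
    split_ifs <;> linarith
  by_cases hb : BadT (wo3 (D x ω) oK oG oN) (j x ω) (r x ω) (r' x ω) ω
  · rw [if_pos hb]
    rcases hb with hb | hb | hb
    · have : Nb ((D x ω).rk (j x ω)) ((D x ω).kR (j x ω) ω + oK) (r x ω) := hb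
      rw [if_pos this] at t1 ⊢
      linarith
    · have : Nb ((D x ω).rk (j x ω)) ((wo3 (D x ω) oK 0 oN).gR (j x ω) ω + oG) (r x ω) := hb
      rw [if_pos this] at t2 ⊢
      linarith
    · have : Nb ((D x ω).a (j x ω)) ((D x ω).Nc ω + oN) (r' x ω) := hb
      rw [if_pos this] at t3 ⊢
      linarith
  · rw [if_neg hb]
    linarith

open Classical in
/-- **two families, one choice** -/
theorem exists_oR2 (P : Law Ω) (S : Finset ι) (D : ι → Ω → Inp Ω) (j : ι → Ω → ℕ) (c r r' : ι → Ω → ℝ)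
    (hc : ∀ x ω, 0 ≤ c x ω) (hr : ∀ x ω, 0 ≤ r x ω) (hr' : ∀ x ω, 0 ≤ r' x ω)
    (S2 : Finset ι') (D2 : ι' → Ω → Inp Ω) (j2 : ι' → Ω → ℕ) (c2 r2 r2' : ι' → Ω → ℝ)
    (hc2 : ∀ x ω, 0 ≤ c2 x ω) (hr2 : ∀ x ω, 0 ≤ r2 x ω) (hr2' : ∀ x ω, 0 ≤ r2' x ω) {MA MB : ℝ} (hA : 0 < MA)
    (hB : 0 < MB)
    (bA : ∑ x ∈ S, P.ex (fun ω => c x ω * (4 * (2 ^ (D x ω).rk (j x ω) * r x ω) +
      2 * (2 ^ (D x ω).a (j x ω) * r' x ω))) ≤ MA)
    (bB : ∑ x ∈ S2, P.ex (fun ω => c2 x ω * (4 * (2 ^ (D2 x ω).rk (j2 x ω) * r2 x ω) +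
      2 * (2 ^ (D2 x ω).a (j2 x ω) * r2' x ω))) ≤ MB) :
    ∃ oK oG oN : ℝ, (0 < oK ∧ oK ≤ 1) ∧ (0 < oG ∧ oG ≤ 1) ∧ (0 < oN ∧ oN ≤ 1) ∧
      ∑ x ∈ S, P.ex (fun ω => if BadT (wo3 (D x ω) oK oG oN) (j x ω) (r x ω) (r' x ω) ω then c x ω else 0) ≤ 2 * MA ∧
      ∑ x ∈ S2, P.ex (fun ω => if BadT (wo3 (D2 x ω) oK oG oN) (j2 x ω) (r2 x ω) (r2' x ω) ω then c2 x ω else 0) ≤
        2 * MB := by
  obtain ⟨oK, oG, oN, h1, h2, h3, h4⟩ := exists_oR P (S.disjSum S2) (fun x => Sum.elim D D2 x)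
    (fun x => Sum.elim j j2 x) (fun x ω => Sum.elim (fun x => c x ω / MA) (fun x => c2 x ω / MB) x)
    (fun x => Sum.elim r r2 x) (fun x => Sum.elim r' r2' x)
    (by
      rintro (x | x) ω
      · exact div_nonneg (hc x ω) hA.le
      · exact div_nonneg (hc2 x ω) hB.le)
    (by
      rintro (x | x) ω
      · exact hr x ω
      · exact hr2 x ω)
    (by
      rintro (x | x) ω
      · exact hr' x ω
      · exact hr2' x ω)
  refine ⟨oK, oG, oN, h1, h2, h3, ?_⟩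
  rw [Finset.sum_disjSum, Finset.sum_disjSum] at h4
  set A := ∑ x ∈ S, P.ex (fun ω => if BadT (wo3 (D x ω) oK oG oN) (j x ω) (r x ω) (r' x ω) ω then c x ω else 0) with hAd
  set B := ∑ x ∈ S2, P.ex (fun ω => if BadT (wo3 (D2 x ω) oK oG oN) (j2 x ω) (r2 x ω) (r2' x ω) ω then c2 x ω else 0)
    with hBd
  have e1 : ∑ x ∈ S, P.ex (fun ω => if BadT (wo3 (D x ω) oK oG oN) (j x ω) (r x ω) (r' x ω) ω then c x ω / MA else 0) =
      A / MA := by
    rw [hAd, Finset.sum_div]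
    refine Finset.sum_congr rfl fun x _ => ?_
    rw [div_eq_inv_mul, ← P.ex_const_mul]
    refine P.ex_congr fun ω _ => ?_
    split_ifs
    · rw [div_eq_inv_mul]
    · rw [mul_zero]
  have e2 : ∑ x ∈ S2, P.ex (fun ω => if BadT (wo3 (D2 x ω) oK oG oN) (j2 x ω) (r2 x ω) (r2' x ω) ω then c2 x ω / MB
      else 0) = B / MB := by
    rw [hBd, Finset.sum_div]
    refine Finset.sum_congr rfl fun x _ => ?_
    rw [div_eq_inv_mul, ← P.ex_const_mul]
    refine P.ex_congr fun ω _ => ?_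
    split_ifs
    · rw [div_eq_inv_mul]
    · rw [mul_zero]
  have e3 : ∑ x ∈ S, P.ex (fun ω => c x ω / MA * (4 * (2 ^ (D x ω).rk (j x ω) * r x ω) +
      2 * (2 ^ (D x ω).a (j x ω) * r' x ω))) ≤ 1 := by
    have : ∑ x ∈ S, P.ex (fun ω => c x ω / MA * (4 * (2 ^ (D x ω).rk (j x ω) * r x ω) +
      2 * (2 ^ (D x ω).a (j x ω) * r' x ω))) = (∑ x ∈ S, P.ex (fun ω => c x ω * (4 * (2 ^ (D x ω).rk (j x ω) * r x ω) +
      2 * (2 ^ (D x ω).a (j x ω) * r' x ω)))) / MA := by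
      rw [Finset.sum_div]
      refine Finset.sum_congr rfl fun x _ => ?_
      rw [div_eq_inv_mul, ← P.ex_const_mul]
      refine P.ex_congr fun ω _ => ?_
      ring
    rw [this, div_le_one hA]
    exact bA
  have e4 : ∑ x ∈ S2, P.ex (fun ω => c2 x ω / MB * (4 * (2 ^ (D2 x ω).rk (j2 x ω) * r2 x ω) +
      2 * (2 ^ (D2 x ω).a (j2 x ω) * r2' x ω))) ≤ 1 := by
    have : ∑ x ∈ S2, P.ex (fun ω => c2 x ω / MB * (4 * (2 ^ (D2 x ω).rk (j2 x ω) * r2 x ω) +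
      2 * (2 ^ (D2 x ω).a (j2 x ω) * r2' x ω))) =
      (∑ x ∈ S2, P.ex (fun ω => c2 x ω * (4 * (2 ^ (D2 x ω).rk (j2 x ω) * r2 x ω) +
      2 * (2 ^ (D2 x ω).a (j2 x ω) * r2' x ω)))) / MB := by
      rw [Finset.sum_div]
      refine Finset.sum_congr rfl fun x _ => ?_
      rw [div_eq_inv_mul, ← P.ex_const_mul]
      refine P.ex_congr fun ω _ => ?_
      ring
    rw [this, div_le_one hB]
    exact bB
  have h5 : A / MA + B / MB ≤ 1 + 1 := by
    rw [← e1, ← e2]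
    exact h4.trans (add_le_add e3 e4)
  have A0 : 0 ≤ A := by
    rw [hAd]
    refine Finset.sum_nonneg fun x _ => P.ex_nonneg fun ω _ => ?_
    split_ifs
    · exact hc x ω
    · exact le_rfl
  have B0 : 0 ≤ B := by
    rw [hBd]
    refine Finset.sum_nonneg fun x _ => P.ex_nonneg fun ω _ => ?_
    split_ifs
    · exact hc2 x ω
    · exact le_rfl
  have A1 : A / MA ≤ 2 := by
    have := div_nonneg B0 hB.le
    linarith
  have B1 : B / MB ≤ 2 := by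
    have := div_nonneg A0 hA.le
    linarith
  exact ⟨(div_le_iff₀ hA).1 A1, (div_le_iff₀ hB).1 B1⟩

open Classical in
/-- means over a word, weights and events depend on the value -/
theorem avg_wd {S : Type*} (Q : Law Ω) (Z : Ω → S) (J : Finset ι) (I : S → Finset ι)
    (hI : ∀ ω, 0 < Q.w ω → I (Z ω) ⊆ J) (c : ι → S → ℝ) (A : ι → S → Ω → Prop) :
    Q.ex (fun ω => ∑ i ∈ I (Z ω), c i (Z ω) * prE (Q.cond Z (Z ω)) (A i (Z ω))) =
      ∑ i ∈ J, Q.ex (fun ω => if i ∈ I (Z ω) ∧ A i (Z ω) ω then c i (Z ω) else 0) := by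
  rw [← ex_sum]
  have e1 : Q.ex (fun ω => ∑ i ∈ I (Z ω), c i (Z ω) * prE (Q.cond Z (Z ω)) (A i (Z ω))) =
      Q.ex (fun ω => ∑ i ∈ J, (if i ∈ I (Z ω) then c i (Z ω) else 0) *
        (Q.cond Z (Z ω)).ex (fun ω' => if A i (Z ω') ω' then 1 else 0)) := by
    refine Q.ex_congr fun ω hω => ?_
    have hz := Q.pr_pos Z hω
    have e2 : ∀ i, prE (Q.cond Z (Z ω)) (A i (Z ω)) = (Q.cond Z (Z ω)).ex (fun ω' => if A i (Z ω') ω' then 1 else 0) := by
      intro i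
      rw [prE_if]
      refine Law.ex_congr _ fun ω' h' => ?_
      obtain ⟨_, h2⟩ := P127.S.StepEx.cond_supp hz h'
      rw [h2]
    rw [← Finset.sum_subset (hI ω hω)]
    · refine Finset.sum_congr rfl fun i hi => ?_
      rw [if_pos hi, e2]
    · intro i _ hi
      rw [if_neg hi, zero_mul]
  rw [e1, ex_sum, ex_sum]
  refine Finset.sum_congr rfl fun i _ => ?_
  rw [Vale.Agent.P106.U.H711.tower_fn Q Z (fun ω => if i ∈ I (Z ω) then c i (Z ω) else 0)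
    (fun ω' => if A i (Z ω') ω' then 1 else 0) (fun ω ω' _ _ e => by rw [e])]
  refine Q.ex_congr fun ω _ => ?_
  by_cases a : i ∈ I (Z ω) <;> by_cases b : A i (Z ω) ω <;> simp [a, b]

open Classical in
/-- **[OT]**, general form : the families (A) and (B) have their own places, words and inputs -/
theorem oT_gen {κ κ' σ' α : Type*} (P : Law Ω) (Y : Finset κ) (hY : Y.Nonempty) (W : κ → Ω → σ) (D : κ → σ → Inp Ω)
    (Y' : Finset κ') (hY' : Y'.Nonempty) (W' : κ' → Ω → σ') (D' : κ' → σ' → Inp Ω) (N : ℕ)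
    (hN : 1 ≤ N) (v : κ → σ → ℕ → ℕ) (Z : κ → σ → Finset ℕ) (c g : ℕ) (hc : 1 ≤ c) {m p : ℕ} (hm : 1 ≤ m) (hp : 1 ≤ p)
    (hZN : ∀ y ∈ Y, ∀ ω, 0 < P.w ω → Z y (W y ω) ⊆ range N)
    (hZ : ∀ y ∈ Y, ∀ ω, 0 < P.w ω → ∀ x, ((Z y (W y ω)).filter fun z => v y (W y ω) z = x).card ≤ c)
    {C0 : ℝ} (hC : 0 < C0)
    (Zb : κ' → σ' → Finset α) (jb : κ' → σ' → α → ℕ) (wb db : κ' → σ' → α → ℝ) (hw : ∀ y e r, 0 ≤ wb y e r)
    (hd : ∀ y e r, 0 ≤ db y e r) {MB : ℝ} (hMB : 0 < MB)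
    (hB : ∀ y ∈ Y', ∀ ω, 0 < P.w ω → ∑ r ∈ Zb y (W' y ω), wb y (W' y ω) r *
      (2 ^ (D' y (W' y ω)).rk (jb y (W' y ω) r) * db y (W' y ω) r) ≤ MB) :
    ∃ oK oG oN : ℝ, (0 < oK ∧ oK ≤ 1) ∧ (0 < oG ∧ oG ≤ 1) ∧ (0 < oN ∧ oN ≤ 1) ∧
      ∑ y ∈ Y, P.ex (fun ω => ∑ z ∈ Z y (W y ω), ∑ j ∈ (range N).filter (fun j => v y (W y ω) j + g ≤ v y (W y ω) z),
        Real.sqrt (prE (P.cond (W y) (W y ω)) (BadT (wo3 (D y (W y ω)) oK oG oN) j
          (C0 * q2 (2 * (m * ((v y (W y ω) z - v y (W y ω) j) / p))) * q2 ((D y (W y ω)).rk j))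
          (C0 * q2 (2 * (m * ((v y (W y ω) z - v y (W y ω) j) / p))) * q2 ((D y (W y ω)).a j))))) ≤
      Real.sqrt (12 * C0) * (Y.card * (N * (c * (2 * p * q2 (m * (g / p)))))) ∧
      ∑ y ∈ Y', P.ex (fun ω => ∑ r ∈ Zb y (W' y ω), wb y (W' y ω) r *
        (prE (P.cond (W' y) (W' y ω)) (fun ω' => Nb ((wo3 (D' y (W' y ω)) oK oG oN).rk (jb y (W' y ω) r))
          ((wo3 (D' y (W' y ω)) oK oG oN).kR (jb y (W' y ω) r) ω' + (wo3 (D' y (W' y ω)) oK oG oN).oK)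
            (db y (W' y ω) r)) +
        prE (P.cond (W' y) (W' y ω)) (fun ω' => Nb ((wo3 (D' y (W' y ω)) oK oG oN).rk (jb y (W' y ω) r))
          ((wo3 (D' y (W' y ω)) oK oG oN).gR (jb y (W' y ω) r) ω' + (wo3 (D' y (W' y ω)) oK oG oN).oG)
            (db y (W' y ω) r)))) ≤ 16 * (Y'.card * MB) := by
  have hYc : (0 : ℝ) < Y.card := by exact_mod_cast Finset.card_pos.2 hY
  have hYc' : (0 : ℝ) < Y'.card := by exact_mod_cast Finset.card_pos.2 hY'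
  have hNc : (0 : ℝ) < N := by exact_mod_cast hN
  have hcc : (0 : ℝ) < c := by exact_mod_cast hc
  have hpc : (0 : ℝ) < p := by exact_mod_cast hp
  -- family A
  set S : Finset (κ × ℕ × ℕ) := Y ×ˢ (range N ×ˢ range N) with hS
  obtain ⟨I, hI⟩ : ∃ I : κ × ℕ × ℕ → Ω → Prop, ∀ x ω, I x ω ↔ (x.2.1 ∈ Z x.1 (W x.1 ω) ∧
      v x.1 (W x.1 ω) x.2.2 + g ≤ v x.1 (W x.1 ω) x.2.1) := ⟨_, fun _ _ => Iff.rfl⟩
  obtain ⟨q, hq⟩ : ∃ q : κ × ℕ × ℕ → Ω → ℕ, ∀ x ω, q x ω =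
      m * ((v x.1 (W x.1 ω) x.2.1 - v x.1 (W x.1 ω) x.2.2) / p) := ⟨_, fun _ _ => rfl⟩
  set M0 : ℝ := Y.card * (N * (c * (2 * p * q2 (m * (g / p))))) with hM0
  have hM0p : 0 < M0 := by
    rw [hM0]
    have := q2_pos (m * (g / p))
    positivity
  set Z1 := ∑ x ∈ S, P.ex (fun ω => if I x ω then q2 (q x ω) else 0) with hZ1
  -- exchange of the sums
  have key : ∀ y ∈ Y, ∀ F : κ × ℕ × ℕ → Ω → ℝ, P.ex (fun ω => ∑ z ∈ Z y (W y ω),
      ∑ j ∈ (range N).filter (fun j => v y (W y ω) j + g ≤ v y (W y ω) z), F (y, z, j) ω) =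
      ∑ r ∈ range N ×ˢ range N, P.ex (fun ω => if I (y, r) ω then F (y, r) ω else 0) := by
    intro y hy F
    rw [← ex_sum]
    refine P.ex_congr fun ω hω => ?_
    rw [Finset.sum_product]
    have e1 : ∑ z ∈ range N, ∑ j ∈ range N, (if I (y, z, j) ω then F (y, z, j) ω else 0) =
        ∑ z ∈ range N, if z ∈ Z y (W y ω) then
          ∑ j ∈ (range N).filter (fun j => v y (W y ω) j + g ≤ v y (W y ω) z), F (y, z, j) ω else 0 := by
      refine Finset.sum_congr rfl fun z _ => ?_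
      by_cases a : z ∈ Z y (W y ω)
      · rw [if_pos a, Finset.sum_filter]
        refine Finset.sum_congr rfl fun j _ => ?_
        by_cases b : v y (W y ω) j + g ≤ v y (W y ω) z
        · rw [if_pos b, if_pos ((hI _ _).2 ⟨a, b⟩)]
        · rw [if_neg b, if_neg fun h => b ((hI _ _).1 h).2]
      · rw [if_neg a]
        exact Finset.sum_eq_zero fun j _ => if_neg fun h => a ((hI _ _).1 h).1
    rw [e1, ← Finset.sum_filter]
    refine Finset.sum_congr ?_ fun _ _ => rfl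
    ext z
    rw [Finset.mem_filter]
    exact ⟨fun h => ⟨hZN y hy ω hω h, h⟩, fun h => h.2⟩
  have e2 : ∀ F : κ × ℕ × ℕ → Ω → ℝ, ∑ x ∈ S, P.ex (fun ω => if I x ω then F x ω else 0) =
      ∑ y ∈ Y, P.ex (fun ω => ∑ z ∈ Z y (W y ω),
        ∑ j ∈ (range N).filter (fun j => v y (W y ω) j + g ≤ v y (W y ω) z), F (y, z, j) ω) := by
    intro F
    rw [hS, Finset.sum_product]
    exact Finset.sum_congr rfl fun y hy => (key y hy F).symm
  have hZ1M : Z1 ≤ M0 := by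
    rw [hZ1, e2 (fun x ω => q2 (q x ω))]
    have h5 : ∀ y ∈ Y, P.ex (fun ω => ∑ z ∈ Z y (W y ω),
          ∑ j ∈ (range N).filter (fun j => v y (W y ω) j + g ≤ v y (W y ω) z), q2 (q (y, z, j) ω)) ≤
        N * (c * (2 * p * q2 (m * (g / p)))) := by
      intro y hy
      have h6 : P.ex (fun ω => ∑ z ∈ Z y (W y ω),
          ∑ j ∈ (range N).filter (fun j => v y (W y ω) j + g ≤ v y (W y ω) z), q2 (q (y, z, j) ω)) ≤
          P.ex (fun _ => (N * (c * (2 * p * q2 (m * (g / p)))) : ℝ)) := by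
        refine P.ex_mono fun ω hω => ?_
        have := sum_far_q2 hm hp (v y (W y ω)) (Z y (W y ω)) (range N) c (hZ y hy ω hω) g
        rw [Finset.card_range] at this
        simp only [hq]
        exact this
      rwa [Law.ex_const] at h6
    refine (Finset.sum_le_sum h5).trans ?_
    rw [Finset.sum_const, nsmul_eq_mul]
  have Z10 : 0 ≤ Z1 := by
    rw [hZ1]
    refine Finset.sum_nonneg fun x _ => P.ex_nonneg fun ω _ => ?_
    split_ifs
    · exact (q2_pos _).le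
    · exact le_rfl
  -- family B
  set JB : Finset α := (Y' ×ˢ (univ : Finset Ω)).biUnion (fun x => Zb x.1 (W' x.1 x.2)) with hJB
  have hJ : ∀ y ∈ Y', ∀ ω, 0 < P.w ω → Zb y (W' y ω) ⊆ JB := by
    intro y hy ω _ r hr
    exact Finset.mem_biUnion.2 ⟨(y, ω), Finset.mem_product.2 ⟨hy, Finset.mem_univ _⟩, hr⟩
  have hcA : ∀ (x : κ × ℕ × ℕ) (ω : Ω), (0 : ℝ) ≤ if I x ω then (2 : ℝ) ^ q x ω else 0 := by
    intro x ω
    split_ifs
    · positivity
    · exact le_rfl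
  have hcB : ∀ (x : κ' × α) (ω : Ω), (0 : ℝ) ≤ if x.2 ∈ Zb x.1 (W' x.1 ω) then wb x.1 (W' x.1 ω) x.2 else 0 := by
    intro x ω
    split_ifs
    · exact hw _ _ _
    · exact le_rfl
  have hrq : ∀ (x : κ × ℕ × ℕ) (ω : Ω) (n : ℕ), 0 ≤ C0 * q2 (2 * q x ω) * q2 n := fun x ω n =>
    mul_nonneg (mul_nonneg hC.le (q2_pos _).le) (q2_pos _).le
  obtain ⟨oK, oG, oN, h1, h2, h3, h4, h5⟩ := exists_oR2 P S (fun x ω => D x.1 (W x.1 ω)) (fun x _ => x.2.2)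
    (fun x ω => if I x ω then (2 : ℝ) ^ q x ω else 0)
    (fun x ω => C0 * q2 (2 * q x ω) * q2 ((D x.1 (W x.1 ω)).rk x.2.2))
    (fun x ω => C0 * q2 (2 * q x ω) * q2 ((D x.1 (W x.1 ω)).a x.2.2)) hcA (fun x ω => hrq x ω _) (fun x ω => hrq x ω _)
    (Y' ×ˢ JB) (fun x ω => D' x.1 (W' x.1 ω)) (fun x ω => jb x.1 (W' x.1 ω) x.2)
    (fun x ω => if x.2 ∈ Zb x.1 (W' x.1 ω) then wb x.1 (W' x.1 ω) x.2 else 0)
    (fun x ω => db x.1 (W' x.1 ω) x.2) (fun _ _ => 0) hcB (fun x ω => hd _ _ _) (fun _ _ => le_rfl)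
    (MA := 6 * C0 * M0) (MB := 4 * (Y'.card * MB)) (mul_pos (mul_pos (by norm_num) hC) hM0p)
    (mul_pos (by norm_num) (mul_pos hYc' hMB))
    (by
      have e3 : ∑ x ∈ S, P.ex (fun ω => (if I x ω then (2 : ℝ) ^ q x ω else 0) *
          (4 * (2 ^ (D x.1 (W x.1 ω)).rk x.2.2 * (C0 * q2 (2 * q x ω) * q2 ((D x.1 (W x.1 ω)).rk x.2.2))) +
          2 * (2 ^ (D x.1 (W x.1 ω)).a x.2.2 * (C0 * q2 (2 * q x ω) * q2 ((D x.1 (W x.1 ω)).a x.2.2))))) =
          6 * C0 * Z1 := by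
        rw [hZ1, Finset.mul_sum]
        refine Finset.sum_congr rfl fun x _ => ?_
        rw [← P.ex_const_mul]
        refine P.ex_congr fun ω _ => ?_
        have a1 := q2_mul_pow ((D x.1 (W x.1 ω)).rk x.2.2)
        have a2 := q2_mul_pow ((D x.1 (W x.1 ω)).a x.2.2)
        have a3 := q2_mul_pow (q x ω)
        have a4 : q2 (2 * q x ω) = q2 (q x ω) * q2 (q x ω) := by rw [two_mul, q2_add]
        split_ifs
        · rw [a4]
          linear_combination (4 * C0 * q2 (q x ω) * q2 (q x ω) * 2 ^ q x ω) * a1 +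
            (2 * C0 * q2 (q x ω) * q2 (q x ω) * 2 ^ q x ω) * a2 + (6 * C0 * q2 (q x ω)) * a3
        · ring
      rw [e3]
      exact mul_le_mul_of_nonneg_left hZ1M (mul_pos (by norm_num) hC).le)
    (by
      rw [Finset.sum_product]
      have e3 : ∀ y ∈ Y', ∑ r ∈ JB, P.ex (fun ω => (if r ∈ Zb y (W' y ω) then wb y (W' y ω) r else 0) *
          (4 * (2 ^ (D' y (W' y ω)).rk (jb y (W' y ω) r) * db y (W' y ω) r) +
          2 * (2 ^ (D' y (W' y ω)).a (jb y (W' y ω) r) * 0))) ≤ 4 * MB := by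
        intro y hy
        rw [← ex_sum, ← P.ex_const (4 * MB)]
        refine P.ex_mono fun ω hω => ?_
        have e4 := hB y hy ω hω
        have e5 : ∑ r ∈ JB, (if r ∈ Zb y (W' y ω) then wb y (W' y ω) r else 0) *
          (4 * (2 ^ (D' y (W' y ω)).rk (jb y (W' y ω) r) * db y (W' y ω) r) +
          2 * (2 ^ (D' y (W' y ω)).a (jb y (W' y ω) r) * 0)) =
          4 * ∑ r ∈ Zb y (W' y ω), wb y (W' y ω) r * (2 ^ (D' y (W' y ω)).rk (jb y (W' y ω) r) * db y (W' y ω) r) := by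
          rw [Finset.mul_sum, ← Finset.sum_subset (hJ y hy ω hω)]
          · refine Finset.sum_congr rfl fun r hr => ?_
            rw [if_pos hr]
            ring
          · intro r _ hr
            rw [if_neg hr, zero_mul]
        rw [e5]
        linarith
      refine (Finset.sum_le_sum e3).trans (le_of_eq ?_)
      rw [Finset.sum_const, nsmul_eq_mul]
      ring)
  refine ⟨oK, oG, oN, h1, h2, h3, ?_, ?_⟩
  · -- far records
    have h6 := cs_cond P S (fun x => W x.1) I (fun x ω' => BadT (wo3 (D x.1 (W x.1 ω')) oK oG oN) x.2.2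
        (C0 * q2 (2 * q x ω') * q2 ((D x.1 (W x.1 ω')).rk x.2.2))
        (C0 * q2 (2 * q x ω') * q2 ((D x.1 (W x.1 ω')).a x.2.2)) ω')
      (fun x ω => q2 (q x ω)) (fun x ω => (2 : ℝ) ^ q x ω) (fun _ _ => (q2_pos _).le) (fun _ _ => by positivity)
      (fun x _ ω _ _ => by
        have := q2_mul_pow (q x ω)
        linarith)
      (fun x hx ω ω' _ _ e => by
        have e' : W x.1 ω = W x.1 ω' := e
        rw [hI, hI, hq, hq, e']
        exact ⟨Iff.rfl, rfl⟩)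
    have e4 : ∑ x ∈ S, P.ex (fun ω => if I x ω ∧ BadT (wo3 (D x.1 (W x.1 ω)) oK oG oN) x.2.2
        (C0 * q2 (2 * q x ω) * q2 ((D x.1 (W x.1 ω)).rk x.2.2))
        (C0 * q2 (2 * q x ω) * q2 ((D x.1 (W x.1 ω)).a x.2.2)) ω then (2 : ℝ) ^ q x ω else 0) ≤ 12 * C0 * M0 := by
      refine le_trans (le_of_eq ?_) (h4.trans (le_of_eq (by ring)))
      refine Finset.sum_congr rfl fun x _ => P.ex_congr fun ω _ => ?_
      by_cases a : I x ω
      · by_cases b : BadT (wo3 (D x.1 (W x.1 ω)) oK oG oN) x.2.2 (C0 * q2 (2 * q x ω) * q2 ((D x.1 (W x.1 ω)).rk x.2.2))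
          (C0 * q2 (2 * q x ω) * q2 ((D x.1 (W x.1 ω)).a x.2.2)) ω
        · rw [if_pos ⟨a, b⟩, if_pos b, if_pos a]
        · rw [if_neg fun h => b h.2, if_neg b]
      · by_cases b : BadT (wo3 (D x.1 (W x.1 ω)) oK oG oN) x.2.2 (C0 * q2 (2 * q x ω) * q2 ((D x.1 (W x.1 ω)).rk x.2.2))
          (C0 * q2 (2 * q x ω) * q2 ((D x.1 (W x.1 ω)).a x.2.2)) ω
        · rw [if_neg fun h => a h.1, if_pos b, if_neg a]
        · rw [if_neg fun h => b h.2, if_neg b]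
    have e5 : ∑ y ∈ Y, P.ex (fun ω => ∑ z ∈ Z y (W y ω), ∑ j ∈ (range N).filter
          (fun j => v y (W y ω) j + g ≤ v y (W y ω) z),
          Real.sqrt (prE (P.cond (W y) (W y ω)) (BadT (wo3 (D y (W y ω)) oK oG oN) j
            (C0 * q2 (2 * (m * ((v y (W y ω) z - v y (W y ω) j) / p))) * q2 ((D y (W y ω)).rk j))
            (C0 * q2 (2 * (m * ((v y (W y ω) z - v y (W y ω) j) / p))) * q2 ((D y (W y ω)).a j))))) ≤
        ∑ x ∈ S, P.ex (fun ω => if I x ω then Real.sqrt (prE (P.cond (W x.1) (W x.1 ω)) fun ω' =>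
          BadT (wo3 (D x.1 (W x.1 ω')) oK oG oN) x.2.2 (C0 * q2 (2 * q x ω') * q2 ((D x.1 (W x.1 ω')).rk x.2.2))
          (C0 * q2 (2 * q x ω') * q2 ((D x.1 (W x.1 ω')).a x.2.2)) ω') else 0) := by
      rw [e2 (fun x ω => Real.sqrt (prE (P.cond (W x.1) (W x.1 ω)) fun ω' =>
        BadT (wo3 (D x.1 (W x.1 ω')) oK oG oN) x.2.2 (C0 * q2 (2 * q x ω') * q2 ((D x.1 (W x.1 ω')).rk x.2.2))
          (C0 * q2 (2 * q x ω') * q2 ((D x.1 (W x.1 ω')).a x.2.2)) ω'))]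
      refine Finset.sum_le_sum fun y _ => P.ex_mono fun ω hω => ?_
      refine Finset.sum_le_sum fun z _ => Finset.sum_le_sum fun j _ => Real.sqrt_le_sqrt ?_
      have hz := P.pr_pos (W y) hω
      refine prE_supp _ _ _ fun ω' h0 hBd => ?_
      obtain ⟨_, e⟩ := P127.S.StepEx.cond_supp hz h0
      beta_reduce
      rw [hq, e]
      exact hBd
    refine e5.trans (h6.trans ?_)
    have e6 : Real.sqrt Z1 * Real.sqrt (∑ x ∈ S, P.ex (fun ω => if I x ω ∧ BadT (wo3 (D x.1 (W x.1 ω)) oK oG oN) x.2.2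
        (C0 * q2 (2 * q x ω) * q2 ((D x.1 (W x.1 ω)).rk x.2.2))
        (C0 * q2 (2 * q x ω) * q2 ((D x.1 (W x.1 ω)).a x.2.2)) ω then (2 : ℝ) ^ q x ω else 0)) ≤
        Real.sqrt M0 * Real.sqrt (12 * C0 * M0) :=
      mul_le_mul (Real.sqrt_le_sqrt hZ1M) (Real.sqrt_le_sqrt e4) (Real.sqrt_nonneg _) (Real.sqrt_nonneg _)
    refine e6.trans (le_of_eq ?_)
    rw [Real.sqrt_mul (by positivity) M0]
    have := Real.mul_self_sqrt hM0p.le
    linear_combination (Real.sqrt (12 * C0)) * this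
  · -- weighted sums
    have e7 : ∀ y ∈ Y', P.ex (fun ω => ∑ r ∈ Zb y (W' y ω), wb y (W' y ω) r *
        (prE (P.cond (W' y) (W' y ω)) (fun ω' => Nb ((wo3 (D' y (W' y ω)) oK oG oN).rk (jb y (W' y ω) r))
          ((wo3 (D' y (W' y ω)) oK oG oN).kR (jb y (W' y ω) r) ω' + (wo3 (D' y (W' y ω)) oK oG oN).oK) (db y (W' y ω) r)) +
        prE (P.cond (W' y) (W' y ω)) (fun ω' => Nb ((wo3 (D' y (W' y ω)) oK oG oN).rk (jb y (W' y ω) r))
          ((wo3 (D' y (W' y ω)) oK oG oN).gR (jb y (W' y ω) r) ω' + (wo3 (D' y (W' y ω)) oK oG oN).oG)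
            (db y (W' y ω) r)))) ≤
        2 * ∑ r ∈ JB, P.ex (fun ω => if BadT (wo3 (D' y (W' y ω)) oK oG oN) (jb y (W' y ω) r) (db y (W' y ω) r) 0 ω then
          (if r ∈ Zb y (W' y ω) then wb y (W' y ω) r else 0) else 0) := by
      intro y hy
      have e8 := avg_wd P (W' y) JB (Zb y) (hJ y hy) (fun r e => wb y e r)
        fun r e => BadT (wo3 (D' y e) oK oG oN) (jb y e r) (db y e r) 0
      have e9 : ∑ r ∈ JB, P.ex (fun ω => if BadT (wo3 (D' y (W' y ω)) oK oG oN) (jb y (W' y ω) r) (db y (W' y ω) r) 0 ω then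
          (if r ∈ Zb y (W' y ω) then wb y (W' y ω) r else 0) else 0) =
          ∑ i ∈ JB, P.ex (fun ω => if i ∈ Zb y (W' y ω) ∧ BadT (wo3 (D' y (W' y ω)) oK oG oN) (jb y (W' y ω) i)
            (db y (W' y ω) i) 0 ω then wb y (W' y ω) i else 0) := by
        refine Finset.sum_congr rfl fun r _ => P.ex_congr fun ω _ => ?_
        by_cases a : r ∈ Zb y (W' y ω)
        · by_cases b : BadT (wo3 (D' y (W' y ω)) oK oG oN) (jb y (W' y ω) r) (db y (W' y ω) r) 0 ω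
          · rw [if_pos b, if_pos a, if_pos ⟨a, b⟩]
          · rw [if_neg b, if_neg fun h => b h.2]
        · by_cases b : BadT (wo3 (D' y (W' y ω)) oK oG oN) (jb y (W' y ω) r) (db y (W' y ω) r) 0 ω
          · rw [if_pos b, if_neg a, if_neg fun h => a h.1]
          · rw [if_neg b, if_neg fun h => b h.2]
      rw [e9, ← e8, ← P.ex_const_mul]
      refine P.ex_mono fun ω _ => ?_
      rw [Finset.mul_sum]
      refine Finset.sum_le_sum fun r _ => ?_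
      have k1 : prE (P.cond (W' y) (W' y ω)) (fun ω' => Nb ((wo3 (D' y (W' y ω)) oK oG oN).rk (jb y (W' y ω) r))
          ((wo3 (D' y (W' y ω)) oK oG oN).kR (jb y (W' y ω) r) ω' + (wo3 (D' y (W' y ω)) oK oG oN).oK) (db y (W' y ω) r)) ≤
          prE (P.cond (W' y) (W' y ω)) (BadT (wo3 (D' y (W' y ω)) oK oG oN) (jb y (W' y ω) r) (db y (W' y ω) r) 0) :=
        prE_supp _ _ _ fun ω' _ h => Or.inl h
      have k2 : prE (P.cond (W' y) (W' y ω)) (fun ω' => Nb ((wo3 (D' y (W' y ω)) oK oG oN).rk (jb y (W' y ω) r))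
          ((wo3 (D' y (W' y ω)) oK oG oN).gR (jb y (W' y ω) r) ω' + (wo3 (D' y (W' y ω)) oK oG oN).oG)
            (db y (W' y ω) r)) ≤
          prE (P.cond (W' y) (W' y ω)) (BadT (wo3 (D' y (W' y ω)) oK oG oN) (jb y (W' y ω) r) (db y (W' y ω) r) 0) :=
        prE_supp _ _ _ fun ω' _ h => Or.inr (Or.inl h)
      have k3 := mul_le_mul_of_nonneg_left (add_le_add k1 k2) (hw y (W' y ω) r)
      refine k3.trans (le_of_eq ?_)
      ring
    refine (Finset.sum_le_sum e7).trans ?_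
    rw [← Finset.mul_sum]
    rw [Finset.sum_product] at h5
    have h6 := mul_le_mul_of_nonneg_left h5 (show (0 : ℝ) ≤ 2 by norm_num)
    refine h6.trans (le_of_eq ?_)
    ring

/-- **[OT]** one choice of the offsets of the letter for (A) helper711's far records and (B) weighted sums of the events of
kappa and gamma (helper127's [MTR-T]) -/
theorem oT_two {κ α : Type*} (P : Law Ω) (Y : Finset κ) (hY : Y.Nonempty) (W : κ → Ω → σ) (D : κ → σ → Inp Ω) (N : ℕ)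
    (hN : 1 ≤ N) (v : κ → σ → ℕ → ℕ) (Z : κ → σ → Finset ℕ) (c g : ℕ) (hc : 1 ≤ c) {m p : ℕ} (hm : 1 ≤ m) (hp : 1 ≤ p)
    (hZN : ∀ y ∈ Y, ∀ ω, 0 < P.w ω → Z y (W y ω) ⊆ range N)
    (hZ : ∀ y ∈ Y, ∀ ω, 0 < P.w ω → ∀ x, ((Z y (W y ω)).filter fun z => v y (W y ω) z = x).card ≤ c)
    {C0 : ℝ} (hC : 0 < C0)
    (Zb : κ → σ → Finset α) (jb : κ → σ → α → ℕ) (wb db : κ → σ → α → ℝ) (hw : ∀ y e r, 0 ≤ wb y e r)
    (hd : ∀ y e r, 0 ≤ db y e r) {MB : ℝ} (hMB : 0 < MB)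
    (hB : ∀ y ∈ Y, ∀ ω, 0 < P.w ω → ∑ r ∈ Zb y (W y ω), wb y (W y ω) r *
      (2 ^ (D y (W y ω)).rk (jb y (W y ω) r) * db y (W y ω) r) ≤ MB) :
    ∃ oK oG oN : ℝ, (0 < oK ∧ oK ≤ 1) ∧ (0 < oG ∧ oG ≤ 1) ∧ (0 < oN ∧ oN ≤ 1) ∧
      ∑ y ∈ Y, P.ex (fun ω => ∑ z ∈ Z y (W y ω), ∑ j ∈ (range N).filter (fun j => v y (W y ω) j + g ≤ v y (W y ω) z),
        Real.sqrt (prE (P.cond (W y) (W y ω)) (BadT (wo3 (D y (W y ω)) oK oG oN) j
          (C0 * q2 (2 * (m * ((v y (W y ω) z - v y (W y ω) j) / p))) * q2 ((D y (W y ω)).rk j))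
          (C0 * q2 (2 * (m * ((v y (W y ω) z - v y (W y ω) j) / p))) * q2 ((D y (W y ω)).a j))))) ≤
      Real.sqrt (12 * C0) * (Y.card * (N * (c * (2 * p * q2 (m * (g / p)))))) ∧
      ∑ y ∈ Y, P.ex (fun ω => ∑ r ∈ Zb y (W y ω), wb y (W y ω) r *
        (prE (P.cond (W y) (W y ω)) (fun ω' => Nb ((wo3 (D y (W y ω)) oK oG oN).rk (jb y (W y ω) r))
          ((wo3 (D y (W y ω)) oK oG oN).kR (jb y (W y ω) r) ω' + (wo3 (D y (W y ω)) oK oG oN).oK) (db y (W y ω) r)) +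
        prE (P.cond (W y) (W y ω)) (fun ω' => Nb ((wo3 (D y (W y ω)) oK oG oN).rk (jb y (W y ω) r))
          ((wo3 (D y (W y ω)) oK oG oN).gR (jb y (W y ω) r) ω' + (wo3 (D y (W y ω)) oK oG oN).oG)
            (db y (W y ω) r)))) ≤ 16 * (Y.card * MB) :=
  oT_gen P Y hY W D Y hY W D N hN v Z c g hc hm hp hZN hZ hC Zb jb wb db hw hd hMB hB

end Vale.Agent.P106.U.H101.OffT
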