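import Vale.Agent.P106.U.H101.FsW

/-!
# P106 / U / H101 : `oT_gen` with empty families; the offsets of the letter over the windows (helper101)

* **`oT_gen'`** : `oT_gen` without the hypotheses `Y.Nonempty`, `Y'.Nonempty`.
* **`oo_of`** : one choice of the offsets of the letter with `SD.FS` and the conclusion (B) for an arbitrary second family.
-/

set_option autoImplicit false

namespace Vale.Agent.P106.U.H101.OffT

open Finset Vale.Agent.P127 Vale.Agent.P127.Stk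
open Vale.Agent.P127.U.CellD
open Vale.Agent.P106.U.Cell Vale.Agent.P106.U.S3.PthW
open Vale.Agent.P106.U.H101.TN (BadT wo3)

variable {Ω : Type} [Fintype Ω]

/-- **[OT]**, general form, the families may be empty -/
theorem oT_gen' {κ κ' σ σ' α : Type*} [Inhabited κ] [Inhabited κ'] (P : Law Ω) (Y : Finset κ) (W : κ → Ω → σ)
    (D : κ → σ → Inp Ω) (Y' : Finset κ') (W' : κ' → Ω → σ') (D' : κ' → σ' → Inp Ω) (N : ℕ)
    (hN : 1 ≤ N) (v : κ → σ → ℕ → ℕ) (Z : κ → σ → Finset ℕ) (c g : ℕ) (hc : 1 ≤ c) {m p : ℕ} (hm : 1 ≤ m) (hp : 1 ≤ p)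
    (hZN : ∀ y ∈ Y, ∀ ω, 0 < P.w ω → Z y (W y ω) ⊆ range N)
    (hZ : ∀ y ∈ Y, ∀ ω, 0 < P.w ω → ∀ x, ((Z y (W y ω)).filter fun z => v y (W y ω) z = x).card ≤ c)
    {C0 : ℝ} (hC : 0 < C0)
    (Zb : κ' → σ' → Finset α) (jb : κ' → σ' → α → ℕ) (wb db : κ' → σ' → α → ℝ) (hw : ∀ y e r, 0 ≤ wb y e r)
    (hd : ∀ y e r, 0 ≤ db y e r) {MB : ℝ} (hMB : 0 < MB)
    (hB : ∀ y ∈ Y', ∀ ω, 0 < P.w ω → ∑ r ∈ Zb y (W' y ω), wb y (W' y ω) r *
      (2 ^ (D' y (W' y ω)).rk (jb y (W' y ω) r) * db y (W' y ω) r) ≤ MB) :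
    ∃ oK oG oN : ℝ, (0 < oK ∧ oK ≤ 1) ∧ (0 < oG ∧ oG ≤ 1) ∧ (0 < oN ∧ oN ≤ 1) ∧
      ∑ y ∈ Y, P.ex (fun ω => ∑ z ∈ Z y (W y ω), ∑ j ∈ (range N).filter (fun j => v y (W y ω) j + g ≤ v y (W y ω) z),
        Real.sqrt (prE (P.cond (W y) (W y ω)) (BadT (wo3 (D y (W y ω)) oK oG oN) j
          (C0 * q2 (2 * (m * ((v y (W y ω) z - v y (W y ω) j) / p))) * q2 ((D y (W y ω)).rk j))
          (C0 * q2 (2 * (m * ((v y (W y ω) z - v y (W y ω) j) / p))) * q2 ((D y (W y ω)).a j))))) ≤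
      Real.sqrt (12 * C0) * (Y.card * (N * (c * (2 * p * q2 (m * (g / p)))))) ∧
      ∑ y ∈ Y', P.ex (fun ω => ∑ r ∈ Zb y (W' y ω), wb y (W' y ω) r *
        (prE (P.cond (W' y) (W' y ω)) (fun ω' => Nb ((wo3 (D' y (W' y ω)) oK oG oN).rk (jb y (W' y ω) r))
          ((wo3 (D' y (W' y ω)) oK oG oN).kR (jb y (W' y ω) r) ω' + (wo3 (D' y (W' y ω)) oK oG oN).oK)
            (db y (W' y ω) r)) +
        prE (P.cond (W' y) (W' y ω)) (fun ω' => Nb ((wo3 (D' y (W' y ω)) oK oG oN).rk (jb y (W' y ω) r))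
          ((wo3 (D' y (W' y ω)) oK oG oN).gR (jb y (W' y ω) r) ω' + (wo3 (D' y (W' y ω)) oK oG oN).oG)
            (db y (W' y ω) r)))) ≤ 16 * (Y'.card * MB) := by
  rcases Y.eq_empty_or_nonempty with hY | hY
  · rcases Y'.eq_empty_or_nonempty with hY' | hY'
    · refine ⟨1, 1, 1, ⟨one_pos, le_rfl⟩, ⟨one_pos, le_rfl⟩, ⟨one_pos, le_rfl⟩, ?_, ?_⟩
      · subst hY
        simp
      · subst hY'
        simp
    · obtain ⟨oK, oG, oN, h1, h2, h3, -, h5⟩ := oT_gen (N := N) P {(default : κ)} (Finset.singleton_nonempty _) W D Y' hY' W' D'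
        hN v (fun _ _ => ∅) c g hc hm hp (fun _ _ _ _ => Finset.empty_subset _) (fun _ _ _ _ _ => by simp) hC Zb jb wb db hw
        hd hMB hB
      refine ⟨oK, oG, oN, h1, h2, h3, ?_, h5⟩
      subst hY
      simp
  · rcases Y'.eq_empty_or_nonempty with hY' | hY'
    · obtain ⟨oK, oG, oN, h1, h2, h3, h4, -⟩ := oT_gen (N := N) P Y hY W D {(default : κ')} (Finset.singleton_nonempty _) W' D'
        hN v Z c g hc hm hp hZN hZ hC (fun _ _ => (∅ : Finset α)) jb wb db hw hd hMB (fun _ _ _ _ => by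
          rw [Finset.sum_empty]
          exact hMB.le)
      refine ⟨oK, oG, oN, h1, h2, h3, h4, ?_⟩
      subst hY'
      simp
    · exact oT_gen (N := N) P Y hY W D Y' hY' W' D' hN v Z c g hc hm hp hZN hZ hC Zb jb wb db hw hd hMB hB

end Vale.Agent.P106.U.H101.OffT

namespace Vale.Agent.P106.U.H101.FsW

open Finset Vale.Agent.P127 Vale.Agent.P127.Stk Vale.Agent.P127.U
open Vale.Agent.P127.U.CellD (q2 Nb q2_pos)
open Vale.Agent.P106.U Vale.Agent.P106.U.H565 Vale.Agent.P106.U.H823.PathNum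
open Vale.Agent.P106.U.H61.PS
open Vale.Agent.P106.U.H712.Fam (Win Vl Pl)
open Vale.Agent.P106.U.S3.PthW (Inp)
open Vale.Agent.P106.U.H101.TN (BadT wo3)
open Vale.Agent.P106.U.H661

variable {σ : S5.Cst} {cc : ℝ} {J M Md : ℕ} {p : Par} {X0 R0 h0 : ℕ} {Ω : Type} [Fintype Ω]
  (x : Ctx σ cc J M Md p X0 R0 h0 Ω)

/-- **one choice of the offsets of the letter** for `SD.FS` and a second family -/
theorem oo_of (hK1 : 0 ≤ σ.K1) (hJ : 1 ≤ J) (hJh : (x.c.I.J : ℝ) + 4 ≤ (x.c.I.h : ℝ) / x.c.I.m) (o : Fin 7 → ℝ)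
    {κ' σ' α : Type*} [Inhabited κ'] (Y' : Finset κ') (W' : κ' → Ω → σ') (D' : κ' → σ' → Inp Ω)
    (Zb : κ' → σ' → Finset α) (jb : κ' → σ' → α → ℕ) (wb db : κ' → σ' → α → ℝ) (hw : ∀ y e r, 0 ≤ wb y e r)
    (hd : ∀ y e r, 0 ≤ db y e r) {MB : ℝ} (hMB : 0 < MB)
    (hB : ∀ y ∈ Y', ∀ ω, 0 < x.Q1.w ω → ∑ r ∈ Zb y (W' y ω), wb y (W' y ω) r *
      (2 ^ (D' y (W' y ω)).rk (jb y (W' y ω) r) * db y (W' y ω) r) ≤ MB) :
    ∃ oK oG oN : ℝ, (∀ K, SD.FS σ K cc J M Md p X0 R0 h0 Ω x ⟨o, oK, oG, oN⟩) ∧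
      ∑ y ∈ Y', x.Q1.ex (fun ω => ∑ r ∈ Zb y (W' y ω), wb y (W' y ω) r *
        (prE (x.Q1.cond (W' y) (W' y ω)) (fun ω' => Nb ((wo3 (D' y (W' y ω)) oK oG oN).rk (jb y (W' y ω) r))
          ((wo3 (D' y (W' y ω)) oK oG oN).kR (jb y (W' y ω) r) ω' + (wo3 (D' y (W' y ω)) oK oG oN).oK)
            (db y (W' y ω) r)) +
        prE (x.Q1.cond (W' y) (W' y ω)) (fun ω' => Nb ((wo3 (D' y (W' y ω)) oK oG oN).rk (jb y (W' y ω) r))
          ((wo3 (D' y (W' y ω)) oK oG oN).gR (jb y (W' y ω) r) ω' + (wo3 (D' y (W' y ω)) oK oG oN).oG)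
            (db y (W' y ω) r)))) ≤ 16 * (Y'.card * MB) := by
  have hm : 1 ≤ x.c.I.m := by
    have := x.hm
    omega
  have hJ' : 1 ≤ x.c.I.J := by
    rw [x.eJ]
    exact hJ
  obtain ⟨oK, oG, oN, -, -, -, hA, hB'⟩ := OffT.oT_gen' x.Q1 (aY x) (aW x o (SD.βr p)) (aD x o) Y' W' D' (SD.NT x.c)
    (by unfold SD.NT; omega) (av x o) (aZ x o p.B) (p.B + 1) p.g (Nat.le_add_left 1 p.B) hm (p := 4 * x.c.I.J) (by omega)
    (fun y _ ω _ => aZN x o p.B y _) (fun y _ ω _ l => aZc x o p.B y _ l)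
    (C0 := H711.C0 6 648) (by unfold H711.C0; norm_num) Zb jb wb db hw hd hMB hB
  refine ⟨oK, oG, oN, fun K => fS_of x hK1 hJh o oK oG oN ?_, hB'⟩
  rw [fr_of]
  exact hA

end Vale.Agent.P106.U.H101.FsW
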