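import Vale.Agent.P106.U.H101.OffS
import Vale.Agent.P106.U.H712.Fam

/-!
# P106 / U / H101 : row [OFF] for a window of caps (helper101)

* `Win.R_m`, `Win.R_Q`, `Win.nm_eq`, `Win.rk_ge` : size, law, numbers, precision of the records of a window (helper712's `Fam.Win`).
* `Win.c4` : the four costs of [OFF] at one place, levels `(Vs, Xs)`; `Win.c4a` : levels `(all, ∅)`; `Win.rw4` : the sums
  `sOff + sL + sK d + sP d`, levels `(all, ∅)`; `Win.sr4` : the sum of the square roots.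
* **`row_off`** : offsets for `(μ, K')` and a window of `T` caps, with
  `∑_(k < T) E[c4a] ≤ 300 / K' q2 (μ / 4) T`, `av c4 ≤` the same, `av (rw4 d) ≤ 900 K' (d + 1)² N q2 (μ / 4)² T`,
  `av (sr4 d) ≤ 200 (d + 1) √K' q2 (μ / 4) N T` (`n + J + 1 ≤ N` on good words).
* `cst_split` : the cost of helper61 is `c4` and the costs of the other rows.
-/

set_option autoImplicit false

namespace Vale.Agent.P106.U.H101.OffW

open Finset Vale.Agent.P127 Vale.Agent.P127.Stk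
open Vale.Agent.P127.U.CellD (q2 rd Nb q2_pos q2_le q2_add q2_mul_pow)
open Vale.Agent.P106.U.Cell Vale.Agent.P106.U.S3 Vale.Agent.P106.U.H565
open Vale.Agent.P106.U.H61.Ext2 Vale.Agent.P106.U.H101.Off
open Vale.Agent.P106.U.H712.Fam

variable {Ω : Type} [Fintype Ω]

section pt

variable {τ υ π : Type} {R : Run Ω τ υ} {p : Run.Num} {B bS bV : ℕ} {F : Pf R π} {Vs Xs : Finset ℕ} {μ : ℕ} {K' : ℝ}
    {o : Fin 7 → ℝ} {o' : ℕ → ℝ} {d : ℕ}

/-- the sums at one place from the costs -/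
theorem raw_le (hK : 0 < K') {N : ℝ} (hN : (R.n : ℝ) + p.J + 1 ≤ N) (hd : d ≤ B) :
    sOff R p bS μ K' o + sL R μ K' o o' + (sK R p B bV F Vs Xs μ K' o o' d + sP R p B bV F Vs Xs μ K' o o' d) ≤
      3 * (K' ^ 2 * ((d : ℝ) + 1) ^ 2 * N * q2 (μ / 4)) * o4 R p B bS bV F Vs Xs μ K' o o' := by
  have q4 := q2_pos (μ / 4)
  obtain ⟨c1, c2, c3⟩ := o4_ge (R := R) (p := p) (B := B) (bS := bS) (bV := bV) (F := F) (Vs := Vs) (Xs := Xs) (μ := μ)
    (o := o) (o' := o') hK le_rfl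
  have c4 := c3 d hd
  have c0 := o4_nonneg R p B bS bV F Vs Xs μ o o' hK
  set T := o4 R p B bS bV F Vs Xs μ K' o o' with hT
  have hn0 : (0 : ℝ) ≤ R.n + p.J + 1 := by positivity
  have hN0 : 0 ≤ N := hn0.trans hN
  have e1 : ∀ e ≤ d, tD R p μ K' e ≤ K' ^ 2 * ((d : ℝ) + 1) ^ 2 * N * q2 (μ / 4) := by
    intro e he
    unfold tD
    refine mul_le_mul_of_nonneg_right ?_ q4.le
    have e2 : ((e : ℝ) + 1) ^ 2 ≤ ((d : ℝ) + 1) ^ 2 := by
      have : (e : ℝ) ≤ d := by exact_mod_cast he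
      exact pow_le_pow_left₀ (by positivity) (by linarith) 2
    have e3 : K' ^ 2 * ((e : ℝ) + 1) ^ 2 ≤ K' ^ 2 * ((d : ℝ) + 1) ^ 2 := mul_le_mul_of_nonneg_left e2 (by positivity)
    exact mul_le_mul e3 hN (by positivity) (by positivity)
  have f1 := mul_le_mul_of_nonneg_left (e1 0 (Nat.zero_le d)) c0
  have f2 := mul_le_mul_of_nonneg_left (e1 d le_rfl) c0
  linarith

/-- the square roots at one place from the sums -/
theorem sq4_le (hm : 1 ≤ R.m) {N : ℝ} (hN : (R.n : ℝ) + p.J + 1 ≤ N) {t : ℝ} (ht : 0 < t) :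
    sq4 R p B bS bV F Vs Xs μ K' o o' d ≤
      (sOff R p bS μ K' o + sL R μ K' o o' + (sK R p B bV F Vs Xs μ K' o o' d + sP R p B bV F Vs Xs μ K' o o' d)) / t +
        t * (10 * N) := by
  rw [sq4_eq, ← a4_eq, Finset.sum_div]
  have h1 : ∀ y ∈ I4 R p B F Vs Xs d, Real.sqrt (a4 R bS bV F μ K' o o' y) ≤ a4 R bS bV F μ K' o o' y / t + t := by
    intro y _
    have h0 := a4_nonneg R bS bV F μ K' o o' y
    have h2 := Real.sq_sqrt h0
    have h3 := Real.sqrt_nonneg (a4 R bS bV F μ K' o o' y)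
    rw [div_add' _ _ _ ht.ne', le_div_iff₀ ht]
    nlinarith [sq_nonneg (Real.sqrt (a4 R bS bV F μ K' o o' y) - t)]
  refine (Finset.sum_le_sum h1).trans ?_
  rw [Finset.sum_add_distrib, Finset.sum_const, nsmul_eq_mul]
  have h4 := card_I4 R hm p B F Vs Xs d
  have h5 := mul_le_mul_of_nonneg_right (show ((I4 R p B F Vs Xs d).card : ℝ) ≤ 10 * N by linarith) ht.le
  linarith

end pt

end Vale.Agent.P106.U.H101.OffW

namespace Vale.Agent.P106.U.H712.Fam.Win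

open Finset Vale.Agent.P127 Vale.Agent.P127.Stk
open Vale.Agent.P127.U.CellD (q2 rd Nb q2_pos q2_le q2_add q2_mul_pow)
open Vale.Agent.P106.U.Cell Vale.Agent.P106.U.S3 Vale.Agent.P106.U.H565
open Vale.Agent.P106.U.H61.Ext2 Vale.Agent.P106.U.H101.Off Vale.Agent.P106.U.H101.OffW

variable {Ω : Type} [Fintype Ω] (w : Win Ω)

open Classical in
theorem R_m (k : ℕ) (z : Vl) : (w.R k z).m = w.c.I.m := by
  show (w.cv k z).I.m = _
  unfold cv
  split_ifs <;> rfl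

theorem R_Q {k : ℕ} {z : Vl} (hz : 0 < w.Q1.pr (w.Z k) z) : (w.R k z).Q = w.Q1.cond (w.Z k) z := by
  show (w.cv k z).Q = _
  rw [w.cv_eq hz]
  rfl

open Classical in
theorem nm_eq (k : ℕ) (z : Vl) : w.nm k z = w.c.I.num := by
  unfold nm cv
  split_ifs <;> rfl

open Classical in
theorem rk_ge (k : ℕ) (z : Vl) (i : ℕ) : w.c.I.rs ≤ (w.R k z).C.rk i := by
  have h1 : (w.cv k z).I.rs = w.c.I.rs := by
    unfold cv
    split_ifs <;> rfl
  rw [← h1]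
  exact Nat.le_add_right _ _

/-- the four costs of [OFF] at one place -/
noncomputable def c4 (p : Par) (μ : ℕ) (K' : ℝ) (o : Fin 7 → ℝ) (o' : ℕ → ℝ) (k : ℕ) (z : Vl) : ℝ :=
  o4 (w.R k z) (w.nm k z) p.B (w.bS p k) (w.bV p k) (w.F p k z) (w.Vs p k z) (w.Xs p k z) μ K' o o'

/-- the same, levels `(all, ∅)` -/
noncomputable def c4a (p : Par) (μ : ℕ) (K' : ℝ) (o : Fin 7 → ℝ) (o' : ℕ → ℝ) (k : ℕ) (z : Vl) : ℝ :=
  o4 (w.R k z) (w.nm k z) p.B (w.bS p k) (w.bV p k) (w.F p k z) (allV (w.R k z)) ∅ μ K' o o'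

/-- the sums of the exceptional probabilities at one place, levels `(all, ∅)` -/
noncomputable def rw4 (p : Par) (μ : ℕ) (K' : ℝ) (o : Fin 7 → ℝ) (o' : ℕ → ℝ) (d : ℕ) (k : ℕ) (z : Vl) : ℝ :=
  sOff (w.R k z) (w.nm k z) (w.bS p k) μ K' o + sL (w.R k z) μ K' o o' +
    (sK (w.R k z) (w.nm k z) p.B (w.bV p k) (w.F p k z) (allV (w.R k z)) ∅ μ K' o o' d +
      sP (w.R k z) (w.nm k z) p.B (w.bV p k) (w.F p k z) (allV (w.R k z)) ∅ μ K' o o' d)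

/-- the sum of their square roots -/
noncomputable def sr4 (p : Par) (μ : ℕ) (K' : ℝ) (o : Fin 7 → ℝ) (o' : ℕ → ℝ) (d : ℕ) (k : ℕ) (z : Vl) : ℝ :=
  sq4 (w.R k z) (w.nm k z) p.B (w.bS p k) (w.bV p k) (w.F p k z) (allV (w.R k z)) ∅ μ K' o o' d

variable {w}

theorem c4_le {p : Par} {μ : ℕ} {K' : ℝ} (hK : 0 < K') (o : Fin 7 → ℝ) (o' : ℕ → ℝ) (k : ℕ) (z : Vl) :
    w.c4 p μ K' o o' k z ≤ w.c4a p μ K' o o' k z := o4_all _ _ _ _ _ _ _ _ _ _ _ hK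

theorem c4_nonneg {p : Par} {μ : ℕ} {K' : ℝ} (hK : 0 < K') (o : Fin 7 → ℝ) (o' : ℕ → ℝ) (k : ℕ) (z : Vl) :
    0 ≤ w.c4 p μ K' o o' k z := o4_nonneg _ _ _ _ _ _ _ _ _ _ _ hK

theorem c4a_nonneg {p : Par} {μ : ℕ} {K' : ℝ} (hK : 0 < K') (o : Fin 7 → ℝ) (o' : ℕ → ℝ) (k : ℕ) (z : Vl) :
    0 ≤ w.c4a p μ K' o o' k z := o4_nonneg _ _ _ _ _ _ _ _ _ _ _ hK

theorem rw4_nonneg {p : Par} {μ : ℕ} {K' : ℝ} {o : Fin 7 → ℝ} {o' : ℕ → ℝ} {d k : ℕ} {z : Vl} :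
    0 ≤ w.rw4 p μ K' o o' d k z := add_nonneg (add_nonneg sOff_nonneg sL_nonneg) (add_nonneg sK_nonneg sP_nonneg)

/-- **the costs of the window** : `c4` and the costs of the other rows -/
theorem cst_split (p : Par) (μ : ℕ) (K' : ℝ) (o : Fin 7 → ℝ) (o' : ℕ → ℝ) (k : ℕ) (z : Vl) :
    w.cst p μ K' o o' k z = w.c4 p μ K' o o' k z +
      cJun (w.R k z) (w.nm k z) p.B (w.F p k z) (w.Vs p k z) (w.Xs p k z) μ K' o o' +
      ∑ d ∈ range (p.B + 1), (cS (w.R k z) (w.nm k z) p.B (w.bS p k) (w.Vs p k z) (w.Xs p k z) μ K' o d +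
        cV1 (w.R k z) (w.nm k z) p.B (w.bV p k) (w.F p k z) (w.Vs p k z) (w.Xs p k z) μ K' o o' d +
        cP1 (w.R k z) (w.nm k z) p.B (w.bV p k) (w.F p k z) (w.Vs p k z) (w.Xs p k z) μ K' o o' d +
        cV2 (w.R k z) (w.nm k z) p.B (w.bV p k) (w.F p k z) (w.Vs p k z) (w.Xs p k z) μ K' o o' d) := by
  unfold cst H61.Ext2.cst c4 o4
  simp only [Finset.sum_add_distrib]
  ring

/-- averages of nonnegative functions on all words bound those on good words -/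
theorem av_le_all {T : ℕ} {f : ℕ → Vl → ℝ} (hf : ∀ k z, 0 ≤ f k z) :
    w.av T f ≤ ∑ k ∈ range T, w.Q1.ex (fun ω => f k (w.Z k ω)) := by
  classical
  refine Finset.sum_le_sum fun k _ => w.Q1.ex_mono fun ω _ => ?_
  split_ifs
  · exact le_rfl
  · exact hf _ _

theorem av_mul {T : ℕ} (c : ℝ) (f : ℕ → Vl → ℝ) : w.av T (fun k z => c * f k z) = c * w.av T f := by
  classical
  unfold av
  rw [Finset.mul_sum]
  refine Finset.sum_congr rfl fun k _ => ?_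
  rw [← w.Q1.ex_const_mul]
  refine w.Q1.ex_congr fun ω _ => ?_
  split_ifs
  · rfl
  · rw [mul_zero]

theorem av_const_le {T : ℕ} {c : ℝ} (hc : 0 ≤ c) : w.av T (fun _ _ => c) ≤ T * c := by
  refine (av_le_all fun _ _ => hc).trans (le_of_eq ?_)
  have h1 : ∀ k ∈ range T, w.Q1.ex (fun _ => c) = c := fun k _ => by
    show ∑ ω, w.Q1.w ω * c = c
    rw [← Finset.sum_mul, w.Q1.sum_one, one_mul]
  rw [Finset.sum_congr rfl h1, Finset.sum_const, Finset.card_range, nsmul_eq_mul]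

theorem av_nonneg {T : ℕ} {f : ℕ → Vl → ℝ} (hf : ∀ k < T, ∀ z, 0 < w.Q1.pr (w.Z k) z → good k z → 0 ≤ f k z) :
    0 ≤ w.av T f := by
  classical
  refine Finset.sum_nonneg fun k hk => Finset.sum_nonneg fun ω _ => ?_
  rcases (w.Q1.nn ω).eq_or_lt with h | h
  · rw [← h, zero_mul]
  · refine mul_nonneg h.le ?_
    beta_reduce
    split_ifs with hg
    · exact hf k (Finset.mem_range.1 hk) _ (w.Q1.pr_pos _ h) hg
    · exact le_rfl

/-- **the sums, from the mean of the costs** -/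
theorem rw4_av {p : Par} {μ : ℕ} {K' : ℝ} (hK : 0 < K') {o : Fin 7 → ℝ} {o' : ℕ → ℝ} {T : ℕ}
    (h : ∑ k ∈ range T, w.Q1.ex (fun ω => w.c4a p μ K' o o' k (w.Z k ω)) ≤ 300 / K' * q2 (μ / 4) * T)
    {N : ℝ} (hN0 : 0 ≤ N)
    (hN : ∀ k < T, ∀ z, 0 < w.Q1.pr (w.Z k) z → good k z → ((w.R k z).n : ℝ) + (w.nm k z).J + 1 ≤ N) {d : ℕ} (hd : d ≤ p.B) :
    w.av T (w.rw4 p μ K' o o' d) ≤ 900 * K' * ((d : ℝ) + 1) ^ 2 * N * q2 (μ / 4) ^ 2 * T := by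
  have q4 := q2_pos (μ / 4)
  refine (w.av_mono (g := fun k z => 3 * (K' ^ 2 * ((d : ℝ) + 1) ^ 2 * N * q2 (μ / 4)) * w.c4a p μ K' o o' k z)
    fun k hk z hz hg => raw_le hK (hN k hk z hz hg) hd).trans ?_
  rw [av_mul]
  refine (mul_le_mul_of_nonneg_left ((av_le_all fun k z => c4a_nonneg hK o o' k z).trans h) (by positivity)).trans
    (le_of_eq ?_)
  field_simp
  ring

/-- **the square roots, from the mean of the costs** -/
theorem sr4_av {p : Par} {μ : ℕ} {K' : ℝ} (hK : 0 < K') (hm : 1 ≤ w.c.I.m) {o : Fin 7 → ℝ} {o' : ℕ → ℝ} {T : ℕ}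
    (h : ∑ k ∈ range T, w.Q1.ex (fun ω => w.c4a p μ K' o o' k (w.Z k ω)) ≤ 300 / K' * q2 (μ / 4) * T)
    {N : ℝ} (hN0 : 0 ≤ N)
    (hN : ∀ k < T, ∀ z, 0 < w.Q1.pr (w.Z k) z → good k z → ((w.R k z).n : ℝ) + (w.nm k z).J + 1 ≤ N) {d : ℕ} (hd : d ≤ p.B) :
    w.av T (w.sr4 p μ K' o o' d) ≤ 200 * (d + 1) * Real.sqrt K' * q2 (μ / 4) * N * T := by
  have q4 := q2_pos (μ / 4)
  have h1 := rw4_av hK h hN0 hN hd
  have hA : 0 ≤ w.av T (w.rw4 p μ K' o o' d) := av_nonneg fun _ _ _ _ _ => rw4_nonneg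
  have h2 : w.av T (w.sr4 p μ K' o o' d) ≤ 2 * Real.sqrt (w.av T (w.rw4 p μ K' o o' d) * (10 * N * T)) := by
    refine sqrt_opt hA (by positivity) fun t ht => ?_
    refine (w.av_mono (g := fun k z => 1 / t * w.rw4 p μ K' o o' d k z + t * (10 * N)) fun k hk z hz hg => ?_).trans ?_
    · have h3 := sq4_le (R := w.R k z) (p := w.nm k z) (B := p.B) (bS := w.bS p k) (bV := w.bV p k) (F := w.F p k z)
        (Vs := allV (w.R k z)) (Xs := ∅) (μ := μ) (K' := K') (o := o) (o' := o') (d := d)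
        (by rw [w.R_m]; exact hm) (hN k hk z hz hg) ht
      refine h3.trans (le_of_eq ?_)
      rw [one_div, inv_mul_eq_div]
      rfl
    · rw [av_add, av_mul]
      have h4 := av_const_le (w := w) (T := T) (show 0 ≤ t * (10 * N) by positivity)
      rw [one_div, inv_mul_eq_div]
      linarith
  have hT : (0 : ℝ) ≤ T := Nat.cast_nonneg _
  have hd1 : (0 : ℝ) < (d : ℝ) + 1 := by positivity
  have f1 : Real.sqrt (w.av T (w.rw4 p μ K' o o' d) * (10 * N * T)) ≤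
      100 * ((d : ℝ) + 1) * Real.sqrt K' * q2 (μ / 4) * N * T := by
    refine Real.sqrt_le_iff.2 ⟨by positivity, ?_⟩
    refine (mul_le_mul_of_nonneg_right h1 (by positivity)).trans ?_
    have f2 := Real.sq_sqrt hK.le
    have f4 : (100 * ((d : ℝ) + 1) * Real.sqrt K' * q2 (μ / 4) * N * T) ^ 2 =
        10000 * ((d + 1) ^ 2 * K' * q2 (μ / 4) ^ 2 * N ^ 2 * T ^ 2) := by
      have : (100 * ((d : ℝ) + 1) * Real.sqrt K' * q2 (μ / 4) * N * T) ^ 2 =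
        10000 * ((d + 1) ^ 2 * (Real.sqrt K') ^ 2 * q2 (μ / 4) ^ 2 * N ^ 2 * T ^ 2) := by ring
      rw [this, f2]
    rw [f4]
    have f5 : 0 ≤ ((d : ℝ) + 1) ^ 2 * K' * q2 (μ / 4) ^ 2 * N ^ 2 * T ^ 2 := by positivity
    nlinarith
  linarith

/-- **row [OFF]**, one window of `T` caps -/
theorem row_off (w : Win Ω) (hm : 1 ≤ w.c.I.m) (p : Par) {μ : ℕ} {K' : ℝ} (hK : 0 < K') (hr : μ / 2 ≤ w.c.I.rs) (T : ℕ) :
    ∃ (o : Fin 7 → ℝ) (o' : ℕ → ℝ), ((∀ k, 0 < o k ∧ o k ≤ 1) ∧ ∀ k, 0 < o' k ∧ o' k ≤ 1) ∧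
      (∑ k ∈ range T, w.Q1.ex (fun ω => w.c4a p μ K' o o' k (w.Z k ω)) ≤ 300 / K' * q2 (μ / 4) * T) ∧
      (w.av T (w.c4 p μ K' o o') ≤ 300 / K' * q2 (μ / 4) * T) ∧
      ∀ N : ℝ, 0 ≤ N →
        (∀ k < T, ∀ z, 0 < w.Q1.pr (w.Z k) z → good k z → ((w.R k z).n : ℝ) + (w.nm k z).J + 1 ≤ N) → ∀ d ≤ p.B,
        w.av T (w.rw4 p μ K' o o' d) ≤ 900 * K' * ((d : ℝ) + 1) ^ 2 * N * q2 (μ / 4) ^ 2 * T ∧
        w.av T (w.sr4 p μ K' o o' d) ≤ 200 * (d + 1) * Real.sqrt K' * q2 (μ / 4) * N * T := by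
  obtain ⟨o, o', h1, h2⟩ := off_row w.Q1 (range T) (fun k => w.Z k) (fun k z => w.R k z) w.c.I.num p.B
    (fun k z => w.F p k z) (fun k z => allV (w.R k z)) (fun _ _ => ∅) (fun k _ => w.bS p k) (fun k _ => w.bV p k)
    (fun k _ ω hω => w.R_Q (w.Q1.pr_pos _ hω)) (fun k _ ω _ => by rw [w.R_m]; exact hm) hK
    (fun k _ ω _ i => hr.trans (w.rk_ge k _ i))
  have h3 : ∑ k ∈ range T, w.Q1.ex (fun ω => w.c4a p μ K' o o' k (w.Z k ω)) ≤ 300 / K' * q2 (μ / 4) * T := by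
    rw [Finset.card_range] at h2
    refine le_trans (le_of_eq ?_) h2
    refine Finset.sum_congr rfl fun k _ => w.Q1.ex_congr fun ω _ => ?_
    unfold c4a o4
    rw [w.nm_eq, cOff_eq (w.R k (w.Z k ω)) w.c.I.num p.B (w.bS p k) (w.bV p k) (w.F p k (w.Z k ω)) (allV (w.R k (w.Z k ω))) ∅
      μ K' o o', cOffL_eq]
    rfl
  exact ⟨o, o', h1, h3, (w.av_mono fun k _ z _ _ => c4_le hK o o' k z).trans
    ((av_le_all fun k z => c4a_nonneg hK o o' k z).trans h3),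
    fun N hN0 hN d hd => ⟨rw4_av hK h3 hN0 hN hd, sr4_av hK hm h3 hN0 hN hd⟩⟩

end Vale.Agent.P106.U.H712.Fam.Win
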