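import Vale.Agent.P106.U.H101.OffT2
import Vale.Agent.P106.U.H127.JunRow

/-!
# P106 / U / H101 : row [OT] (helper101)

* **`rowOT : RowOT SD.FS FJ`** : one choice of the offsets of the letter for helper661's far sums and helper127's junctions.
-/

set_option autoImplicit false

namespace Vale.Agent.P106.U.H61.PS

open Finset Vale.Agent.P127 Vale.Agent.P127.Stk
open Vale.Agent.P106.U.H661 Vale.Agent.P106.U.H101

/-- **row [OT]** -/
theorem rowOT : RowOT SD.FS FJ := by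
  intro σ hσ K Cψ cc J M Md hC
  have hK1 : 0 ≤ σ.K1 := hσ.bs.K10.le
  have hJ : 1 ≤ J := by
    have := hC.J3
    omega
  refine ⟨16, fun m hm => ⟨0, fun B _ => ⟨0, fun g _ => ⟨0, fun D0 _ s L hs _ _ => ⟨0, fun k1 _ => ⟨1, fun Tc hT =>
    ⟨0, 0, m * (J + 4), fun X0 R0 h0 _ _ hh => ?_⟩⟩⟩⟩⟩⟩⟩
  intro Ω _ x
  have hm0 : (0 : ℝ) < m := by exact_mod_cast (show 0 < m by omega)
  have hJh : (x.c.I.J : ℝ) + 4 ≤ (x.c.I.h : ℝ) / x.c.I.m := by
    have e1 : x.c.I.m = m := x.em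
    have e2 := x.eJ
    have e3 : m * (J + 4) ≤ x.c.I.h := hh.trans x.hh
    rw [e1, e2, le_div_iff₀ hm0]
    have e4 : ((m * (J + 4) : ℕ) : ℝ) ≤ x.c.I.h := by exact_mod_cast e3
    push_cast at e4
    linarith
  obtain ⟨oK, oG, oN, h1, h2⟩ := FsW.oo_of x hK1 hJ hJh (fun _ => 1) x.jY x.jX (x.jD fun _ => 1) (x.jZ fun _ => 1)
    (fun _ _ r => r.2) (x.jW fun _ => 1) (x.jR fun _ => 1) (x.jW_nonneg _) (x.jR_nonneg _) (MB := 1536 * J)
    (by
      have : (1 : ℝ) ≤ J := by exact_mod_cast hJ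
      positivity) (x.jhB hm _)
  exact ⟨⟨fun _ => 1, oK, oG, oN⟩, h1 K, x.fJ_of hT hs _ h2⟩

end Vale.Agent.P106.U.H61.PS
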