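import Vale.Agent.P106.U.H101.OffW
import Vale.Agent.P106.U.H61.PDef

/-!
# P106 / U / H101 : row [OFF] (helper101)

* `Win.off_fam` : one choice of the offsets for a finite family of windows with the same law and numbers, `T` caps each.
* **`rowOff : RowOff`** (helper61's row).
-/

set_option autoImplicit false

namespace Vale.Agent.P106.U.H101.Off

open Finset Vale.Agent.P127 Vale.Agent.P127.Stk
open Vale.Agent.P127.U.CellD (q2 rd Nb q2_pos q2_le q2_add q2_mul_pow)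
open Vale.Agent.P106.U.Cell Vale.Agent.P106.U.S3 Vale.Agent.P106.U.H565
open Vale.Agent.P106.U.H61.Ext2 Vale.Agent.P106.U.H101.OffW
open Vale.Agent.P106.U.H712.Fam Vale.Agent.P106.U.H712.Fam.Win

variable {Ω : Type} [Fintype Ω]

/-- **row [OFF]**, a family of windows of `T` caps -/
theorem off_fam {ι : Type} (S : Finset ι) (W : ι → Win Ω) (Q1 : Law Ω) (hQ : ∀ i, (W i).Q1 = Q1) (pn : Run.Num)
    (hn : ∀ i, (W i).c.I.num = pn) (hm : ∀ i, 1 ≤ (W i).c.I.m) (p : H712.Fam.Par) {μ : ℕ} {K' : ℝ} (hK : 0 < K')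
    (hr : ∀ i, μ / 2 ≤ (W i).c.I.rs) (T : ℕ) :
    ∃ (o : Fin 7 → ℝ) (o' : ℕ → ℝ), ((∀ k, 0 < o k ∧ o k ≤ 1) ∧ ∀ k, 0 < o' k ∧ o' k ≤ 1) ∧
      ∑ i ∈ S, ∑ k ∈ range T, (W i).Q1.ex (fun ω => (W i).c4a p μ K' o o' k ((W i).Z k ω)) ≤
        300 / K' * q2 (μ / 4) * (S.card * T) := by
  obtain ⟨o, o', h1, h2⟩ := off_row Q1 (S ×ˢ range T) (fun y => (W y.1).Z y.2) (fun y z => (W y.1).R y.2 z) pn p.B
    (fun y z => (W y.1).F p y.2 z) (fun y z => allV ((W y.1).R y.2 z)) (fun _ _ => ∅) (fun y _ => (W y.1).bS p y.2)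
    (fun y _ => (W y.1).bV p y.2)
    (fun y _ ω hω => by
      have h := (W y.1).R_Q (k := y.2) ((W y.1).Q1.pr_pos ((W y.1).Z y.2) (show 0 < (W y.1).Q1.w ω by rw [hQ]; exact hω))
      rw [h, hQ])
    (fun y _ ω _ => by rw [(W y.1).R_m]; exact hm _) hK
    (fun y _ ω _ i => (hr y.1).trans ((W y.1).rk_ge y.2 _ i))
  refine ⟨o, o', h1, ?_⟩
  rw [Finset.card_product, Finset.card_range, Nat.cast_mul, Finset.sum_product] at h2
  refine le_trans (le_of_eq ?_) h2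
  refine Finset.sum_congr rfl fun i _ => Finset.sum_congr rfl fun k _ => ?_
  rw [hQ]
  refine Q1.ex_congr fun ω _ => ?_
  unfold c4a o4
  rw [(W i).nm_eq, hn, cOff_eq ((W i).R k ((W i).Z k ω)) pn p.B ((W i).bS p k) ((W i).bV p k) ((W i).F p k ((W i).Z k ω))
    (allV ((W i).R k ((W i).Z k ω))) ∅ μ K' o o', cOffL_eq]
  rfl

end Vale.Agent.P106.U.H101.Off

namespace Vale.Agent.P106.U.H61.PS

open Finset Vale.Agent.P127 Vale.Agent.P127.Stk
open Vale.Agent.P127.U.CellD (q2 q2_pos)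
open Vale.Agent.P106.U.H712.Fam Vale.Agent.P106.U.H101.Off

/-- **row [OFF]** -/
theorem rowOff : RowOff := by
  intro σ _ K Cψ cc J M Md _
  refine ⟨0, fun m _ => ⟨0, fun B _ => ⟨0, fun g _ => ⟨0, fun D0 _ s L hs _ _ => ⟨0, fun k1 _ => ⟨1, fun Tc hT =>
    ⟨B, 0, 0, fun X0 R0 h0 hX _ _ => ?_⟩⟩⟩⟩⟩⟩⟩
  intro Ω _ x oo μ K' hμ hK
  have hrs : μ / 2 ≤ x.c.I.rs := by
    have h1 := x.hX0
    have h2 : μ ≤ B := hμ
    omega
  have hm : 1 ≤ x.c.I.m := by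
    have := x.hm
    omega
  obtain ⟨o, o', h1, h2⟩ := off_fam x.bs (fun b => x.win oo b) x.Q1 (fun _ => rfl) x.c.I.num (fun _ => rfl)
    (fun _ => hm) (Par.fp ⟨m, B, g, D0, s, L, k1, Tc⟩) (μ := μ) hK (fun _ => hrs) (2 * Tc)
  refine ⟨o, o', h1, ?_⟩
  have q4 := q2_pos (μ / 4)
  have hc : (x.bs.card : ℝ) ≤ x.nB := by
    have e1 : x.bs.card ≤ x.nB + 1 - Tc * s := (Finset.card_filter_le _ _).trans (le_of_eq (Finset.card_range _))
    have e2 : 1 ≤ Tc * s := Nat.mul_pos hT hs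
    have e3 : x.bs.card ≤ x.nB := by omega
    exact_mod_cast e3
  refine le_trans ?_ (h2.trans ?_)
  · unfold Ctx.mean
    exact Finset.sum_le_sum fun b _ => Win.av_le_all fun k z => Win.c4a_nonneg hK o o' k z
  · push_cast
    have e4 : (x.bs.card : ℝ) * (2 * (Tc : ℝ)) ≤ x.nB * (2 * (Tc : ℝ)) := mul_le_mul_of_nonneg_right hc (by positivity)
    have e5 := mul_le_mul_of_nonneg_left e4 (show 0 ≤ 300 / K' * q2 (μ / 4) by positivity)
    refine e5.trans (le_of_eq ?_)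
    show _ = 600 / K' * q2 (μ / 4) * ((x.nB : ℝ) * (Tc : ℝ))
    ring

end Vale.Agent.P106.U.H61.PS
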