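import Vale.Agent.P106.U.H661.SOld

/-!
# P106 / U / H101 : row [S], one place: the kap-old steps are labels (helper101)

* `R_eq`, `nm_eq'` : the record of a window at a value of positive probability is `x.R`, its numbers `(x.C ..).num`.
* `yn_kp` : 715's `yn` is the age of 661's `kp`.
* **`place`** : the kap-old part of the sum of row [S] at a good place is at most the sum over the labels `(a, r)` of the left sides of
  661's `lab_x`, plus `(g + 1) (B + 1) log nFew` (levels `a ≤ g`).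
-/

set_option autoImplicit false

namespace Vale.Agent.P106.U.H101.SPlace

open Finset Vale.Agent.P127 Vale.Agent.P127.Stk Vale.Agent.P127.U Vale.Agent.P106.W
open Vale.Agent.P127.U.CellD (q2)
open Vale.Agent.P106.U Vale.Agent.P106.U.H449
open Vale.Agent.P106.U.H565 Vale.Agent.P106.U.H823.NumW Vale.Agent.P106.U.H823.PathNum
open Vale.Agent.P106.U.H823.PathP
open Vale.Agent.P106.U.H61.PS Vale.Agent.P106.U.H61.Reg
open Vale.Agent.P106.U.H661.SPair Vale.Agent.P106.U.H661.SPairB Vale.Agent.P106.U.H661.SLab Vale.Agent.P106.U.H661.Age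
open Vale.Agent.P106.U.H661.SD
open Vale.Agent.P106.U.H661.FewX (Few)
open Vale.Agent.P106.U.H715.KapS Vale.Agent.P106.U.H523.FewS Vale.Agent.P106.U.H715.OldS
open Vale.Agent.P106.U.H712.Fam (Win Vl Pl)
open Vale.Agent.P106.U.H712.Fam.Win (good)
open Vale.Agent.P106.U.S3 (Run Pf LTh LDk At' IdO F2b lv)
open Vale.Agent.P106.U.H101 (lc)

variable {σ : S5.Cst} {cc : ℝ} {J M Md : ℕ} {p : H61.PS.Par} {X0 R0 h0 : ℕ} {Ω : Type} [Fintype Ω]
  (x : Ctx σ cc J M Md p X0 R0 h0 Ω)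

/-- the record of the window -/
theorem R_eq (oo : Oo) {b0 k : ℕ} {z : Vl} (hz : 0 < x.Q1.pr (x.w b0 k) z) : (x.win oo b0).R k z = x.R oo b0 k z hz := by
  have e : (x.win oo b0).cv k z = x.C oo b0 k z hz := (x.win oo b0).cv_eq hz
  have key : ∀ (C' : C2 Ω) (h3 : 3 ≤ C'.I.m), C' = x.C oo b0 k z hz → C'.erun h3 = x.R oo b0 k z hz := by
    intro C' h3 hC
    subst hC
    rfl
  exact key _ _ e

theorem nm_eq' (oo : Oo) {b0 k : ℕ} {z : Vl} (hz : 0 < x.Q1.pr (x.w b0 k) z) :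
    (x.win oo b0).nm k z = (x.C oo b0 k z hz).num := by
  have e : (x.win oo b0).cv k z = x.C oo b0 k z hz := (x.win oo b0).cv_eq hz
  show ((x.win oo b0).cv k z).num = _
  rw [e]

/-- 715's young caps in the form of 661's index -/
theorem yn_kp (oo : Oo) {b0 k a d : ℕ} (ω : Ω) :
    yn (x.win oo b0) (H715.RegC.Fo x.c x.E1) (MM p) p.g d p.k1 k (x.w b0 k ω) a ↔ ag (kp x b0 a d) k ω < p.k1 :=
  yn_iff (x.win oo b0) ω

variable {x}

open Classical in
/-- **one place** : the kap-old part of row [S] -/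
theorem place (n : Nu x) {oo : Oo} {b0 k d μ : ℕ} {ω0 : Ω} (hω0 : 0 < x.Q1.w ω0) (hμ : μ ≤ p.B) (hd : d ≤ p.B)
    (h8 : 8 * p.B < b0) (hg : good k (x.w b0 k ω0)) (o : Fin 7 → ℝ) :
    yS ((x.win oo b0).R k (x.w b0 k ω0)) ((x.win oo b0).nm k (x.w b0 k ω0)) p.B ((x.win oo b0).bS p.fp k)
      ((x.win oo b0).Vs p.fp k (x.w b0 k ω0)) ((x.win oo b0).Xs p.fp k (x.w b0 k ω0)) μ o d
      (fun a => ¬ yn (x.win oo b0) (H715.RegC.Fo x.c x.E1) (MM p) p.g d p.k1 k (x.w b0 k ω0) a) ≤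
    ∑ y ∈ range (x.c.I.ha + 1) ×ˢ range (p.B + 1),
      (if h : p.k1 ≤ ag (kp x b0 y.1 d) k ω0 ∧ (lD x oo b0 μ o y.1 y.2 d).val k (x.w b0 k ω0) then
        mi (x.Q1.cond (x.w b0 k) (x.w b0 k ω0)) ((lD x oo b0 μ o y.1 y.2 d).Tv k (x.w b0 k ω0) h.2)
          ((lD x oo b0 μ o y.1 y.2 d).Ev k (x.w b0 k ω0) h.2) ((lD x oo b0 μ o y.1 y.2 d).Dv k (x.w b0 k ω0) h.2) else 0) +
      (p.g + 1) * (p.B * Real.log (nFew p.m p.B μ)) := by
  have hz : 0 < x.Q1.pr (x.w b0 k) (x.w b0 k ω0) := x.Q1.pr_pos _ hω0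
  have hOk : x.Ok oo 0 b0 k (x.w b0 k ω0) := x.ok oo hz h8 (Nat.zero_le _) hg
  obtain ⟨Ac, rc, Hy⟩ := hOk.hyp
  have hH : Has (x.C oo b0 k (x.w b0 k ω0) hz).D (x.R oo b0 k (x.w b0 k ω0) hz) (x.C oo b0 k (x.w b0 k ω0) hz).num :=
    x.hasO oo hz hg
  have hL0 : 0 ≤ Real.log (nFew p.m p.B μ) := Real.log_natCast_nonneg _
  rw [R_eq x oo hz, nm_eq' x oo hz]
  -- the steps
  unfold yS
  obtain ⟨S, hS⟩ : ∃ S : Finset ℕ, S = (IdO (x.R oo b0 k (x.w b0 k ω0) hz) ((x.win oo b0).Vs p.fp k (x.w b0 k ω0))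
      ((x.win oo b0).Xs p.fp k (x.w b0 k ω0))).filter (fun i => ¬ yn (x.win oo b0) (H715.RegC.Fo x.c x.E1) (MM p) p.g d p.k1 k
        (x.w b0 k ω0) (lv (x.R oo b0 k (x.w b0 k ω0) hz) i)) := ⟨_, rfl⟩
  refine le_trans (le_of_eq (Finset.sum_congr (s₂ := S) (by
    rw [hS]
    ext i
    simp only [Finset.mem_filter]) fun _ _ => rfl)) ?_
  have hSn : ∀ i ∈ S, i ≤ (x.C oo b0 k (x.w b0 k ω0) hz).D.n ∧
      p.k1 ≤ ag (kp x b0 ((x.C oo b0 k (x.w b0 k ω0) hz).D.L.lev i) d) k ω0 := by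
    intro i hi
    rw [hS] at hi
    obtain ⟨h1, h2⟩ := Finset.mem_filter.1 hi
    have h3 : i ≤ (x.C oo b0 k (x.w b0 k ω0) hz).D.n := (Finset.mem_Icc.1 (Finset.mem_filter.1 h1).1).2
    have h4 : lv (x.R oo b0 k (x.w b0 k ω0) hz) i = (x.C oo b0 k (x.w b0 k ω0) hz).D.L.lev i :=
      H61.Reg.lv_eq hH (h3.trans (PN.n_le _))
    rw [h4, yn_kp x oo] at h2
    exact ⟨h3, not_lt.1 h2⟩
  have hSN : ∀ i ∈ S, i ≤ (x.C oo b0 k (x.w b0 k ω0) hz).D.N := fun i hi => (hSn i hi).1.trans (PN.n_le _)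
  have hSA : ∀ i ∈ S, (x.C oo b0 k (x.w b0 k ω0) hz).D.L.lev i < x.c.I.ha + 1 := by
    intro i hi
    have h1 := H428.RunPt.li_le (x.C oo b0 k (x.w b0 k ω0) hz) i
    rw [PN.li_eq _ (hSN i hi)] at h1
    have h2 : x.c.I.Ab + x.c.I.J + 4 ≤ x.c.I.A'b := x.good.Ab1
    have h3 : x.c.I.A'b + x.c.I.J + 4 ≤ x.c.I.ha := x.good.Ab2
    have h4 : (x.C oo b0 k (x.w b0 k ω0) hz).D.L.lev i ≤ x.c.I.Ab + x.c.I.J := h1
    omega
  rw [H61.Reg.sum_pair hH S hSN hSA]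
  obtain ⟨ind, hind⟩ : ∃ ind : ℕ → ℕ → Prop, ind = fun a r => r ≤ (x.C oo b0 k (x.w b0 k ω0) hz).D.L.J a ∧
      (x.C oo b0 k (x.w b0 k ω0) hz).D.L.J a - r < (x.C oo b0 k (x.w b0 k ω0) hz).D.L.J (a + d) ∧
        (x.C oo b0 k (x.w b0 k ω0) hz).D.L.J (a + d) ≤ (x.C oo b0 k (x.w b0 k ω0) hz).D.L.J a - r + p.B := ⟨_, rfl⟩
  -- every term
  have key : ∀ y ∈ range (x.c.I.ha + 1) ×ˢ range (p.B + 1),
      (if (x.C oo b0 k (x.w b0 k ω0) hz).D.L.J y.1 - y.2 ∈ S ∧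
        beg (x.C oo b0 k (x.w b0 k ω0) hz).D.L y.1 + y.2 ≤ (x.C oo b0 k (x.w b0 k ω0) hz).D.L.J y.1 ∧
        (x.C oo b0 k (x.w b0 k ω0) hz).D.L.J y.1 - y.2 < (x.C oo b0 k (x.w b0 k ω0) hz).D.L.J (y.1 + d) ∧
        (x.C oo b0 k (x.w b0 k ω0) hz).D.L.J (y.1 + d) ≤ (x.C oo b0 k (x.w b0 k ω0) hz).D.L.J y.1 - y.2 + p.B ∧
        (x.C oo b0 k (x.w b0 k ω0) hz).D.L.J (y.1 + d) < (x.C oo b0 k (x.w b0 k ω0) hz).D.N then
        mi (x.R oo b0 k (x.w b0 k ω0) hz).Q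
          (LTh (lc (x.R oo b0 k (x.w b0 k ω0) hz).C μ o)
            ((x.R oo b0 k (x.w b0 k ω0) hz).m * (x.R oo b0 k (x.w b0 k ω0) hz).b1)
            ((x.C oo b0 k (x.w b0 k ω0) hz).D.L.J (y.1 + d)))
          ((lc (x.R oo b0 k (x.w b0 k ω0) hz).C μ o).cell ((x.C oo b0 k (x.w b0 k ω0) hz).D.L.J y.1 - y.2)
            ((x.win oo b0).bS p.fp k))
          (LDk (lc (x.R oo b0 k (x.w b0 k ω0) hz).C μ o)
            ((x.R oo b0 k (x.w b0 k ω0) hz).m * (x.R oo b0 k (x.w b0 k ω0) hz).b1)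
            ((x.C oo b0 k (x.w b0 k ω0) hz).D.L.J y.1 - y.2)) else 0) ≤
      (if h : p.k1 ≤ ag (kp x b0 y.1 d) k ω0 ∧ (lD x oo b0 μ o y.1 y.2 d).val k (x.w b0 k ω0) then
        mi (x.Q1.cond (x.w b0 k) (x.w b0 k ω0)) ((lD x oo b0 μ o y.1 y.2 d).Tv k (x.w b0 k ω0) h.2)
          ((lD x oo b0 μ o y.1 y.2 d).Ev k (x.w b0 k ω0) h.2) ((lD x oo b0 μ o y.1 y.2 d).Dv k (x.w b0 k ω0) h.2) else 0) +
      (if y.1 < p.g + 1 ∧ ind y.1 y.2 then Real.log (nFew p.m p.B μ) else 0) := by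
    rintro ⟨a, r⟩ hy
    rw [Finset.mem_product, Finset.mem_range, Finset.mem_range] at hy
    have hR0 : 0 ≤ (if h : p.k1 ≤ ag (kp x b0 a d) k ω0 ∧ (lD x oo b0 μ o a r d).val k (x.w b0 k ω0) then
        mi (x.Q1.cond (x.w b0 k) (x.w b0 k ω0)) ((lD x oo b0 μ o a r d).Tv k (x.w b0 k ω0) h.2)
          ((lD x oo b0 μ o a r d).Ev k (x.w b0 k ω0) h.2) ((lD x oo b0 μ o a r d).Dv k (x.w b0 k ω0) h.2) else 0) := by
      split_ifs
      · exact mi_nonneg _ _ _ _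
      · exact le_rfl
    dsimp only
    split_ifs with h1 h2 h3 h3
    · -- both
      refine le_trans (le_of_eq ?_) (le_add_of_nonneg_right hL0)
      rfl
    · refine le_trans (le_of_eq ?_) (le_add_of_nonneg_right (le_refl 0))
      rfl
    · -- small level
      rw [zero_add]
      refine (mi_le_hc _ _ _ _).trans ?_
      have hm1 := n.hm
      have h4 := few_c2_a (hm := x.hm) (B := p.B) (μ := μ) (o := o) (b := x.c.I.m * (b0 + k * p.s))
        (k := (x.C oo b0 k (x.w b0 k ω0) hz).D.L.J a - r) (i := (x.C oo b0 k (x.w b0 k ω0) hz).D.L.J (a + d)) Hy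
        (C1.mk2_hx (c := x.c.c1 x.good x.cn) (hm := x.hm) (cc := cc) (in0 := x.St.in0) (hc := x.hc) (hz := hz) (ps := 4)
          (o := oo.o) (oK := oo.oK) (oG := oo.oG) (oN := oo.oN) (C0.zW_hw x.Q1 (le_refl k)))
        h1.2.2.1.le h1.2.2.2.1 h1.2.2.2.2.le (by rw [Lv.kd_J]) (by
          show μ ≤ x.c.I.m * x.c.I.B
          rw [x.em, x.eB]
          exact hμ.trans (Nat.le_mul_of_pos_left _ hm1)) (by
          calc 8 * μ ≤ 1 * (b0 + k * p.s) := by omega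
            _ ≤ _ := Nat.mul_le_mul_right _ (by rw [x.em]; exact hm1)) (by
          have := n.hrs
          show 8 * μ ≤ x.c.I.rs
          omega)
      have e1 : (x.C oo b0 k (x.w b0 k ω0) hz).I.m = p.m := x.em
      rw [e1] at h4
      exact hc_le_log _ _ _ _ h4
    · exfalso
      have hga : p.g < a := by
        by_contra hc
        exact h3 ⟨by omega, by rw [hind]; exact ⟨by omega, h1.2.2.1, h1.2.2.2.1⟩⟩
      have hS1 := hSn _ h1.1
      have hlv : (x.C oo b0 k (x.w b0 k ω0) hz).D.L.lev ((x.C oo b0 k (x.w b0 k ω0) hz).D.L.J a - r) = a :=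
        lev_sub _ h1.2.1
      rw [hlv] at hS1
      exact h2 ⟨hS1.2, hOk, ⟨by omega, hd, hga, h1.2.1, hS1.1, h1.2.2.1, h1.2.2.2.1, h1.2.2.2.2⟩⟩
    · exact add_nonneg (mi_nonneg _ _ _ _) hL0
    · exact add_nonneg (mi_nonneg _ _ _ _) le_rfl
    · exact add_nonneg le_rfl hL0
    · exact add_nonneg le_rfl le_rfl
  refine (Finset.sum_le_sum key).trans ?_
  rw [Finset.sum_add_distrib]
  refine add_le_add le_rfl ?_
  rw [Finset.sum_product]
  have e2 : ∀ a ∈ range (x.c.I.ha + 1), ∑ r ∈ range (p.B + 1), (if a < p.g + 1 ∧ ind a r then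
      Real.log (nFew p.m p.B μ) else 0) ≤ if a < p.g + 1 then p.B * Real.log (nFew p.m p.B μ) else 0 := by
    intro a _
    by_cases ha : a < p.g + 1
    · rw [if_pos ha, ← Finset.sum_filter, Finset.sum_const, nsmul_eq_mul]
      refine mul_le_mul_of_nonneg_right ?_ hL0
      have h6 : ((range (p.B + 1)).filter fun r => a < p.g + 1 ∧ ind a r).card ≤ (range p.B).card := by
        refine Finset.card_le_card_of_injOn (fun r => (x.C oo b0 k (x.w b0 k ω0) hz).D.L.J (a + d) + r -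
          (x.C oo b0 k (x.w b0 k ω0) hz).D.L.J a - 1) ?_ ?_
        · intro r hr
          have h7 := (Finset.mem_filter.1 (Finset.mem_coe.1 hr)).2.2
          rw [hind] at h7
          obtain ⟨q1, q2, q3⟩ := h7
          simp only [Finset.coe_range, Set.mem_Iio]
          omega
        · intro r hr r' hr' he
          have h7 := (Finset.mem_filter.1 (Finset.mem_coe.1 hr)).2.2
          have h8 := (Finset.mem_filter.1 (Finset.mem_coe.1 hr')).2.2
          rw [hind] at h7 h8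
          obtain ⟨q1, q2, q3⟩ := h7
          obtain ⟨q4, q5, q6⟩ := h8
          simp only at he
          omega
      rw [Finset.card_range] at h6
      exact_mod_cast h6
    · rw [if_neg ha]
      refine Finset.sum_nonpos fun r _ => ?_
      rw [if_neg fun h => ha h.1]
  refine (Finset.sum_le_sum e2).trans ?_
  rw [← Finset.sum_filter, Finset.sum_const, nsmul_eq_mul]
  have h5 : (((range (x.c.I.ha + 1)).filter fun a => a < p.g + 1).card : ℝ) ≤ p.g + 1 := by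
    have h6 : ((range (x.c.I.ha + 1)).filter fun a => a < p.g + 1) ⊆ range (p.g + 1) := fun a ha =>
      Finset.mem_range.2 (Finset.mem_filter.1 ha).2
    have h7 := Finset.card_le_card h6
    rw [Finset.card_range] at h7
    exact_mod_cast h7
  exact mul_le_mul_of_nonneg_right h5 (by positivity)

/-- **the bound of one place** (`PlO` of 661) -/
theorem plO (n : Nu x) {oo : Oo} {b0 d μ : ℕ} (hμ : μ ≤ p.B) (hd : d ≤ p.B) (h8 : 8 * p.B < b0) (o : Fin 7 → ℝ) :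
    PlO x oo b0 μ o d := by
  intro k ω hω hg
  have h := place n (oo := oo) (k := k) hω hμ hd h8 hg o
  rw [Finset.sum_product] at h
  exact h

end Vale.Agent.P106.U.H101.SPlace
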