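import Vale.Agent.P106.U.S3.PthW
import Vale.Agent.P106.U.H300.GenX

/-!
# P106 / U / H101 : the letter of the cell is nearly nested in the cap (helper101)

Two inputs `D1` (cap `b`), `D2` (later cap) of 785's letter (`S3/PthW`), same ray, time, label, offsets.

* `rc_eq` : a record of `D1` is the record of `D2` with the same level, precision and slope.
* `rc_far` : the record `j` of `D1` is determined by the record `i2` of `D2` (a later level) and the slope `gA j`, outside `BadT`.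
* `t_near` : hence the letter `D1.T i` is determined by `D2.T i2` : near records are literally equal, far records outside `BadT`.
* `genw` : one generic offset, levels and radii depend on the point, with flags; `exists_oT` : offsets `oK oG oN` with small sum
  of `BadT`.
-/

set_option autoImplicit false

namespace Vale.Agent.P106.U.H101.TN

open Finset Vale.Agent.P127 Vale.Agent.P127.Stk
open Vale.Agent.P127.U.CellD
open Vale.Agent.P106.U.Cell Vale.Agent.P106.U.S3.PthW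

variable {Ω : Type}

/-- the same ray, time, label and offsets -/
structure SameI (D1 D2 : Inp Ω) : Prop where
  t : D1.t = D2.t
  FW : D1.FW = D2.FW
  tW : D1.tW = D2.tW
  Nc : D1.Nc = D2.Nc
  oK : D1.oK = D2.oK
  oG : D1.oG = D2.oG
  oN : D1.oN = D2.oN

variable {D1 D2 : Inp Ω} {i i2 j j2 : ℕ} {ω ω' : Ω}

/-- a near record -/
theorem rc_eq (hS : SameI D1 D2) (ha : D1.a j = D2.a j2) (hk : D1.rk j = D2.rk j2) (hg : D1.gA j ω = D2.gA j2 ω) :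
    D1.rc j ω = D2.rc j2 ω := by
  obtain ⟨h1, h2, h3, h4, h5, h6, h7⟩ := hS
  have s0 : D1.s j ω = D2.s j2 ω := by unfold Inp.s; rw [ha, h1]
  have e1 : D1.aN j ω = D2.aN j2 ω := by unfold Inp.aN; rw [ha, hk, hg]
  have e2 : D1.kN j ω = D2.kN j2 ω := by unfold Inp.kN Inp.kR; rw [hk, h2, h3, h5, s0, hg]
  have e3 : D1.gN j ω = D2.gN j2 ω := by
    unfold Inp.gN Inp.gR Inp.Nr' Inp.de Inp.al'
    rw [e1, hk, ha, h2, h4, h6, h7, hg]
  unfold Inp.rc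
  rw [e1, e2, e3, ha, h1]

/-- one of the numbers of the record `j` is close to a change of digits -/
def BadT (D : Inp Ω) (j : ℕ) (ρ σ : ℝ) (ω : Ω) : Prop :=
  Nb (D.rk j) (D.kR j ω + D.oK) ρ ∨ Nb (D.rk j) (D.gR j ω + D.oG) ρ ∨ Nb (D.a j) (D.Nc ω + D.oN) σ

/-- **a far record** : the record `j` of `D1`, from the record `i2` of `D2` -/
theorem rc_far (hS : SameI D1 D2) {K ρ : ℝ} (hK : 0 ≤ K) (hrc : D2.rc i2 ω = D2.rc i2 ω') (ha : D1.a j ≤ D2.a i2)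
    (hg : D1.gA j ω = D1.gA j ω')
    (h1 : |D2.gA i2 ω - D1.gA j ω| * q2 (D2.a i2) ≤ ρ) (h1' : |D2.gA i2 ω' - D1.gA j ω'| * q2 (D2.a i2) ≤ ρ)
    (ht : |D2.tW ω - D2.s i2 ω| ≤ K * q2 (D2.a i2)) (ht' : |D2.tW ω' - D2.s i2 ω'| ≤ K * q2 (D2.a i2))
    (hN : |D2.Nc ω' - D2.Nc ω| ≤ K * q2 (D2.a i2))
    (hB : ¬ BadT D1 j (K * (2 * ρ) + (4 + 2 * K) * q2 (D2.rk i2)) (K * q2 (D2.a i2)) ω) :
    D1.rc j ω = D1.rc j ω' := by
  obtain ⟨e1, e2, e3, e4, e5, e6, e7⟩ := hS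
  unfold BadT at hB
  push Not at hB
  obtain ⟨hB1, hB2, hB3⟩ := hB
  obtain ⟨r1, r2, r3, r4⟩ : fl1 (D2.a i2) (D2.t ω) = fl1 (D2.a i2) (D2.t ω') ∧ D2.aN i2 ω = D2.aN i2 ω' ∧
      D2.kN i2 ω = D2.kN i2 ω' ∧ D2.gN i2 ω = D2.gN i2 ω' := by
    unfold Inp.rc at hrc
    simpa only [Prod.mk.injEq] using hrc
  have hta : fl1 (D1.a j) (D1.t ω) = fl1 (D1.a j) (D1.t ω') := by rw [e1]; exact fl1_fl1 ha r1
  have hs2 : D2.s i2 ω' = D2.s i2 ω := by unfold Inp.s rd; rw [r1]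
  have hs1 : D1.s j ω' = D1.s j ω := by unfold Inp.s rd; rw [hta]
  have q0 := q2_pos (D2.a i2)
  have qk := q2_pos (D2.rk i2)
  have ρ0 : 0 ≤ ρ := (mul_nonneg (abs_nonneg _) q0.le).trans h1
  -- kappa
  have k2 : |D2.kR i2 ω' - D2.kR i2 ω| ≤ q2 (D2.rk i2) := by
    have := near_of_fl r3
    rwa [add_sub_add_right_eq_sub] at this
  have idk : ∀ ω, D1.kR j ω - D2.kR i2 ω = (D2.s i2 ω - D1.s j ω) * D1.gA j ω +
      (D2.s i2 ω - D2.tW ω) * (D2.gA i2 ω - D1.gA j ω) := by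
    intro ω
    unfold Inp.kR
    rw [e2, e3]
    ring
  have mt : ∀ ω, |D2.gA i2 ω - D1.gA j ω| * q2 (D2.a i2) ≤ ρ → |D2.tW ω - D2.s i2 ω| ≤ K * q2 (D2.a i2) →
      |(D2.s i2 ω - D2.tW ω) * (D2.gA i2 ω - D1.gA j ω)| ≤ K * ρ := by
    intro ω a1 a2
    rw [abs_mul, abs_sub_comm (D2.s i2 ω)]
    calc |D2.tW ω - D2.s i2 ω| * |D2.gA i2 ω - D1.gA j ω| ≤ K * q2 (D2.a i2) * |D2.gA i2 ω - D1.gA j ω| :=
          mul_le_mul_of_nonneg_right a2 (abs_nonneg _)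
      _ = K * (|D2.gA i2 ω - D1.gA j ω| * q2 (D2.a i2)) := by ring
      _ ≤ K * ρ := mul_le_mul_of_nonneg_left a1 hK
  have k1 : |D1.kR j ω' - D1.kR j ω| ≤ K * (2 * ρ) + (4 + 2 * K) * q2 (D2.rk i2) := by
    have i1 := idk ω
    have i1' := idk ω'
    rw [hs1, hs2, ← hg] at i1'
    have m1 := mt ω h1 ht
    have m1' := mt ω' h1' ht'
    rw [hs2, ← hg] at m1'
    have e : D1.kR j ω' - D1.kR j ω = (D2.kR i2 ω' - D2.kR i2 ω) +
        (D2.s i2 ω - D2.tW ω') * (D2.gA i2 ω' - D1.gA j ω) -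
        (D2.s i2 ω - D2.tW ω) * (D2.gA i2 ω - D1.gA j ω) := by linarith
    rw [e]
    have t1 := abs_sub ((D2.kR i2 ω' - D2.kR i2 ω) + (D2.s i2 ω - D2.tW ω') * (D2.gA i2 ω' - D1.gA j ω))
      ((D2.s i2 ω - D2.tW ω) * (D2.gA i2 ω - D1.gA j ω))
    have t2 := abs_add_le (D2.kR i2 ω' - D2.kR i2 ω) ((D2.s i2 ω - D2.tW ω') * (D2.gA i2 ω' - D1.gA j ω))
    have t3 : 0 ≤ K * q2 (D2.rk i2) := mul_nonneg hK qk.le
    linarith
  have hk : D1.kN j ω = D1.kN j ω' := by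
    unfold Inp.kN
    refine Nb.eq hB1 ?_ ?_
    · rw [sub_self, abs_zero]
      exact (abs_nonneg _).trans k1
    · rwa [add_sub_add_right_eq_sub]
  -- the curvature
  have haN : D1.aN j ω = D1.aN j ω' := by unfold Inp.aN; rw [hg]
  have hal : D1.al' j ω = D1.al' j ω' := by unfold Inp.al'; rw [haN]
  -- the position
  have hNr : D1.Nr' j ω = D1.Nr' j ω' := by
    have : fl1 (D1.a j) (D1.Nc ω + D1.oN) = fl1 (D1.a j) (D1.Nc ω' + D1.oN) := by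
      refine Nb.eq hB3 ?_ ?_
      · rw [sub_self, abs_zero]
        exact (abs_nonneg _).trans hN
      · rw [add_sub_add_right_eq_sub, e4]
        exact hN
    unfold Inp.Nr' rd
    rw [this]
  -- gamma
  have g2 : |D2.gR i2 ω' - D2.gR i2 ω| ≤ q2 (D2.rk i2) := by
    have := near_of_fl r4
    rwa [add_sub_add_right_eq_sub] at this
  have al2 : D2.al' i2 ω' = D2.al' i2 ω := by unfold Inp.al'; rw [r2]
  have f1 := D2.al_err i2 ω
  have f1' := D2.al_err i2 ω'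
  rw [al2] at f1'
  have n1 : |D2.Nr' i2 ω - D2.Nc ω| ≤ q2 (D2.a i2) := Inp.off_err _ _ _
  have n1' : |D2.Nr' i2 ω' - D2.Nc ω'| ≤ q2 (D2.a i2) := Inp.off_err _ _ _
  have n2 : |D2.Nr' i2 ω' - D2.Nc ω| ≤ (1 + K) * q2 (D2.a i2) := by
    have := abs_add_le (D2.Nr' i2 ω' - D2.Nc ω') (D2.Nc ω' - D2.Nc ω)
    rw [sub_add_sub_cancel] at this
    linarith
  have idg : D1.gR j ω' - D1.gR j ω = (D2.gR i2 ω' - D2.gR i2 ω) +
      (D1.gA j ω - D2.gA i2 ω') * (D2.Nc ω' - D2.Nc ω) -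
      (D2.al' i2 ω - D2.gA i2 ω') * (D2.Nr' i2 ω' - D2.Nc ω) +
      (D2.al' i2 ω - D2.gA i2 ω) * (D2.Nr' i2 ω - D2.Nc ω) := by
    unfold Inp.gR Inp.de
    rw [← hNr, ← hal, ← hg, al2, e2, e4]
    ring
  have b1 : |(D1.gA j ω - D2.gA i2 ω') * (D2.Nc ω' - D2.Nc ω)| ≤ K * ρ := by
    rw [← hg] at h1'
    rw [abs_mul, abs_sub_comm (D1.gA j ω)]
    calc |D2.gA i2 ω' - D1.gA j ω| * |D2.Nc ω' - D2.Nc ω| ≤ |D2.gA i2 ω' - D1.gA j ω| * (K * q2 (D2.a i2)) :=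
          mul_le_mul_of_nonneg_left hN (abs_nonneg _)
      _ = K * (|D2.gA i2 ω' - D1.gA j ω| * q2 (D2.a i2)) := by ring
      _ ≤ K * ρ := mul_le_mul_of_nonneg_left h1' hK
  have b2 : |(D2.al' i2 ω - D2.gA i2 ω') * (D2.Nr' i2 ω' - D2.Nc ω)| ≤ (1 + K) * q2 (D2.rk i2) := by
    rw [abs_mul]
    calc |D2.al' i2 ω - D2.gA i2 ω'| * |D2.Nr' i2 ω' - D2.Nc ω| ≤
        |D2.al' i2 ω - D2.gA i2 ω'| * ((1 + K) * q2 (D2.a i2)) := mul_le_mul_of_nonneg_left n2 (abs_nonneg _)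
      _ = (1 + K) * (|D2.al' i2 ω - D2.gA i2 ω'| * q2 (D2.a i2)) := by ring
      _ ≤ _ := mul_le_mul_of_nonneg_left f1' (by linarith)
  have b3 : |(D2.al' i2 ω - D2.gA i2 ω) * (D2.Nr' i2 ω - D2.Nc ω)| ≤ q2 (D2.rk i2) := by
    rw [abs_mul]
    exact (mul_le_mul_of_nonneg_left n1 (abs_nonneg _)).trans f1
  have gk : |D1.gR j ω' - D1.gR j ω| ≤ K * (2 * ρ) + (4 + 2 * K) * q2 (D2.rk i2) := by
    rw [idg]
    have t1 := abs_add_le ((D2.gR i2 ω' - D2.gR i2 ω) + (D1.gA j ω - D2.gA i2 ω') * (D2.Nc ω' - D2.Nc ω) -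
      (D2.al' i2 ω - D2.gA i2 ω') * (D2.Nr' i2 ω' - D2.Nc ω)) ((D2.al' i2 ω - D2.gA i2 ω) * (D2.Nr' i2 ω - D2.Nc ω))
    have t2 := abs_sub ((D2.gR i2 ω' - D2.gR i2 ω) + (D1.gA j ω - D2.gA i2 ω') * (D2.Nc ω' - D2.Nc ω))
      ((D2.al' i2 ω - D2.gA i2 ω') * (D2.Nr' i2 ω' - D2.Nc ω))
    have t3 := abs_add_le (D2.gR i2 ω' - D2.gR i2 ω) ((D1.gA j ω - D2.gA i2 ω') * (D2.Nc ω' - D2.Nc ω))
    have t4 : 0 ≤ K * q2 (D2.rk i2) := mul_nonneg hK qk.le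
    have t5 : 0 ≤ K * ρ := mul_nonneg hK ρ0
    linarith
  have hgN : D1.gN j ω = D1.gN j ω' := by
    unfold Inp.gN
    refine Nb.eq hB2 ?_ ?_
    · rw [sub_self, abs_zero]
      exact (abs_nonneg _).trans gk
    · rwa [add_sub_add_right_eq_sub]
  unfold Inp.rc
  rw [hta, haN, hk, hgN]

/-- **the letter of the earlier cap is determined by the letter of the later cap** : near records (`j ∈ near`, with the index
`f j` in `D2`) are literally equal, far records outside `BadT` -/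
theorem t_near (hS : SameI D1 D2) {K : ℝ} (hK : 0 ≤ K) (h : D2.T i2 ω = D2.T i2 ω')
    (ht : |D2.tW ω - D2.s i2 ω| ≤ K * q2 (D2.a i2)) (ht' : |D2.tW ω' - D2.s i2 ω'| ≤ K * q2 (D2.a i2))
    (hN : |D2.Nc ω' - D2.Nc ω| ≤ K * q2 (D2.a i2)) (ρ : ℕ → ℝ)
    (hj : ∀ j ≤ i, (∃ j2 ≤ i2, D1.a j = D2.a j2 ∧ D1.rk j = D2.rk j2 ∧ D1.gA j ω = D2.gA j2 ω ∧
        D1.gA j ω' = D2.gA j2 ω') ∨
      (D1.a j ≤ D2.a i2 ∧ D1.gA j ω = D1.gA j ω' ∧ |D2.gA i2 ω - D1.gA j ω| * q2 (D2.a i2) ≤ ρ j ∧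
        |D2.gA i2 ω' - D1.gA j ω'| * q2 (D2.a i2) ≤ ρ j ∧
        ¬ BadT D1 j (K * (2 * ρ j) + (4 + 2 * K) * q2 (D2.rk i2)) (K * q2 (D2.a i2)) ω)) :
    D1.T i ω = D1.T i ω' := by
  refine (D1.T_eq_iff i ω ω').2 fun j hji => ?_
  rcases hj j hji with ⟨j2, hj2, h1, h2, h3, h4⟩ | ⟨h1, h2, h3, h4, h5⟩
  · rw [rc_eq hS h1 h2 h3, rc_eq hS h1 h2 h4]
    exact (D2.T_eq_iff i2 ω ω').1 h j2 hj2
  · exact rc_far hS hK ((D2.T_eq_iff i2 ω ω').1 h i2 le_rfl) h1 h2 h3 h4 ht ht' hN h5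

/-- larger radii -/
theorem BadT_mono {D : Inp Ω} {ρ ρ' σ σ' : ℝ} (h1 : ρ ≤ ρ') (h2 : σ ≤ σ') (h : BadT D j ρ σ ω) : BadT D j ρ' σ' ω := by
  have key : ∀ {n : ℕ} {z e e' : ℝ}, e ≤ e' → Nb n z e → Nb n z e' := by
    intro n z e e' he hh
    by_contra hn
    obtain ⟨y, y1, y2, y3⟩ := hh
    have e0 : 0 ≤ e := by linarith
    refine y3 (Nb.eq hn ?_ ?_) <;> rw [abs_le] <;> constructor <;> linarith
  rcases h with h | h | h
  · exact Or.inl (key h1 h)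
  · exact Or.inr (Or.inl (key h1 h))
  · exact Or.inr (Or.inr (key h2 h))

section gen

variable [Fintype Ω] {ι : Type*}

open Classical in
/-- **one generic offset** : levels and radii depend on the point, `I x ω` = flag -/
theorem genw (P : Law Ω) (S : Finset ι) (I : ι → Ω → Prop) (n : ι → Ω → ℕ) (z r : ι → Ω → ℝ)
    (hr : ∀ x ∈ S, ∀ ω, I x ω → 0 ≤ r x ω) : ∃ ξ : ℝ, 0 < ξ ∧ ξ ≤ 1 ∧
      ∑ x ∈ S, prE P (fun ω => I x ω ∧ Nb (n x ω) (z x ω + ξ) (r x ω)) ≤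
        ∑ x ∈ S, P.ex (fun ω => if I x ω then 2 * (2 : ℝ) ^ (n x ω) * r x ω else 0) := by
  obtain ⟨ξ, h0, h1, h2⟩ := Vale.Agent.P127.U.H715.gen_shift P S n
    (fun x ω => z x ω - r x ω) (fun x ω => if I x ω then 2 * r x ω else 0)
  refine ⟨ξ, h0, h1, ?_⟩
  have e : ∑ x ∈ S, P.ex (fun ω => (2 : ℝ) ^ (n x ω) * (if I x ω then 2 * r x ω else 0)) =
      ∑ x ∈ S, P.ex (fun ω => if I x ω then 2 * (2 : ℝ) ^ (n x ω) * r x ω else 0) := by
    refine Finset.sum_congr rfl fun x _ => ?_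
    congr 1
    funext ω
    split_ifs
    · ring
    · ring
  rw [e] at h2
  refine le_trans ?_ h2
  refine Finset.sum_le_sum fun x hx => ?_
  unfold prE Law.ex
  rw [Finset.sum_filter]
  refine Finset.sum_le_sum fun ω _ => ?_
  by_cases hI : I x ω
  · have hη : 0 ≤ 2 * r x ω := by
      have := hr x hx ω hI
      positivity
    simp only [hI, true_and, if_true]
    split_ifs with hE
    · obtain ⟨y, h3, h4, h5⟩ := hE
      have h6 : 1 ≤ Vale.Agent.P127.U.H715.cnt (n x ω) (z x ω - r x ω + ξ) (2 * r x ω) := by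
        by_contra hlt
        refine h5 ?_
        have := Vale.Agent.P127.U.H715.fl1_eq_of_cnt (y := y) _ (not_le.1 hlt) (by linarith) (by linarith)
        rw [this]
        congr 1
        ring
      nlinarith [P.nn ω]
    · exact mul_nonneg (P.nn ω) (Vale.Agent.P127.U.H715.cnt_nonneg _ _ hη)
  · simp only [hI, false_and, if_false]
    exact mul_nonneg (P.nn ω) (Vale.Agent.P127.U.H715.cnt_nonneg _ _ le_rfl)

/-- the input with other offsets of the letter -/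
def wo3 (D : Inp Ω) (oK oG oN : ℝ) : Inp Ω := { D with oK := oK, oG := oG, oN := oN }

open Classical in
/-- **generic offsets of the letter** : `w` = word, `D e` = input of the word `e`, `x ∈ S` = labels, `I x ω` = flag, `j x ω` =
index, `ρ x ω` = relative radius -/
theorem exists_oT {σ : Type*} (P : Law Ω) (w : Ω → σ) (D : σ → Inp Ω) (S : Finset ι) (I : ι → Ω → Prop) (j : ι → Ω → ℕ)
    (ρ : ι → Ω → ℝ) (hρ : ∀ x ∈ S, ∀ ω, I x ω → 0 ≤ ρ x ω) :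
    ∃ oK oG oN : ℝ, (0 < oK ∧ oK ≤ 1) ∧ (0 < oG ∧ oG ≤ 1) ∧ (0 < oN ∧ oN ≤ 1) ∧
      ∑ x ∈ S, prE P (fun ω => I x ω ∧ BadT (wo3 (D (w ω)) oK oG oN) (j x ω) (ρ x ω * q2 ((D (w ω)).rk (j x ω)))
        (ρ x ω * q2 ((D (w ω)).a (j x ω))) ω) ≤ 6 * ∑ x ∈ S, P.ex (fun ω => if I x ω then ρ x ω else 0) := by
  obtain ⟨oN, n1, n2, n3⟩ := genw P S I (fun x ω => (D (w ω)).a (j x ω)) (fun _ ω => (D (w ω)).Nc ω)
    (fun x ω => ρ x ω * q2 ((D (w ω)).a (j x ω))) fun x hx ω h => mul_nonneg (hρ x hx ω h) (q2_pos _).le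
  obtain ⟨oK, k1, k2, k3⟩ := genw P S I (fun x ω => (D (w ω)).rk (j x ω)) (fun x ω => (D (w ω)).kR (j x ω) ω)
    (fun x ω => ρ x ω * q2 ((D (w ω)).rk (j x ω))) fun x hx ω h => mul_nonneg (hρ x hx ω h) (q2_pos _).le
  obtain ⟨oG, g1, g2, g3⟩ := genw P S I (fun x ω => (D (w ω)).rk (j x ω))
    (fun x ω => (wo3 (D (w ω)) oK 0 oN).gR (j x ω) ω)
    (fun x ω => ρ x ω * q2 ((D (w ω)).rk (j x ω))) fun x hx ω h => mul_nonneg (hρ x hx ω h) (q2_pos _).le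
  refine ⟨oK, oG, oN, ⟨k1, k2⟩, ⟨g1, g2⟩, ⟨n1, n2⟩, ?_⟩
  have e : ∀ (n : ι → Ω → ℕ), ∑ x ∈ S, P.ex (fun ω => if I x ω then 2 * (2 : ℝ) ^ (n x ω) * (ρ x ω * q2 (n x ω)) else 0) =
      2 * ∑ x ∈ S, P.ex (fun ω => if I x ω then ρ x ω else 0) := by
    intro n
    rw [Finset.mul_sum]
    refine Finset.sum_congr rfl fun x _ => ?_
    unfold Law.ex
    rw [Finset.mul_sum]
    refine Finset.sum_congr rfl fun ω _ => ?_
    beta_reduce
    by_cases hI : I x ω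
    · rw [if_pos hI, if_pos hI]
      have := q2_mul_pow (n x ω)
      linear_combination (2 * P.w ω * ρ x ω) * this
    · rw [if_neg hI, if_neg hI]
      ring
  rw [e (fun x ω => (D (w ω)).a (j x ω))] at n3
  rw [e (fun x ω => (D (w ω)).rk (j x ω))] at k3 g3
  have h : ∀ x ∈ S, prE P (fun ω => I x ω ∧ BadT (wo3 (D (w ω)) oK oG oN) (j x ω) (ρ x ω * q2 ((D (w ω)).rk (j x ω)))
        (ρ x ω * q2 ((D (w ω)).a (j x ω))) ω) ≤
      prE P (fun ω => I x ω ∧ Nb ((D (w ω)).rk (j x ω)) ((D (w ω)).kR (j x ω) ω + oK)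
        (ρ x ω * q2 ((D (w ω)).rk (j x ω)))) +
      (prE P (fun ω => I x ω ∧ Nb ((D (w ω)).rk (j x ω)) ((wo3 (D (w ω)) oK 0 oN).gR (j x ω) ω + oG)
        (ρ x ω * q2 ((D (w ω)).rk (j x ω)))) +
      prE P (fun ω => I x ω ∧ Nb ((D (w ω)).a (j x ω)) ((D (w ω)).Nc ω + oN)
        (ρ x ω * q2 ((D (w ω)).a (j x ω))))) := by
    intro x _
    unfold prE
    simp only [Finset.sum_filter]
    rw [← Finset.sum_add_distrib, ← Finset.sum_add_distrib]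
    refine Finset.sum_le_sum fun ω _ => ?_
    have p := P.nn ω
    by_cases hI : I x ω
    · simp only [hI, true_and]
      by_cases c1 : Nb ((D (w ω)).rk (j x ω)) ((D (w ω)).kR (j x ω) ω + oK) (ρ x ω * q2 ((D (w ω)).rk (j x ω)))
      · rw [if_pos c1]
        have : (if BadT (wo3 (D (w ω)) oK oG oN) (j x ω) (ρ x ω * q2 ((D (w ω)).rk (j x ω)))
            (ρ x ω * q2 ((D (w ω)).a (j x ω))) ω then P.w ω else 0) ≤ P.w ω := by split_ifs <;> linarith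
        have t1 : 0 ≤ (if Nb ((D (w ω)).rk (j x ω)) ((wo3 (D (w ω)) oK 0 oN).gR (j x ω) ω + oG)
          (ρ x ω * q2 ((D (w ω)).rk (j x ω))) then P.w ω else 0) := by split_ifs <;> linarith
        have t2 : 0 ≤ (if Nb ((D (w ω)).a (j x ω)) ((D (w ω)).Nc ω + oN)
          (ρ x ω * q2 ((D (w ω)).a (j x ω))) then P.w ω else 0) := by split_ifs <;> linarith
        linarith
      · by_cases c2 : Nb ((D (w ω)).rk (j x ω)) ((wo3 (D (w ω)) oK 0 oN).gR (j x ω) ω + oG)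
          (ρ x ω * q2 ((D (w ω)).rk (j x ω)))
        · rw [if_neg c1, if_pos c2]
          have : (if BadT (wo3 (D (w ω)) oK oG oN) (j x ω) (ρ x ω * q2 ((D (w ω)).rk (j x ω)))
            (ρ x ω * q2 ((D (w ω)).a (j x ω))) ω then P.w ω else 0) ≤ P.w ω := by split_ifs <;> linarith
          have t2 : 0 ≤ (if Nb ((D (w ω)).a (j x ω)) ((D (w ω)).Nc ω + oN)
            (ρ x ω * q2 ((D (w ω)).a (j x ω))) then P.w ω else 0) := by split_ifs <;> linarith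
          linarith
        · by_cases c3 : Nb ((D (w ω)).a (j x ω)) ((D (w ω)).Nc ω + oN) (ρ x ω * q2 ((D (w ω)).a (j x ω)))
          · rw [if_neg c1, if_neg c2, if_pos c3]
            split_ifs <;> linarith
          · have hb : ¬ BadT (wo3 (D (w ω)) oK oG oN) (j x ω) (ρ x ω * q2 ((D (w ω)).rk (j x ω)))
              (ρ x ω * q2 ((D (w ω)).a (j x ω))) ω := by
              rintro (hb | hb | hb)
              · exact c1 hb
              · exact c2 hb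
              · exact c3 hb
            rw [if_neg c1, if_neg c2, if_neg c3, if_neg hb]
            linarith
    · simp only [hI, false_and, if_false]
      linarith
  refine (Finset.sum_le_sum h).trans ?_
  rw [Finset.sum_add_distrib, Finset.sum_add_distrib]
  linarith

end gen

end Vale.Agent.P106.U.H101.TN
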